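import Vale.Agent.P150.Ising

/-!
# P150, Part B: the event `G` and the covariance statement

`u = 1 - s`, `a = β² u²`, `A = J + c`. The posterior at `(s, y)` is `Ising.wt (u J) y`, its mean is
`mean`, its covariance `cov`, and the channel from `s = 0` is `y = s A x + √s B z` with `B Bᵀ = A`.
See `notes/P150_partB_design_helper62.md`.
-/

open MeasureTheory Matrix
open scoped Matrix.Norms.L2Operator

namespace Vale.Agent.P150.PartB

variable {n : ℕ}

/-- the Euclidean norm of a vector -/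
noncomputable def nrm {ι : Type*} [Fintype ι] (v : ι → ℝ) : ℝ := Real.sqrt (∑ i, v i ^ 2)

/-- the Frobenius norm of a matrix -/
noncomputable def fnrm (M : Matrix (Fin n) (Fin n) ℝ) : ℝ := Real.sqrt (∑ i, ∑ j, M i j ^ 2)

/-- `β² (1 - s)²` -/
def aCoef (β s : ℝ) : ℝ := β ^ 2 * (1 - s) ^ 2

/-- the derivative of `aCoef` in `s` -/
def aCoef' (β s : ℝ) : ℝ := -2 * β ^ 2 * (1 - s)

/-- the overlap `|m|² / n` -/
noncomputable def qv (m : Fin n → ℝ) : ℝ := (∑ i, m i ^ 2) / n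

/-- `diag (1 - m²)` -/
def dMat (m : Fin n → ℝ) : Matrix (Fin n) (Fin n) ℝ := diagonal fun i => 1 - m i ^ 2

/-- the part of the TAP Jacobian other than `diag (1/(1-m²))` -/
noncomputable def vMat (β s : ℝ) (J : Matrix (Fin n) (Fin n) ℝ) (m : Fin n → ℝ) :
    Matrix (Fin n) (Fin n) ℝ :=
  (aCoef β s * (1 - qv m)) • 1 - (1 - s) • J - (2 * aCoef β s / n) • vecMulVec m m

/-- the TAP Jacobian -/
noncomputable def kHat (β s : ℝ) (J : Matrix (Fin n) (Fin n) ℝ) (m : Fin n → ℝ) :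
    Matrix (Fin n) (Fin n) ℝ :=
  diagonal (fun i => 1 / (1 - m i ^ 2)) + vMat β s J m

/-- `H` with `kHat⁻¹ = D + D H D` -/
noncomputable def hMat (β s : ℝ) (J : Matrix (Fin n) (Fin n) ℝ) (m : Fin n → ℝ) :
    Matrix (Fin n) (Fin n) ℝ :=
  -(vMat β s J m * (1 + dMat m * vMat β s J m)⁻¹)

/-- `p` with `C A C = D p D` when `C = D + D F D` -/
def pMat (A : Matrix (Fin n) (Fin n) ℝ) (m : Fin n → ℝ) (F : Matrix (Fin n) (Fin n) ℝ) :
    Matrix (Fin n) (Fin n) ℝ :=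
  (1 + F * dMat m) * A * (1 + dMat m * F)

/-- `tr (C A C) / n` -/
noncomputable def trP (m : Fin n → ℝ) (p : Matrix (Fin n) (Fin n) ℝ) : ℝ :=
  (∑ i, (1 - m i ^ 2) ^ 2 * p i i) / n

/-- the scalar `a' (1 - q) - a tr P / n` -/
noncomputable def shiftCoef (β s : ℝ) (m : Fin n → ℝ) (p : Matrix (Fin n) (Fin n) ℝ) : ℝ :=
  aCoef' β s * (1 - qv m) - aCoef β s * trP m p

/-- the vector of the rank one cross term -/
def cross (m : Fin n → ℝ) (H p : Matrix (Fin n) (Fin n) ℝ) (j : Fin n) : ℝ :=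
  m j * (p * dMat m * (1 + dMat m * H)) j j

/-- main part of the middle factor of the drift of `kHat⁻¹` -/
noncomputable def xMain (β s : ℝ) (J : Matrix (Fin n) (Fin n) ℝ) (m : Fin n → ℝ)
    (H p : Matrix (Fin n) (Fin n) ℝ) : Matrix (Fin n) (Fin n) ℝ :=
  -diagonal (fun i => p i i) + (4 : ℝ) • (diagonal m * Matrix.hadamard H p * diagonal m)
    - shiftCoef β s m p • (1 : Matrix (Fin n) (Fin n) ℝ) - J
    + (2 * aCoef' β s / n + (2 * aCoef β s) ^ 2 *
        trace ((dMat m + dMat m * H * dMat m) * (dMat m * p * dMat m)) / (n : ℝ) ^ 2) • vecMulVec m m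
    - (2 * (2 * aCoef β s) / n) •
        (vecMulVec (cross m H p) m + vecMulVec m (cross m H p))

/-- main part of `Ψ`, where the drift of `kHat⁻¹` plus `C A C` is `D Ψ D` -/
noncomputable def psiMain (β s : ℝ) (J A : Matrix (Fin n) (Fin n) ℝ) (m : Fin n → ℝ)
    (H F : Matrix (Fin n) (Fin n) ℝ) : Matrix (Fin n) (Fin n) ℝ :=
  (1 + H * dMat m) * xMain β s J m H (pMat A m F) * (1 + dMat m * H) + pMat A m F

/-- main part of the drift of the TAP residual -/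
noncomputable def resDrift (β c s : ℝ) (A : Matrix (Fin n) (Fin n) ℝ) (m : Fin n → ℝ)
    (F : Matrix (Fin n) (Fin n) ℝ) (i : Fin n) : ℝ :=
  m i * pMat A m F i i + (shiftCoef β s m (pMat A m F) - c) * m i

/-- TAP residual at `m = tanh z` -/
noncomputable def tapRes (β s : ℝ) (J : Matrix (Fin n) (Fin n) ℝ) (y z : Fin n → ℝ) (i : Fin n) :
    ℝ :=
  z i + aCoef β s * (1 - qv fun j => Real.tanh (z j)) * Real.tanh (z i)
    - (1 - s) * (∑ j, J i j * Real.tanh (z j)) - y i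

/-- The event `G` at one point, certified by the candidate `z`: a coarse residual and, on the ball
of radius `ρ √n` about `tanh z`, definiteness of the Jacobian, the two drifts in `ℓ²` and the drift
in norm. -/
structure Cert (β c η ε ρ ε₂ s : ℝ) (J : Matrix (Fin n) (Fin n) ℝ) (y z : Fin n → ℝ) : Prop where
  res : nrm (tapRes β s J y z) ≤ η * ρ / 8 * Real.sqrt n
  ysup : ∀ i, |y i| ≤ (n : ℝ) ^ (3 / 5 : ℝ)
  pos : ∀ m : Fin n → ℝ, (∀ i, |m i| < 1) →
    nrm (fun i => m i - Real.tanh (z i)) ≤ ρ * Real.sqrt n →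
    ∀ v : Fin n → ℝ, η * ∑ i, v i ^ 2 ≤ v ⬝ᵥ kHat β s J m *ᵥ v
  psiFrob : ∀ m : Fin n → ℝ, (∀ i, |m i| < 1) →
    nrm (fun i => m i - Real.tanh (z i)) ≤ ρ * Real.sqrt n →
    fnrm (psiMain β s J (J + c • 1) m (hMat β s J m) (hMat β s J m)) ≤ ε₂ * Real.sqrt n
  resBall : ∀ m : Fin n → ℝ, (∀ i, |m i| < 1) →
    nrm (fun i => m i - Real.tanh (z i)) ≤ ρ * Real.sqrt n →
    nrm (resDrift β c s (J + c • 1) m (hMat β s J m)) ≤ ε₂ * Real.sqrt n
  psiBall : ∀ m : Fin n → ℝ, (∀ i, |m i| < 1) →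
    nrm (fun i => m i - Real.tanh (z i)) ≤ ρ * Real.sqrt n →
    ‖psiMain β s J (J + c • 1) m (hMat β s J m) (hMat β s J m)‖ ≤ ε

/-- posterior mean -/
noncomputable def mean (J : Matrix (Fin n) (Fin n) ℝ) (s : ℝ) (y : Fin n → ℝ) (i : Fin n) : ℝ :=
  Ising.avg ((1 - s) • J) y fun x => spin (x i)

/-- posterior covariance -/
noncomputable def cov (J : Matrix (Fin n) (Fin n) ℝ) (s : ℝ) (y : Fin n → ℝ) :
    Matrix (Fin n) (Fin n) ℝ :=
  Matrix.of fun i j =>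
    Ising.avg ((1 - s) • J) y (fun x => spin (x i) * spin (x j)) - mean J s y i * mean J s y j

/-- the spins as a vector -/
def svec (x : Cfg n) (i : Fin n) : ℝ := spin (x i)

/-- the signal `Bᵀ x` of a configuration -/
def sig (B : Matrix (Fin n) (Fin n) ℝ) (x : Cfg n) : Fin n → ℝ := Bᵀ *ᵥ svec x

/-- The kernel of the channel from `(s, y)` to time `s + θ²`: the observation is `y + θ B z` with
`z` distributed as the mixture of the likelihoods under the posterior at `(s, y)`. -/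
noncomputable def kern (J B : Matrix (Fin n) (Fin n) ℝ) (s θ : ℝ) (y : Fin n → ℝ)
    (F : (Fin n → ℝ) → ℝ) : ℝ :=
  ∫ z, mix (Ising.wt ((1 - s) • J) y) (sig B) θ z * F (y + θ • B *ᵥ z) ∂gauss (Fin n)

/-- variance of `f` -/
noncomputable def varW (J : Matrix (Fin n) (Fin n) ℝ) (b : Fin n → ℝ) (f : Cfg n → ℝ) : ℝ :=
  Ising.avg J b (fun x => f x ^ 2) - Ising.avg J b f ^ 2

/-- covariances of `f` with the spins -/
noncomputable def covVec (J : Matrix (Fin n) (Fin n) ℝ) (b : Fin n → ℝ) (f : Cfg n → ℝ)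
    (i : Fin n) : ℝ :=
  Ising.avg J b (fun x => f x * spin (x i)) - Ising.avg J b f * Ising.avg J b fun x => spin (x i)

/-- weak Poincaré inequality -/
def WP (J : Matrix (Fin n) (Fin n) ℝ) (b : Fin n → ℝ) (P e : ℝ) : Prop :=
  ∀ (f : Cfg n → ℝ) (M : ℝ), (∀ x, |f x| ≤ M) → varW J b f ≤ P * Ising.dir J b f + e * M ^ 2

/-- the observation at time `s` -/
noncomputable def obsAt (J B : Matrix (Fin n) (Fin n) ℝ) (c s : ℝ) (x : Cfg n) (z : Fin n → ℝ) :
    Fin n → ℝ :=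
  s • (J + c • 1) *ᵥ svec x + Real.sqrt s • B *ᵥ z

/-- probability of a set of observations at time `s`, averaged over the Gibbs measure -/
noncomputable def chanProb (J B : Matrix (Fin n) (Fin n) ℝ) (c s : ℝ) (S : Set (Fin n → ℝ)) : ℝ :=
  ∑ x, Ising.wt J 0 x * (gauss (Fin n)).real {z | obsAt J B c s x z ∈ S}

/-- the normalised off-diagonal covariance `F`, with `C = D + D F D` -/
noncomputable def fMat (J : Matrix (Fin n) (Fin n) ℝ) (s : ℝ) (y : Fin n → ℝ) :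
    Matrix (Fin n) (Fin n) ℝ :=
  Matrix.of fun i j =>
    if i = j then 0 else cov J s y i j / ((1 - mean J s y i ^ 2) * (1 - mean J s y j ^ 2))

/-- candidates are Lipschitz in time and observation, in the variable `tanh z` -/
def CandLip (Lk : ℝ) (cand : ℝ → (Fin n → ℝ) → Fin n → ℝ) : Prop :=
  ∀ s ∈ Set.Icc (0 : ℝ) 1, ∀ t ∈ Set.Icc (0 : ℝ) 1, ∀ y w,
    nrm (fun i => Real.tanh (cand s y i) - Real.tanh (cand t w i)) ≤
      Lk * (|s - t| * Real.sqrt n + nrm fun i => y i - w i)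

/-- The deterministic half of Part B: certificates at finitely many times with exponentially small
failure probability give a bounded covariance, robust to shifts of order `√n`, off an exponentially
small set at every time. -/
def CovInduction : Prop :=
  ∀ β c Λ η : ℝ, 0 ≤ β → β < 1 → 0 ≤ c → 0 < Λ → 0 < η → η ≤ 1 →
  ∃ ε₀ > 0, ∀ ε, 0 < ε → ε ≤ ε₀ → ∀ ρ Lk c₀, 0 < ρ → 0 < Lk → 0 < c₀ → ∃ ε₂ > 0,
  ∃ N : ℕ, 0 < N ∧ ∃ L κ c' : ℝ, 0 < L ∧ 0 < κ ∧ 0 < c' ∧ ∃ n₀ : ℕ, ∀ n ≥ n₀,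
  ∀ (J B : Matrix (Fin n) (Fin n) ℝ) (cand : ℝ → (Fin n → ℝ) → Fin n → ℝ),
    (∀ i j, J i j = J j i) → (∀ i, J i i = 0) → ‖J‖ + |c| ≤ Λ → B * B.transpose = J + c • 1 →
    CandLip Lk cand →
    (∀ k ≤ N, ∃ S : Set (Fin n → ℝ), MeasurableSet S ∧
      chanProb J B c ((k : ℝ) / N) Sᶜ ≤ Real.exp (-(c₀ * n)) ∧
      ∀ y ∈ S, Cert β c η ε ρ ε₂ ((k : ℝ) / N) J y (cand ((k : ℝ) / N) y)) →
    ∀ s ∈ Set.Icc (0 : ℝ) 1, ∃ W : Set (Fin n → ℝ), MeasurableSet W ∧
      chanProb J B c s Wᶜ ≤ Real.exp (-(c' * n)) ∧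
      ∀ y ∈ W, ∀ v : Fin n → ℝ, nrm v ≤ κ * Real.sqrt n → ‖cov J s (y + v)‖ ≤ L

end Vale.Agent.P150.PartB
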