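import Vale.Agent.P150.Fast.PartB.InductionSpec

/-!
# P150, Part B: linear barriers along a grid of vanishing mesh
-/

open MeasureTheory Matrix
open scoped Matrix.Norms.L2Operator

namespace Vale.Agent.P150.PartB

variable {n : ℕ}

/-- one step of the barrier where the leak is small -/
lemma barrier_step (J B : Matrix (Fin n) (Fin n) ℝ) (t θ : ℝ) (Y : Fin n → ℝ)
    {Q W L : (Fin n → ℝ) → ℝ} {C C' Bk b D : ℝ} (hQ : Measurable Q) (hQb : ∀ Z, |Q Z| ≤ C)
    (hW : Measurable W) (hWb : ∀ Z, |W Z| ≤ C') (hL : Measurable L) (hLb : ∀ Z, |L Z| ≤ 1)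
    (hBk : 0 ≤ Bk) (hb : 0 ≤ b) (hle : ∀ Z, Q Z ≤ Bk * W Z + b * L Z + D) :
    kern J B t θ Y Q ≤ Bk * kern J B t θ Y W + b * kern J B t θ Y L + D := by
  have b1 : ∀ Z, |Bk * W Z + b * L Z| ≤ Bk * C' + b * 1 := fun Z =>
    (abs_add_le _ _).trans (add_le_add
      (by rw [abs_mul, abs_of_nonneg hBk]; exact mul_le_mul_of_nonneg_left (hWb Z) hBk)
      (by rw [abs_mul, abs_of_nonneg hb]; exact mul_le_mul_of_nonneg_left (hLb Z) hb))
  have m1 : Measurable fun Z => Bk * W Z + b * L Z := (hW.const_mul _).add (hL.const_mul _)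
  calc kern J B t θ Y Q ≤ kern J B t θ Y (fun Z => D + 1 * (Bk * W Z + b * L Z)) :=
        kern_mono J B t θ Y (M' := |D| + (Bk * C' + b * 1)) hQ hQb
          (measurable_const.add (m1.const_mul _))
          (fun Z => (abs_add_le _ _).trans (add_le_add le_rfl (by rw [one_mul]; exact b1 Z)))
          fun Z => by linarith [hle Z]
    _ = _ := by
      rw [kern_affine J B t θ Y _ _ m1 b1, kern_add J B t θ Y (M := Bk * C') (M' := b * 1) (hW.const_mul _)
        (fun Z => by rw [abs_mul, abs_of_nonneg hBk]; exact mul_le_mul_of_nonneg_left (hWb Z) hBk)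
        (hL.const_mul _)
        (fun Z => by rw [abs_mul, abs_of_nonneg hb]; exact mul_le_mul_of_nonneg_left (hLb Z) hb),
        kern_smul, kern_smul]
      ring

/-- the scalar inequality behind one step -/
lemma barrier_scalar {B₀ G K a x : ℝ} {k : ℕ} (hG : 0 ≤ G) (hK : 0 ≤ K) (hx : 0 ≤ x)
    (ha : a = (B₀ + G * (k * x)) * (1 + K * x) ^ k) :
    a * (1 + K * x) + G * x ≤ (B₀ + G * ((k + 1 : ℕ) * x)) * (1 + K * x) ^ (k + 1) := by
  have h1 : (1 : ℝ) ≤ (1 + K * x) ^ (k + 1) := one_le_pow₀ (by linarith [mul_nonneg hK hx])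
  have h2 := mul_le_mul_of_nonneg_left h1 (mul_nonneg hG hx)
  subst ha
  rw [pow_succ] at h1 h2 ⊢
  push_cast
  nlinarith

lemma one_add_pow_le (K x : ℝ) (k : ℕ) (hK : 0 ≤ K) (hx : 0 ≤ x) :
    (1 + K * x) ^ k ≤ Real.exp (K * (k * x)) :=
  calc (1 + K * x) ^ k ≤ Real.exp (K * x) ^ k :=
        pow_le_pow_left₀ (by positivity) (by linarith [Real.add_one_le_exp (K * x)]) k
    _ = _ := by rw [← Real.exp_nat_mul]; ring_nf

/-- `Barrier`, given the elementary properties of the leak. -/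
theorem barrier (hCh : ChanFacts) : Barrier := by
  intro n Λ c J B hJ s e θ₂ B₀ G K C C' err θm S q w hS hse hθ₂ hθ₂1 hB₀ hG hK hC hθm hmeas hbd hbase
    hstep τ hτ Y₀
  obtain ⟨-, -, -, hleak, hlee, htower, -, -, -⟩ := hCh n Λ c J B hJ
  set b := C / θ₂
  have hb : 0 ≤ b := div_nonneg hC hθ₂.le
  have hleak0 : ∀ t Y, 0 ≤ leak J B e t S Y := fun t Y => ((hleak e t S hS).2 Y).1
  have hbC : C ≤ b := le_div_self hC hθ₂ hθ₂1
  have hend : ∀ Y, q e Y ≤ B₀ * w e Y + b * leak J B e e S Y := fun Y => by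
    rw [hlee]
    by_cases hY : Y ∈ S
    · simpa [hY] using hbase Y hY
    · have h1 := (abs_le.1 (hbd e ⟨hse, le_rfl⟩ Y).1).2
      have h2 : 0 ≤ B₀ * w e Y := mul_nonneg hB₀ (hbd e ⟨hse, le_rfl⟩ Y).2.1
      simp [hY]
      linarith
  set h := e - τ with hdef
  have hh : 0 ≤ h := sub_nonneg.2 hτ.2
  rcases hh.eq_or_lt with hh0 | hh0
  · have hte : τ = e := by simp only [h] at hh0; linarith
    rw [← hh0, hte]
    simpa using hend Y₀
  set Bmax := (B₀ + G * h) * Real.exp (K * h)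
  have hBmax : 0 ≤ Bmax := by positivity
  refine le_of_forall_pos_le_add fun ε hε => ?_
  set A := (1 + Bmax) * |err| * h with hAdef
  obtain ⟨M, hM⟩ := exists_nat_gt (max (h / θm ^ 2) ((A * Real.sqrt h / ε) ^ 2))
  have hMpos : (0 : ℝ) < M := lt_of_le_of_lt (le_max_of_le_left (by positivity)) hM
  set θ := Real.sqrt (h / M)
  have hθ : 0 < θ := Real.sqrt_pos.2 (div_pos hh0 hMpos)
  have hθ2 : θ ^ 2 = h / M := Real.sq_sqrt (div_pos hh0 hMpos).le
  have hMh : (M : ℝ) * θ ^ 2 = h := by rw [hθ2]; field_simp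
  have hθm' : θ ≤ θm := by
    refine le_of_pow_le_pow_left₀ two_ne_zero hθm.le ?_
    rw [hθ2, div_le_iff₀ hMpos]
    have := (div_lt_iff₀ (by positivity : (0:ℝ) < θm ^ 2)).1 (lt_of_le_of_lt (le_max_left _ _) hM)
    linarith
  set δ := (1 + Bmax) * |err| * θ ^ 3
  have hδ : 0 ≤ δ := by positivity
  have key : ∀ k : ℕ, k ≤ M → ∀ Y,
      q (e - k * θ ^ 2) Y ≤ (B₀ + G * (k * θ ^ 2)) * (1 + K * θ ^ 2) ^ k * w (e - k * θ ^ 2) Y +
        b * leak J B e (e - k * θ ^ 2) S Y + k * δ := by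
    intro k
    induction k with
    | zero =>
      intro _ Y
      simpa using hend Y
    | succ k ih =>
      intro hk Y
      have hk' : ((k + 1 : ℕ) : ℝ) ≤ M := by exact_mod_cast hk
      set t := e - (k + 1 : ℕ) * θ ^ 2 with ht
      have hx : ((k + 1 : ℕ) : ℝ) * θ ^ 2 = k * θ ^ 2 + θ ^ 2 := by push_cast; ring
      have ht1 : t + θ ^ 2 = e - k * θ ^ 2 := by rw [ht, hx]; ring
      have hx0 : (0 : ℝ) ≤ k * θ ^ 2 := by positivity
      have hxh : ((k + 1 : ℕ) : ℝ) * θ ^ 2 ≤ h := hMh ▸ mul_le_mul_of_nonneg_right hk' (sq_nonneg θ)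
      have hts : s ≤ t := by linarith [hτ.1]
      have htI : t ∈ Set.Icc s e := ⟨hts, by linarith [sq_nonneg θ]⟩
      have htI' : t + θ ^ 2 ∈ Set.Icc s e := ⟨by linarith [sq_nonneg θ], by linarith⟩
      set Bk := (B₀ + G * (k * θ ^ 2)) * (1 + K * θ ^ 2) ^ k with hBkdef
      have hBk : 0 ≤ Bk := by positivity
      have hBk1 : Bk ≤ Bmax := by
        refine mul_le_mul ?_ ?_ (by positivity) (by positivity)
        · linarith [mul_le_mul_of_nonneg_left (show (k : ℝ) * θ ^ 2 ≤ h by linarith [sq_nonneg θ]) hG]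
        · exact (one_add_pow_le K _ k hK (sq_nonneg θ)).trans (Real.exp_le_exp.2
            (mul_le_mul_of_nonneg_left (by linarith [sq_nonneg θ]) hK))
      have hw0 := (hbd t htI Y).2.1
      have hB' := mul_le_mul_of_nonneg_right (barrier_scalar hG hK (sq_nonneg θ) hBkdef) hw0
      by_cases hz : leak J B e t S Y ≤ θ₂
      · obtain ⟨h1, h2⟩ := hstep t θ hts hθ hθm' (by linarith) Y hz
        have hm := barrier_step J B t θ Y (hmeas (t + θ ^ 2)).1 (fun Z => (hbd _ htI' Z).1) (hmeas (t + θ ^ 2)).2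
          (fun Z => abs_le.2 ⟨by linarith [(hbd _ htI' Z).2.1, (hbd _ htI' Z).2.2], (hbd _ htI' Z).2.2⟩)
          (hleak e (t + θ ^ 2) S hS).1 (fun Z => abs_le.2
            ⟨by linarith [hleak0 (t + θ ^ 2) Z], ((hleak e _ S hS).2 Z).2⟩) hBk hb (D := (k : ℝ) * δ)
          fun Z => by rw [ht1]; exact ih (by omega) Z
        rw [htower e t θ S Y hS hθ.le (by linarith)] at hm
        have h3 := mul_le_mul_of_nonneg_left h2 hBk
        have h4 : Bk * (err * θ ^ 3) + err * θ ^ 3 ≤ δ :=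
          calc Bk * (err * θ ^ 3) + err * θ ^ 3 = (1 + Bk) * (err * θ ^ 3) := by ring
            _ ≤ (1 + Bk) * (|err| * θ ^ 3) := mul_le_mul_of_nonneg_left
                (mul_le_mul_of_nonneg_right (le_abs_self err) (by positivity)) (by positivity)
            _ ≤ (1 + Bmax) * (|err| * θ ^ 3) := mul_le_mul_of_nonneg_right (by linarith) (by positivity)
            _ = δ := by simp only [δ]; ring
        calc q t Y ≤ _ := h1
          _ ≤ (Bk * kern J B t θ Y (w (t + θ ^ 2)) + b * leak J B e t S Y + k * δ) +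
                G * θ ^ 2 * w t Y + err * θ ^ 3 := by linarith
          _ ≤ (Bk * (1 + K * θ ^ 2) + G * θ ^ 2) * w t Y + b * leak J B e t S Y + (k * δ + δ) := by
              linarith
          _ ≤ _ := by
              refine add_le_add (add_le_add hB' le_rfl) (le_of_eq ?_)
              push_cast; ring
      · have h1 := (abs_le.1 (hbd t htI Y).1).2
        have h2 : C ≤ b * leak J B e t S Y := by
          rw [show C = b * θ₂ from (div_mul_cancel₀ C hθ₂.ne').symm]
          exact mul_le_mul_of_nonneg_left (not_le.1 hz).le hb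
        have : 0 ≤ (B₀ + G * ((k + 1 : ℕ) * θ ^ 2)) * (1 + K * θ ^ 2) ^ (k + 1) * w t Y := by positivity
        have : 0 ≤ ((k + 1 : ℕ) : ℝ) * δ := by positivity
        linarith
  have hfin := key M le_rfl Y₀
  rw [hMh, show e - h = τ by simp only [h]; ring] at hfin
  refine hfin.trans (add_le_add (add_le_add ?_ le_rfl) ?_)
  · refine mul_le_mul_of_nonneg_right (mul_le_mul_of_nonneg_left ?_ (by positivity)) (hbd τ hτ Y₀).2.1
    exact (one_add_pow_le K _ M hK (sq_nonneg θ)).trans (le_of_eq (by rw [hMh]))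
  · have e1 : (M : ℝ) * δ = A * θ := by
      rw [hAdef, show δ = (1 + Bmax) * |err| * θ ^ 3 from rfl, ← hMh]; ring
    rw [e1]
    have h2 : (A * Real.sqrt h / ε) ^ 2 < M := lt_of_le_of_lt (le_max_right _ _) hM
    refine le_of_pow_le_pow_left₀ two_ne_zero hε.le ?_
    rw [div_pow, div_lt_iff₀ (by positivity), mul_pow, Real.sq_sqrt hh] at h2
    rw [mul_pow, hθ2, ← mul_div_assoc, div_le_iff₀ hMpos]
    linarith

end Vale.Agent.P150.PartB
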