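import Vale.Agent.P150.Fast.PartB.Coarse

/-!
# P150, Part B: the TAP residual as a function of `m` and its monotonicity on the certified ball
-/

open MeasureTheory Matrix

namespace Vale.Agent.P150.PartB

variable {n : ℕ}

/-- the TAP residual at `m` -/
noncomputable def resM (β s : ℝ) (J : Matrix (Fin n) (Fin n) ℝ) (y m : Fin n → ℝ) (i : Fin n) : ℝ :=
  Real.artanh (m i) + aCoef β s * (1 - qv m) * m i - (1 - s) * (∑ j, J i j * m j) - y i

lemma tapRes_eq (β s : ℝ) (J : Matrix (Fin n) (Fin n) ℝ) (y z : Fin n → ℝ) :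
    tapRes β s J y z = resM β s J y fun i => Real.tanh (z i) := by
  funext i
  simp only [tapRes, resM, Real.artanh_tanh]

lemma hasDerivAt_artanh {x : ℝ} (hx : |x| < 1) :
    HasDerivAt Real.artanh (1 / (1 - x ^ 2)) x := by
  have hI : x ∈ Set.Ioo (-1 : ℝ) 1 := abs_lt.1 hx
  have hd : HasDerivAt Real.tanh (1 - Real.tanh (Real.artanh x) ^ 2) (Real.artanh x) :=
    Ising.hasDerivAt_tanh' _
  rw [Real.tanh_artanh hI] at hd
  have hne : (1 : ℝ) - x ^ 2 ≠ 0 := by
    have := (sq_lt_one_iff_abs_lt_one x).2 hx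
    linarith
  rw [one_div]
  have hc : ContinuousAt Real.artanh x := by
    have : ContinuousAt (fun t : ℝ => Real.log (Real.sqrt ((1 + t) / (1 - t)))) x := by
      have h1 : (1 : ℝ) - x ≠ 0 := by linarith [hI.2]
      have h2 : Real.sqrt ((1 + x) / (1 - x)) ≠ 0 :=
        (Real.sqrt_pos.2 (div_pos (by linarith [hI.1]) (by linarith [hI.2]))).ne'
      fun_prop (disch := assumption)
    exact this
  refine hd.of_local_left_inverse hc hne ?_
  filter_upwards [isOpen_Ioo.mem_nhds hI] with t ht using Real.tanh_artanh ht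

/-- the quadratic form of the TAP Jacobian -/
lemma kHat_form (β s : ℝ) (J : Matrix (Fin n) (Fin n) ℝ) (m v : Fin n → ℝ) :
    v ⬝ᵥ kHat β s J m *ᵥ v = ∑ i, v i * (1 / (1 - m i ^ 2) * v i + aCoef β s * (1 - qv m) * v i
      - (1 - s) * (∑ j, J i j * v j) - 2 * aCoef β s / n * (m i * ∑ j, m j * v j)) := by
  refine Finset.sum_congr rfl fun i _ => congrArg (v i * ·) ?_
  simp only [kHat, vMat, Matrix.add_mulVec, Matrix.sub_mulVec, Matrix.smul_mulVec, Pi.add_apply,
    Pi.sub_apply, Pi.smul_apply, smul_eq_mul, Matrix.one_mulVec, Matrix.mulVec_diagonal]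
  simp only [Matrix.mulVec, dotProduct, vecMulVec_apply, mul_assoc, ← Finset.mul_sum]
  ring

lemma resM_hasDerivAt (β s : ℝ) (J : Matrix (Fin n) (Fin n) ℝ) (y m d : Fin n → ℝ) (τ : ℝ)
    (hm : ∀ i, |m i + τ * d i| < 1) (i : Fin n) :
    HasDerivAt (fun t => resM β s J y (fun k => m k + t * d k) i)
      (1 / (1 - (m i + τ * d i) ^ 2) * d i + aCoef β s * (1 - qv fun k => m k + τ * d k) * d i
        - (1 - s) * (∑ j, J i j * d j)
        - 2 * aCoef β s / n * ((m i + τ * d i) * ∑ j, (m j + τ * d j) * d j)) τ := by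
  have hl : ∀ k, HasDerivAt (fun t => m k + t * d k) (d k) τ := fun k => by
    simpa using ((hasDerivAt_id τ).mul_const (d k)).const_add (m k)
  have h1 := (hasDerivAt_artanh (hm i)).comp τ (hl i)
  have h2 : HasDerivAt (fun t => qv fun k => m k + t * d k)
      ((∑ j, 2 * ((m j + τ * d j) * d j)) / n) τ := by
    refine (HasDerivAt.fun_sum fun j _ => ?_).div_const _
    refine ((hl j).pow 2).congr_deriv ?_
    simp; ring
  have h3 : HasDerivAt (fun t => ∑ j, J i j * (m j + t * d j)) (∑ j, J i j * d j) τ :=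
    HasDerivAt.fun_sum fun j _ => (hl j).const_mul _
  refine (((h1.add (((h2.const_sub 1).const_mul (aCoef β s)).mul (hl i))).sub
    (h3.const_mul (1 - s))).sub_const (y i)).congr_deriv ?_
  rw [← Finset.mul_sum]
  ring

/-- On a convex set where the Jacobian is at least `η` the residual is `η`-monotone. -/
lemma resM_mono (β s η : ℝ) (J : Matrix (Fin n) (Fin n) ℝ) (y m m' : Fin n → ℝ)
    (hseg : ∀ τ : ℝ, 0 ≤ τ → τ ≤ 1 → (∀ i, |m i + τ * (m' i - m i)| < 1) ∧
      ∀ v : Fin n → ℝ, η * ∑ i, v i ^ 2 ≤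
        v ⬝ᵥ kHat β s J (fun i => m i + τ * (m' i - m i)) *ᵥ v) :
    η * nrm (fun i => m' i - m i) ≤
      nrm (fun i => resM β s J y m' i - resM β s J y m i) := by
  set d := fun i => m' i - m i with hd
  set g := fun t : ℝ => ∑ i, d i * resM β s J y (fun k => m k + t * d k) i
  have hg : ∀ τ ∈ Set.Icc (0 : ℝ) 1, HasDerivAt g
      (d ⬝ᵥ kHat β s J (fun k => m k + τ * d k) *ᵥ d) τ := fun τ hτ => by
    rw [kHat_form]
    exact HasDerivAt.fun_sum fun i _ =>
      (resM_hasDerivAt β s J y m d τ (hseg τ hτ.1 hτ.2).1 i).const_mul _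
  obtain ⟨τ, hτ, hs⟩ := exists_hasDerivAt_eq_slope g
    (fun τ => d ⬝ᵥ kHat β s J (fun k => m k + τ * d k) *ᵥ d) zero_lt_one
    (fun τ hτ => (hg τ hτ).continuousAt.continuousWithinAt) fun τ hτ => hg τ (Set.Ioo_subset_Icc_self hτ)
  have key : η * ∑ i, d i ^ 2 ≤ ∑ i, d i * (resM β s J y m' i - resM β s J y m i) := by
    refine ((hseg τ hτ.1.le hτ.2.le).2 d).trans (le_of_eq ?_)
    rw [hs]
    simp only [g, sub_zero, div_one, mul_sub, Finset.sum_sub_distrib, hd]
    simp
  have h0 := nrm_nonneg d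
  rcases h0.lt_or_eq with hpos | h0
  · refine le_of_mul_le_mul_right ?_ hpos
    have e : nrm d * nrm d = ∑ i, d i ^ 2 := Real.mul_self_sqrt (Finset.sum_nonneg fun i _ => sq_nonneg _)
    rw [mul_assoc, e]
    exact key.trans ((le_abs_self _).trans ((abs_dot_le_nrm _ _).trans (le_of_eq (mul_comm _ _))))
  · rw [← h0, mul_zero]
    exact nrm_nonneg _

lemma nrm_add_le (u v : Fin n → ℝ) : nrm (fun i => u i + v i) ≤ nrm u + nrm v := by
  refine (Real.sqrt_le_left (add_nonneg (nrm_nonneg u) (nrm_nonneg v))).2 ?_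
  have e : ∀ w : Fin n → ℝ, nrm w ^ 2 = ∑ i, w i ^ 2 := fun w =>
    Real.sq_sqrt (Finset.sum_nonneg fun i _ => sq_nonneg _)
  have := (le_abs_self _).trans (abs_dot_le_nrm u v)
  simp only [add_sq, Finset.sum_add_distrib, mul_assoc, ← Finset.mul_sum, e]
  linarith

/-- Segments of a ball inside the open cube stay there. -/
lemma seg_mem {r : ℝ} (a m m' : Fin n → ℝ) (hm : ∀ i, |m i| < 1) (hm' : ∀ i, |m' i| < 1)
    (h : nrm (fun i => m i - a i) ≤ r) (h' : nrm (fun i => m' i - a i) ≤ r) (τ : ℝ) (h0 : 0 ≤ τ)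
    (h1 : τ ≤ 1) :
    (∀ i, |m i + τ * (m' i - m i)| < 1) ∧
      nrm (fun i => m i + τ * (m' i - m i) - a i) ≤ r := by
  refine ⟨fun i => ?_, ?_⟩
  · have a1 := abs_lt.1 (hm i)
    have a2 := abs_lt.1 (hm' i)
    rw [abs_lt]
    rcases eq_or_lt_of_le h1 with rfl | h1'
    · constructor <;> linarith
    · constructor <;> nlinarith
  · have e : (fun i => m i + τ * (m' i - m i) - a i) =
        fun i => ((1 - τ) • fun i => m i - a i) i + (τ • fun i => m' i - a i) i := by
      funext i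
      simp only [Pi.smul_apply, smul_eq_mul]
      ring
    rw [e]
    refine (nrm_add_le _ _).trans ?_
    rw [nrm_smul, nrm_smul, abs_of_nonneg (sub_nonneg.2 h1), abs_of_nonneg h0]
    nlinarith

/-- Two points of a certified ball are as close as their residuals allow. -/
lemma Cert.dist_le {β c η ε ρ ε₂ s : ℝ} {J : Matrix (Fin n) (Fin n) ℝ} {y z : Fin n → ℝ}
    (hC : Cert β c η ε ρ ε₂ s J y z) (y' m m' : Fin n → ℝ) (hm : ∀ i, |m i| < 1)
    (hm' : ∀ i, |m' i| < 1) (h : nrm (fun i => m i - Real.tanh (z i)) ≤ ρ * Real.sqrt n)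
    (h' : nrm (fun i => m' i - Real.tanh (z i)) ≤ ρ * Real.sqrt n) :
    η * nrm (fun i => m' i - m i) ≤
      nrm (fun i => resM β s J y' m' i - resM β s J y' m i) :=
  resM_mono β s η J y' m m' fun τ h0 h1 =>
    ⟨(seg_mem _ m m' hm hm' h h' τ h0 h1).1, hC.pos _ (seg_mem _ m m' hm hm' h h' τ h0 h1).1
      (seg_mem _ m m' hm hm' h h' τ h0 h1).2⟩

/-- A point of the ball is as close to the centre as its residual allows. -/
lemma Cert.centre_le {β c η ε ρ ε₂ s : ℝ} {J : Matrix (Fin n) (Fin n) ℝ} {y z : Fin n → ℝ}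
    (hC : Cert β c η ε ρ ε₂ s J y z) (v m : Fin n → ℝ) (hρ : 0 ≤ ρ) (hm : ∀ i, |m i| < 1)
    (h : nrm (fun i => m i - Real.tanh (z i)) ≤ ρ * Real.sqrt n) :
    η * nrm (fun i => m i - Real.tanh (z i)) ≤
      η * ρ / 8 * Real.sqrt n + nrm v + nrm (resM β s J (y + v) m) := by
  have h0 : nrm (fun i => Real.tanh (z i) - Real.tanh (z i)) ≤ ρ * Real.sqrt n := by
    simp only [sub_self]
    simpa [nrm] using mul_nonneg hρ (Real.sqrt_nonneg (n : ℝ))
  refine (hC.dist_le (y + v) _ m (fun i => Ising.tanh_abs_lt _) hm h0 h).trans ?_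
  have e : (fun i => resM β s J (y + v) m i - resM β s J (y + v) (fun i => Real.tanh (z i)) i) =
      fun i => resM β s J (y + v) m i + (-tapRes β s J y z i + v i) := by
    funext i
    simp only [tapRes_eq, resM, Pi.add_apply]
    ring
  rw [e]
  refine (nrm_add_le _ _).trans ?_
  have h2 := nrm_add_le (fun i => -tapRes β s J y z i) v
  have h3 : nrm (fun i => -tapRes β s J y z i) = nrm (tapRes β s J y z) := by simp [nrm]
  linarith [hC.res]

end Vale.Agent.P150.PartB
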