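import Vale.Agent.P150.Fast.PartB.Kernel
import Vale.Agent.P150.Fast.Poincare
import Vale.Agent.P150.Fast.PartB.Residual

/-!
# P150, Part B: `KernelFacts`
-/

open MeasureTheory ProbabilityTheory Matrix
open scoped Matrix.Norms.L2Operator

namespace Vale.Agent.P150.PartB

open Vale.Agent.P150.Fast

variable {n : ℕ} {Λ c : ℝ} {J B : Matrix (Fin n) (Fin n) ℝ}

lemma Ctl.opLe_A (hJ : Ctl Λ c J B) : OpNorm.OpLe (J + c • 1) Λ := by
  have h1 : OpNorm.OpLe J ‖J‖ := OpNorm.opLe_iff_norm_le.2 le_rfl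
  exact (h1.add (OpNorm.opLe_one.smul c)).mono (by rw [mul_one]; exact hJ.op)

lemma Ctl.opLe_B (hJ : Ctl Λ c J B) : OpNorm.OpLe B (Real.sqrt Λ) := by
  have hΛ : 0 ≤ Λ := hJ.opLe_A.1
  have h : OpNorm.OpLe Bᵀ (Real.sqrt Λ) := ⟨Real.sqrt_nonneg _, fun w => by
    rw [Real.sq_sqrt hΛ]
    have e : OpNorm.nsq (Bᵀ *ᵥ w) = w ⬝ᵥ (B * Bᵀ) *ᵥ w := by
      rw [OpNorm.nsq_eq_dot, ← Matrix.mulVec_mulVec, Matrix.dotProduct_mulVec w,
        ← Matrix.mulVec_transpose]
    rw [e, hJ.factor]
    exact (le_abs_self _).trans (hJ.opLe_A.quad w)⟩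
  simpa using h.transpose

lemma measurable_kern (J' B' : Matrix (Fin n) (Fin n) ℝ) (s φ : ℝ) {F : (Fin n → ℝ) → ℝ}
    (hF : Measurable F) : Measurable fun Y => kern J' B' s φ Y F := by
  refine (MeasureTheory.StronglyMeasurable.integral_prod_right' (ν := gauss (Fin n))
    (f := fun p : (Fin n → ℝ) × (Fin n → ℝ) =>
      mix (Ising.wt ((1 - s) • J') p.1) (sig B') φ p.2 * F (p.1 + φ • B' *ᵥ p.2)) ?_).measurable
  refine (Measurable.mul ?_ ?_).stronglyMeasurable
  · have h : ∀ x : Cfg n, Measurable fun Y : Fin n → ℝ => Ising.wt ((1 - s) • J') Y x := fun x => by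
      have := measurable_avg ((1 - s) • J') (Pi.single x 1)
      simpa [Ising.avg, Pi.single_apply] using this
    unfold mix
    refine Finset.measurable_sum _ fun x _ => ((h x).comp measurable_fst).mul ?_
    unfold ker dot
    fun_prop
  · exact hF.comp (measurable_fst.add ((((Continuous.matrix_mulVec continuous_const continuous_id).const_smul φ).measurable).comp measurable_snd))

/-- sums of two independent Gaussian vectors -/
lemma integral_two (θ φ : ℝ) (hθ : 0 ≤ θ) (hφ : 0 ≤ φ) {G : (Fin n → ℝ) → ℝ} {M : ℝ}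
    (hG : Measurable G) (hM : ∀ z, |G z| ≤ M) :
    ∫ g, ∫ h, G (θ • g + φ • h) ∂gauss (Fin n) ∂gauss (Fin n) =
      ∫ g, G (Real.sqrt (θ ^ 2 + φ ^ 2) • g) ∂gauss (Fin n) := by
  set ψ := Real.sqrt (θ ^ 2 + φ ^ 2)
  have hψ0 : 0 ≤ ψ := Real.sqrt_nonneg _
  rcases hψ0.lt_or_eq with hψ | hψ
  · have hψ2 : ψ ^ 2 = θ ^ 2 + φ ^ 2 := Real.sq_sqrt (by positivity)
    have h01 : θ / ψ ≤ 1 := by
      rw [div_le_one hψ]
      exact abs_le_of_sq_le_sq' (by nlinarith) hψ0 |>.2
    set a := Real.arccos (θ / ψ)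
    have hc : Real.cos a = θ / ψ :=
      Real.cos_arccos (le_trans (by norm_num) (div_nonneg hθ hψ0)) h01
    have hs : Real.sin a = φ / ψ := by
      rw [Real.sin_arccos, show 1 - (θ / ψ) ^ 2 = (φ / ψ) ^ 2 by field_simp; linarith]
      exact Real.sqrt_sq (div_nonneg hφ hψ0)
    have key : ∀ g h : Fin n → ℝ, θ • g + φ • h = ψ • Poincare.comb a (Sum.elim g h) := fun g h => by
      funext k
      simp only [Poincare.comb, hc, hs, Pi.add_apply, Pi.smul_apply, smul_eq_mul, Sum.elim_inl,
        Sum.elim_inr]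
      field_simp
    simp only [key]
    have hmeas : Measurable fun z : Fin n → ℝ => G (ψ • z) := hG.comp (measurable_const_smul ψ)
    conv_rhs => rw [← (Poincare.map_comb a).map_eq]
    rw [integral_map (Poincare.continuous_comb a).measurable.aemeasurable
      hmeas.aestronglyMeasurable]
    set e := MeasurableEquiv.sumPiEquivProdPi fun _ : Fin n ⊕ Fin n => ℝ
    have hmp : MeasurePreserving e (gauss (Fin n ⊕ Fin n)) ((gauss (Fin n)).prod (gauss (Fin n))) :=
      measurePreserving_sumPiEquivProdPi fun _ : Fin n ⊕ Fin n => gaussianReal 0 1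
    have hcm : Measurable fun p : (Fin n → ℝ) × (Fin n → ℝ) =>
        G (ψ • Poincare.comb a (Sum.elim p.1 p.2)) := by
      refine hmeas.comp ((Poincare.continuous_comb a).measurable.comp (measurable_pi_iff.2 fun k => ?_))
      cases k with
      | inl k => exact (measurable_pi_apply k).comp measurable_fst
      | inr k => exact (measurable_pi_apply k).comp measurable_snd
    have : IsProbabilityMeasure (gauss (Fin n)) := by unfold gauss; infer_instance
    rw [← integral_prod (f := fun p => G (ψ • Poincare.comb a (Sum.elim p.1 p.2)))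
      (Integrable.of_bound hcm.aestronglyMeasurable M
        (Filter.Eventually.of_forall fun p => hM _)), ← hmp.integral_comp e.measurableEmbedding]
    refine integral_congr_ae (Filter.Eventually.of_forall fun w => ?_)
    have : Sum.elim (e w).1 (e w).2 = w := by
      funext k; cases k <;> rfl
    simp only [this]
  · have h0 : θ = 0 ∧ φ = 0 := by
      have h := hψ.symm
      rw [Real.sqrt_eq_zero (by positivity), add_eq_zero_iff_of_nonneg (sq_nonneg _) (sq_nonneg _)] at h
      exact ⟨pow_eq_zero_iff two_ne_zero |>.1 h.1, pow_eq_zero_iff two_ne_zero |>.1 h.2⟩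
    have : IsProbabilityMeasure (gauss (Fin n)) := by unfold gauss; infer_instance
    simp [← hψ, h0]

/-- tower rule -/
lemma kern_tower (hJ : Ctl Λ c J B) (s θ φ : ℝ) (hθ : 0 ≤ θ) (hφ : 0 ≤ φ) (y : Fin n → ℝ)
    {F : (Fin n → ℝ) → ℝ} {M : ℝ} (hF : Measurable F) (hM : ∀ Y, |F Y| ≤ M) :
    kern J B s θ y (fun Y => kern J B (s + θ ^ 2) φ Y F) =
      kern J B s (Real.sqrt (θ ^ 2 + φ ^ 2)) y F := by
  have : IsProbabilityMeasure (gauss (Fin n)) := by unfold gauss; infer_instance
  set A := J + c • (1 : Matrix (Fin n) (Fin n) ℝ) with hA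
  set w := Ising.wt ((1 - s) • J) y
  set I := fun (x : Cfg n) (Y : Fin n → ℝ) =>
    ∫ g, F (Y + (φ ^ 2) • A *ᵥ svec x + φ • B *ᵥ g) ∂gauss (Fin n) with hI
  have hIm : ∀ x, Measurable (I x) := fun x => by
    refine (MeasureTheory.StronglyMeasurable.integral_prod_right' (ν := gauss (Fin n))
      (f := fun p : (Fin n → ℝ) × (Fin n → ℝ) => F (p.1 + (φ ^ 2) • A *ᵥ svec x + φ • B *ᵥ p.2)) ?_).measurable
    exact (hF.comp ((measurable_fst.add_const _).add
      ((((Continuous.matrix_mulVec continuous_const continuous_id).const_smul φ).measurable).comp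
        measurable_snd))).stronglyMeasurable
  have hIb : ∀ x Y, |I x Y| ≤ M := fun x Y => by
    have := norm_integral_le_of_norm_le_const (μ := gauss (Fin n))
      (f := fun g => F (Y + (φ ^ 2) • A *ᵥ svec x + φ • B *ᵥ g)) (C := M)
      (Filter.Eventually.of_forall fun g => hM _)
    simpa [hI] using this
  have hker : ∀ x, Integrable (fun z => ker (sig B) θ z x * I x (y + θ • B *ᵥ z)) (gauss (Fin n)) :=
    fun x => by
      have h := integrable_mix (n := n) (B := B) (Pi.single x 1) θ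
      have e : (fun z => mix (Pi.single x 1) (sig B) θ z) = fun z => ker (sig B) θ z x := by
        funext z; simp [mix, Pi.single_apply]
      rw [e] at h
      exact h.mul_bdd ((hIm x).comp (continuous_step θ y).measurable).aestronglyMeasurable
        (Filter.Eventually.of_forall fun z => hIb x _)
  have e1 : ∀ z, mix w (sig B) θ z * kern J B (s + θ ^ 2) φ (y + θ • B *ᵥ z) F =
      ∑ x, w x * (ker (sig B) θ z x * I x (y + θ • B *ᵥ z)) := fun z => by
    rw [kern_translated hJ _ _ _ hF hM, Finset.mul_sum]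
    refine Finset.sum_congr rfl fun x _ => ?_
    rw [← mul_assoc, ← mul_assoc, post_eq hJ]
    rfl
  rw [show kern J B s θ y (fun Y => kern J B (s + θ ^ 2) φ Y F) =
    ∫ z, ∑ x, w x * (ker (sig B) θ z x * I x (y + θ • B *ᵥ z)) ∂gauss (Fin n) from
      integral_congr_ae (Filter.Eventually.of_forall e1),
    integral_finsetSum _ fun x _ => (hker x).const_mul _, kern_translated hJ _ _ _ hF hM]
  refine Finset.sum_congr rfl fun x _ => ?_
  rw [integral_const_mul]
  congr 1
  have h := Channel.translate (κ := Fin n) (θ • sig B x) (fun z => I x (y + θ • B *ᵥ z))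
  have hk : (fun z => ker (sig B) θ z x * I x (y + θ • B *ᵥ z)) =
      fun z => Real.exp (dot (θ • sig B x) z - Channel.nsq (θ • sig B x) / 2) * I x (y + θ • B *ᵥ z) := by
    funext z
    simp only [ker, Channel.nsq, dot, Pi.smul_apply, smul_eq_mul, mul_pow, mul_assoc, ← Finset.mul_sum]
    ring_nf
  rw [hk, ← h]
  have hψ : Real.sqrt (θ ^ 2 + φ ^ 2) ^ 2 = θ ^ 2 + φ ^ 2 := Real.sq_sqrt (by positivity)
  rw [hψ]
  set G := fun v : Fin n → ℝ => F (y + (θ ^ 2 + φ ^ 2) • A *ᵥ svec x + B *ᵥ v)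
  have hG : Measurable G :=
    hF.comp ((Continuous.matrix_mulVec continuous_const continuous_id).measurable.const_add _)
  have hA1 : ∀ g h' : Fin n → ℝ, y + θ • B *ᵥ (g + θ • sig B x) + (φ ^ 2) • A *ᵥ svec x + φ • B *ᵥ h' =
      y + (θ ^ 2 + φ ^ 2) • A *ᵥ svec x + B *ᵥ (θ • g + φ • h') := fun g h' => by
    rw [hA, ← hJ.factor, Matrix.mulVec_add B, Matrix.mulVec_smul B, sig, Matrix.mulVec_mulVec,
      Matrix.mulVec_add B, Matrix.mulVec_smul, Matrix.mulVec_smul, smul_add, smul_smul, ← sq, add_smul]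
    abel
  calc ∫ g, I x (y + θ • B *ᵥ (g + θ • sig B x)) ∂gauss (Fin n)
      = ∫ g, ∫ h', G (θ • g + φ • h') ∂gauss (Fin n) ∂gauss (Fin n) := by
        simp only [hI, G, hA1]
    _ = ∫ g, G (Real.sqrt (θ ^ 2 + φ ^ 2) • g) ∂gauss (Fin n) :=
        integral_two θ φ hθ hφ hG fun v => hM _
    _ = _ := by simp only [G, hA, Matrix.mulVec_smul]

lemma wt_add_le (K : Matrix (Fin n) (Fin n) ℝ) (y v : Fin n → ℝ) (x : Cfg n) :
    Ising.wt K (y + v) x ≤ Real.exp (2 * nrm v * Real.sqrt n) * Ising.wt K y x := by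
  have hb : ∀ x : Cfg n, |∑ i, v i * spin (x i)| ≤ nrm v * Real.sqrt n := fun x =>
    (abs_dot_le_nrm v (svec x)).trans (le_of_eq (by rw [nrm_spin]))
  have e : ∀ x, Real.exp (Ising.qE K (y + v) x) =
      Real.exp (Ising.qE K y x) * Real.exp (∑ i, v i * spin (x i)) := fun x => by
    rw [← Real.exp_add]
    congr 1
    simp only [Ising.qE, Pi.add_apply, add_mul, Finset.sum_add_distrib]
    ring
  simp only [Ising.wt, e]
  have hlow : Real.exp (-(nrm v * Real.sqrt n)) * ∑ z, Real.exp (Ising.qE K y z) ≤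
      ∑ z, Real.exp (Ising.qE K y z) * Real.exp (∑ i, v i * spin (z i)) := by
    rw [Finset.mul_sum]
    refine Finset.sum_le_sum fun z _ => ?_
    rw [mul_comm]
    exact mul_le_mul_of_nonneg_left (Real.exp_le_exp.2 (by linarith [(abs_le.1 (hb z)).1]))
      (Real.exp_pos _).le
  have hpos : 0 < ∑ z, Real.exp (Ising.qE K y z) :=
    Finset.sum_pos (fun z _ => Real.exp_pos _) Finset.univ_nonempty
  have hpos' : 0 < ∑ z, Real.exp (Ising.qE K y z) * Real.exp (∑ i, v i * spin (z i)) :=
    Finset.sum_pos (fun z _ => by positivity) Finset.univ_nonempty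
  rw [mul_div_assoc', div_le_div_iff₀ hpos' hpos]
  have h2 : Real.exp (∑ i, v i * spin (x i)) ≤
      Real.exp (2 * nrm v * Real.sqrt n) * Real.exp (-(nrm v * Real.sqrt n)) := by
    rw [← Real.exp_add]
    exact Real.exp_le_exp.2 (by linarith [(abs_le.1 (hb x)).2])
  calc Real.exp (Ising.qE K y x) * Real.exp (∑ i, v i * spin (x i)) * ∑ z, Real.exp (Ising.qE K y z)
      ≤ Real.exp (Ising.qE K y x) * (Real.exp (2 * nrm v * Real.sqrt n) *
          Real.exp (-(nrm v * Real.sqrt n))) * ∑ z, Real.exp (Ising.qE K y z) :=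
        mul_le_mul_of_nonneg_right (mul_le_mul_of_nonneg_left h2 (Real.exp_pos _).le) hpos.le
    _ = Real.exp (2 * nrm v * Real.sqrt n) * Real.exp (Ising.qE K y x) *
          (Real.exp (-(nrm v * Real.sqrt n)) * ∑ z, Real.exp (Ising.qE K y z)) := by ring
    _ ≤ _ := mul_le_mul_of_nonneg_left hlow (by positivity)

/-- a shift of the starting point -/
lemma kern_shift (J' B' : Matrix (Fin n) (Fin n) ℝ) (s θ : ℝ) (y v : Fin n → ℝ)
    {F : (Fin n → ℝ) → ℝ} {M : ℝ} (hF : Measurable F) (hM : ∀ Y, 0 ≤ F Y ∧ F Y ≤ M) :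
    kern J' B' s θ (y + v) F ≤
      Real.exp (2 * nrm v * Real.sqrt n) * kern J' B' s θ y fun Y => F (Y + v) := by
  have hb : ∀ Y, |F Y| ≤ M := fun Y => by rw [abs_of_nonneg (hM Y).1]; exact (hM Y).2
  have hF' : Measurable fun Y => F (Y + v) := hF.comp (measurable_add_const v)
  rw [← kern_smul]
  refine integral_mono (integrable_kern J' B' s θ (y + v) hF hb)
    (integrable_kern J' B' s θ y (hF'.const_mul _) (M := Real.exp (2 * nrm v * Real.sqrt n) * M)
      fun Y => by
        rw [abs_mul, abs_of_pos (Real.exp_pos _)]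
        exact mul_le_mul_of_nonneg_left (hb _) (Real.exp_pos _).le) fun z => ?_
  simp only [add_right_comm y (θ • B' *ᵥ z) v, ← mul_assoc]
  refine mul_le_mul_of_nonneg_right ?_ (hM _).1
  rw [mul_comm (mix _ _ _ _), mix, mix, Finset.mul_sum]
  refine Finset.sum_le_sum fun x _ => ?_
  rw [← mul_assoc]
  exact mul_le_mul_of_nonneg_right (wt_add_le _ y v x) (ker_pos _ _ _ _).le

lemma gauss_tail (t : ℝ) (ht : 0 ≤ t) :
    ∫ g, {g : Fin n → ℝ | t < nrm g}.indicator (fun _ => (1 : ℝ)) g ∂gauss (Fin n) ≤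
      2 ^ n * Real.exp (-(t ^ 2 / 4)) := by
  have : IsProbabilityMeasure (gauss (Fin n)) := by unfold gauss; infer_instance
  have h := exp_sumsq (ι := Fin n) (s := 1 / 4) (by norm_num)
  have hm : MeasurableSet {g : Fin n → ℝ | t < nrm g} :=
    measurableSet_lt measurable_const (by unfold nrm; fun_prop)
  refine (integral_mono ((integrable_const (1 : ℝ)).indicator hm)
    (h.1.const_mul (Real.exp (-(t ^ 2 / 4)))) fun g => ?_).trans ?_
  · by_cases hg : g ∈ {g : Fin n → ℝ | t < nrm g}
    · rw [Set.indicator_of_mem hg, ← Real.exp_add]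
      refine Real.one_le_exp ?_
      have h2 : t ^ 2 ≤ nrm g ^ 2 := pow_le_pow_left₀ ht (le_of_lt hg) 2
      rw [nrm, Real.sq_sqrt (Finset.sum_nonneg fun i _ => sq_nonneg _)] at h2
      linarith
    · rw [Set.indicator_of_notMem hg]
      positivity
  · rw [integral_const_mul, h.2, mul_comm]
    refine mul_le_mul_of_nonneg_right ?_ (Real.exp_pos _).le
    rw [Fintype.card_fin, ← Real.sqrt_inv]
    exact pow_le_pow_left₀ (Real.sqrt_nonneg _) (Real.sqrt_le_iff.2 ⟨by norm_num, by norm_num⟩) n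

/-- tail of the displacement -/
lemma kern_tail (hJ : Ctl Λ c J B) (s θ : ℝ) (hθ : 0 ≤ θ) (y : Fin n → ℝ) (t : ℝ) (ht : 0 ≤ t) :
    kern J B s θ y
        ({Y | θ ^ 2 * Λ * Real.sqrt n + θ * Real.sqrt Λ * t < nrm fun i => Y i - y i}.indicator 1) ≤
      2 ^ n * Real.exp (-(t ^ 2 / 4)) := by
  have : IsProbabilityMeasure (gauss (Fin n)) := by unfold gauss; infer_instance
  set S := {Y : Fin n → ℝ | θ ^ 2 * Λ * Real.sqrt n + θ * Real.sqrt Λ * t < nrm fun i => Y i - y i}
  have hS : MeasurableSet S := measurableSet_lt measurable_const (by unfold nrm; fun_prop)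
  have hb : ∀ Y, |S.indicator (1 : (Fin n → ℝ) → ℝ) Y| ≤ 1 := fun Y => by
    by_cases h : Y ∈ S <;> simp [h]
  rw [kern_translated hJ s θ y (F := S.indicator 1) (measurable_const.indicator hS) hb]
  refine (Finset.sum_le_sum fun x _ => mul_le_mul_of_nonneg_left ?_ (Ising.wt_pos _ _ x).le).trans
    (le_of_eq (by rw [← Finset.sum_mul, sum_wt, one_mul]))
  refine le_trans ?_ (gauss_tail t ht)
  have hm : MeasurableSet {g : Fin n → ℝ | t < nrm g} :=
    measurableSet_lt measurable_const (by unfold nrm; fun_prop)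
  set Φ := fun g => y + (θ ^ 2) • (J + c • 1) *ᵥ svec x + θ • B *ᵥ g
  have hΦ : Measurable Φ :=
    (Continuous.matrix_mulVec continuous_const continuous_id).measurable.const_smul θ |>.const_add _
  refine integral_mono (Integrable.of_bound ((measurable_const.indicator hS).comp hΦ).aestronglyMeasurable 1
    (Filter.Eventually.of_forall fun g => hb _)) ((integrable_const (1 : ℝ)).indicator hm) fun g => ?_
  have key : t < nrm g ∨ Φ g ∉ S := by
    by_contra hcon
    rw [not_or, not_not, not_lt] at hcon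
    have h1 : nrm ((J + c • 1) *ᵥ svec x) ≤ Λ * Real.sqrt n := by
      rw [← nrm_spin x, OpNorm.nrm_eq, OpNorm.nrm_eq, ← Real.sqrt_sq hJ.opLe_A.1,
        ← Real.sqrt_mul (sq_nonneg Λ)]
      exact Real.sqrt_le_sqrt (hJ.opLe_A.2 _)
    have h2 : nrm (B *ᵥ g) ≤ Real.sqrt Λ * nrm g := by
      rw [OpNorm.nrm_eq, OpNorm.nrm_eq, ← Real.sqrt_sq (Real.sqrt_nonneg Λ),
        ← Real.sqrt_mul (sq_nonneg (Real.sqrt Λ))]
      exact Real.sqrt_le_sqrt (hJ.opLe_B.2 _)
    have e : (fun i => Φ g i - y i) =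
        fun i => ((θ ^ 2) • (J + c • 1) *ᵥ svec x) i + (θ • B *ᵥ g) i := by
      funext i
      simp only [Φ, Pi.add_apply]
      ring
    have h3 : θ ^ 2 * Λ * Real.sqrt n + θ * Real.sqrt Λ * t < nrm fun i => Φ g i - y i := hcon.2
    rw [e] at h3
    have h4 := nrm_add_le ((θ ^ 2) • (J + c • 1) *ᵥ svec x) (θ • B *ᵥ g)
    rw [nrm_smul, nrm_smul, abs_of_nonneg (sq_nonneg θ), abs_of_nonneg hθ] at h4
    nlinarith [mul_le_mul_of_nonneg_left h1 (sq_nonneg θ), mul_le_mul_of_nonneg_left h2 hθ,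
      mul_le_mul_of_nonneg_left hcon.1 (mul_nonneg hθ (Real.sqrt_nonneg Λ))]
  rcases key with h | h
  · rw [Set.indicator_of_mem (show g ∈ {g : Fin n → ℝ | t < nrm g} from h)]
    exact (le_abs_self _).trans (hb _)
  · show S.indicator 1 (Φ g) ≤ _
    rw [Set.indicator_of_notMem h]
    exact Set.indicator_nonneg (fun _ _ => zero_le_one) g

lemma dir_pair (hs : ∀ i j, J i j = J j i) (hd : ∀ i, J i i = 0) (s : ℝ) (Y : Fin n → ℝ)
    (f : Cfg n → ℝ) :
    Ising.dir ((1 - s) • J) Y f = ∑ i, ∑ x, Ising.dd i f x ^ 2 / 2 *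
      (4 * (Ising.wt ((1 - s) • J) Y (Function.update x i true) *
          Ising.wt ((1 - s) • J) Y (Function.update x i false)) /
        (Ising.wt ((1 - s) • J) Y (Function.update x i true) +
          Ising.wt ((1 - s) • J) Y (Function.update x i false))) := by
  set K : Fin n → Fin n → ℝ := (1 - s) • J
  have hs' : ∀ i j, K i j = K j i := fun i j => by
    show (1 - s) * J i j = (1 - s) * J j i; rw [hs]
  have hd' : ∀ i, K i i = 0 := fun i => by show (1 - s) * J i i = 0; rw [hd, mul_zero]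
  show Ising.dir K Y f = _
  unfold Ising.dir
  refine Finset.sum_congr rfl fun i _ => ?_
  rw [Ising.sum_half i fun x => Ising.wt K Y x * ((1 - Ising.mag K Y i x ^ 2) * Ising.dd i f x ^ 2),
    Finset.sum_div]
  refine Finset.sum_congr rfl fun x _ => ?_
  simp only [Ising.dd_update, Ising.mag_update (b := Y) hd']
  have hT := Ising.wt_update (b := Y) hs' hd' i x true
  have hF := Ising.wt_update (b := Y) hs' hd' i x false
  simp only [spin, if_true, mul_one, Bool.false_eq_true, if_false, mul_neg] at hT hF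
  set k := Ising.wt K Y x * Real.exp (-(Ising.fld K Y i x * spin (x i))) * Real.cosh (Ising.fld K Y i x)
  have hk : 0 < k := by
    have := Ising.wt_pos (J := K) (b := Y) x
    positivity
  rw [hT, hF]
  field_simp
  ring

lemma pair_le {a b l : ℝ} (ha : 0 < a) (hb : 0 < b) :
    4 * (a * b) / (a + b) ≤ 4 * (l ^ 2 * a + (1 - l) ^ 2 * b) := by
  rw [div_le_iff₀ (add_pos ha hb)]
  nlinarith [sq_nonneg (l * a - (1 - l) * b)]

/-- The Dirichlet form decreases along the channel. -/
lemma kern_dir (hJ : Ctl Λ c J B) (s θ : ℝ) (y : Fin n → ℝ) (f : Cfg n → ℝ) :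
    kern J B s θ y (fun Y => Ising.dir ((1 - (s + θ ^ 2)) • J) Y f) ≤
      Ising.dir ((1 - s) • J) y f := by
  set w := Ising.wt ((1 - s) • J) y
  set l := fun (i : Fin n) (x : Cfg n) => w (Function.update x i false) /
    (w (Function.update x i true) + w (Function.update x i false)) with hl
  set Q := fun (i : Fin n) (x : Cfg n) (z : Fin n → ℝ) => Ising.dd i f x ^ 2 / 2 *
    (4 * (l i x ^ 2 * (w (Function.update x i true) * ker (sig B) θ z (Function.update x i true)) +
      (1 - l i x) ^ 2 * (w (Function.update x i false) * ker (sig B) θ z (Function.update x i false))))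
  have hker : ∀ x : Cfg n, Integrable (fun z => ker (sig B) θ z x) (gauss (Fin n)) ∧
      ∫ z, ker (sig B) θ z x ∂gauss (Fin n) = 1 := fun x => by
    have e : (fun z => mix (Pi.single x 1) (sig B) θ z) = fun z => ker (sig B) θ z x := by
      funext z; simp [mix, Pi.single_apply]
    rw [← e]
    exact ⟨integrable_mix _ θ, by simp [integral_mix]⟩
  have hwp : ∀ x, 0 < w x := fun x => Ising.wt_pos _ _ x
  have hQi : ∀ i x, Integrable (Q i x) (gauss (Fin n)) := fun i x =>
    (((((hker _).1.const_mul _).const_mul _).add (((hker _).1.const_mul _).const_mul _)).const_mul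
      4).const_mul _
  have hQ : ∀ i x, ∫ z, Q i x z ∂gauss (Fin n) = Ising.dd i f x ^ 2 / 2 *
      (4 * (w (Function.update x i true) * w (Function.update x i false)) /
        (w (Function.update x i true) + w (Function.update x i false))) := fun i x => by
    simp only [Q]
    rw [integral_const_mul, integral_const_mul,
      integral_add (((hker _).1.const_mul _).const_mul _) (((hker _).1.const_mul _).const_mul _)]
    simp only [integral_const_mul, (hker _).2, hl, mul_one]
    congr 1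
    have := add_pos (hwp (Function.update x i true)) (hwp (Function.update x i false))
    field_simp
    ring
  have hpt : ∀ z, mix w (sig B) θ z *
      Ising.dir ((1 - (s + θ ^ 2)) • J) (y + θ • B *ᵥ z) f ≤ ∑ i, ∑ x, Q i x z := fun z => by
    rw [show Ising.dir ((1 - (s + θ ^ 2)) • J) (y + θ • B *ᵥ z) f = _ from
      dir_pair hJ.symm hJ.diag _ _ f, Finset.mul_sum]
    refine Finset.sum_le_sum fun i _ => ?_
    rw [Finset.mul_sum]
    refine Finset.sum_le_sum fun x _ => ?_
    rw [mul_left_comm]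
    refine mul_le_mul_of_nonneg_left ?_ (by positivity)
    have hT := post_eq hJ s θ y z (Function.update x i true)
    have hF := post_eq hJ s θ y z (Function.update x i false)
    set m := mix w (sig B) θ z
    set a := Ising.wt ((1 - (s + θ ^ 2)) • J) (y + θ • B *ᵥ z) (Function.update x i true)
    set b := Ising.wt ((1 - (s + θ ^ 2)) • J) (y + θ • B *ᵥ z) (Function.update x i false)
    have hm : 0 < m := mix_pos' J B s θ y z
    have h := pair_le (a := m * a) (b := m * b) (l := l i x)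
      (mul_pos hm (Ising.wt_pos _ _ _)) (mul_pos hm (Ising.wt_pos _ _ _))
    rw [hT, hF]
    refine le_trans (le_of_eq ?_) h
    have ha : 0 < a := Ising.wt_pos _ _ _
    have hb : 0 < b := Ising.wt_pos _ _ _
    show m * (4 * (a * b) / (a + b)) = _
    field_simp
  rw [show Ising.dir ((1 - s) • J) y f = _ from dir_pair hJ.symm hJ.diag s y f]
  refine (integral_mono_of_nonneg (Filter.Eventually.of_forall fun z => ?_)
    (integrable_finsetSum _ fun i _ => integrable_finsetSum _ fun x _ => hQi i x)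
    (Filter.Eventually.of_forall hpt)).trans (le_of_eq ?_)
  · exact mul_nonneg (mix_pos' J B s θ y z).le (Finset.sum_nonneg fun i _ => Finset.sum_nonneg fun x _ =>
      mul_nonneg (Ising.wt_pos _ _ x).le (mul_nonneg (Ising.mag_sq _ _ i x).1 (sq_nonneg _)))
  · rw [integral_finsetSum _ fun i _ => integrable_finsetSum _ fun x _ => hQi i x]
    refine Finset.sum_congr rfl fun i _ => ?_
    rw [integral_finsetSum _ fun x _ => hQi i x]
    exact Finset.sum_congr rfl fun x _ => hQ i x

theorem kernelFacts : KernelFacts := fun _n _ _ J B hJ s θ y hθ =>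
  ⟨fun φ _ _ hφ hF hM => kern_tower hJ s θ φ hθ hφ y hF hM,
    fun v _ _ hF hM => kern_shift J B s θ y v hF hM,
    fun t ht => kern_tail hJ s θ hθ y t ht,
    fun f => kern_dir hJ s θ y f⟩

end Vale.Agent.P150.PartB
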