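import Vale.Agent.P150.Fast.PartB.InductionSpec
import Vale.Agent.P150.Fast.PartB.KernelFacts

/-!
# P150, Part B: the leak, the channel and the thickenings (`ChanFacts`)
-/

open MeasureTheory ProbabilityTheory Matrix
open scoped Matrix.Norms.L2Operator

namespace Vale.Agent.P150.PartB

variable {n : ℕ} {Λ c : ℝ} {J B : Matrix (Fin n) (Fin n) ℝ}

namespace Chan

lemma ind_le_one (S : Set (Fin n → ℝ)) (Y : Fin n → ℝ) :
    0 ≤ S.indicator (1 : (Fin n → ℝ) → ℝ) Y ∧ S.indicator (1 : (Fin n → ℝ) → ℝ) Y ≤ 1 :=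
  ⟨Set.indicator_nonneg (fun _ _ => zero_le_one) Y, Set.indicator_le' (fun _ _ => le_rfl) (fun _ _ => zero_le_one) Y⟩

lemma abs_ind_le (S : Set (Fin n → ℝ)) (Y : Fin n → ℝ) :
    |S.indicator (1 : (Fin n → ℝ) → ℝ) Y| ≤ 1 := by
  rw [abs_of_nonneg (ind_le_one S Y).1]; exact (ind_le_one S Y).2

lemma measurable_ind {S : Set (Fin n → ℝ)} (hS : MeasurableSet S) :
    Measurable (S.indicator (1 : (Fin n → ℝ) → ℝ)) := measurable_const.indicator hS

variable (J B) in
lemma measurable_leak (e τ : ℝ) {S : Set (Fin n → ℝ)} (hS : MeasurableSet S) :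
    Measurable (leak J B e τ S) := measurable_kern J B τ _ (measurable_ind hS.compl)

variable (J B) in
lemma leak_bounds (e τ : ℝ) {S : Set (Fin n → ℝ)} (hS : MeasurableSet S) (Y : Fin n → ℝ) :
    0 ≤ leak J B e τ S Y ∧ leak J B e τ S Y ≤ 1 := by
  have hm := measurable_ind hS.compl
  constructor
  · rw [← kern_const J B τ (Real.sqrt (e - τ)) Y 0]
    exact kern_mono J B τ _ Y measurable_const (fun _ => le_rfl) hm (abs_ind_le _) fun Z => (ind_le_one _ Z).1
  · rw [← kern_const J B τ (Real.sqrt (e - τ)) Y 1]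
    exact kern_mono J B τ _ Y hm (abs_ind_le _) measurable_const (fun _ => le_rfl) fun Z => (ind_le_one _ Z).2

/-- the channel is the kernel from the origin -/
lemma chanProb_eq_kern (hJ : Ctl Λ c J B) {s : ℝ} (hs : 0 ≤ s) {S : Set (Fin n → ℝ)}
    (hS : MeasurableSet S) :
    chanProb J B c s S = kern J B 0 (Real.sqrt s) 0 (S.indicator 1) := by
  rw [kern_translated hJ _ _ _ (measurable_ind hS) (abs_ind_le S), Real.sq_sqrt hs, sub_zero, one_smul]
  refine Finset.sum_congr rfl fun x _ => congrArg _ ?_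
  have hm : MeasurableSet {z | obsAt J B c s x z ∈ S} := by
    refine hS.preimage (f := fun z => obsAt J B c s x z) ?_
    unfold obsAt; fun_prop
  rw [← integral_indicator_one hm]
  refine integral_congr_ae (Filter.Eventually.of_forall fun z => ?_)
  simp only [zero_add]
  rfl

/-- Markov's inequality for the leak. -/
lemma chanProb_leak_le (hJ : Ctl Λ c J B) {s e thr : ℝ} {S : Set (Fin n → ℝ)} (hS : MeasurableSet S)
    (hs : 0 ≤ s) (hse : s ≤ e) (hthr : 0 < thr) :
    chanProb J B c s {Y | thr < leak J B e s S Y} ≤ chanProb J B c e Sᶜ / thr := by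
  have hl := measurable_leak J B e s hS
  have hT : MeasurableSet {Y | thr < leak J B e s S Y} := measurableSet_lt measurable_const hl
  have hlb : ∀ Y, |leak J B e s S Y| ≤ 1 := fun Y => by
    rw [abs_of_nonneg (leak_bounds J B e s hS Y).1]; exact (leak_bounds J B e s hS Y).2
  rw [chanProb_eq_kern hJ hs hT, chanProb_eq_kern hJ (hs.trans hse) hS.compl, le_div_iff₀ hthr,
    mul_comm, ← kern_smul]
  refine (kern_mono J B 0 _ 0 ((measurable_ind hT).const_mul thr) (M := thr) (fun Y => ?_) hl hlb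
    fun Y => ?_).trans (le_of_eq ?_)
  · rw [abs_mul, abs_of_pos hthr]; exact mul_le_of_le_one_right hthr.le (abs_ind_le _ Y)
  · by_cases h : Y ∈ {Y | thr < leak J B e s S Y}
    · rw [Set.indicator_of_mem h, Pi.one_apply, mul_one]; exact le_of_lt h
    · rw [Set.indicator_of_notMem h, mul_zero]; exact (leak_bounds J B e s hS Y).1
  · have h := kern_tower hJ 0 (Real.sqrt s) (Real.sqrt (e - s)) (Real.sqrt_nonneg _) (Real.sqrt_nonneg _) 0
      (measurable_ind hS.compl) (abs_ind_le _)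
    rw [Real.sq_sqrt hs, Real.sq_sqrt (sub_nonneg.2 hse), zero_add, add_sub_cancel] at h
    exact h

lemma leak_self (e : ℝ) (S : Set (Fin n → ℝ)) (Y : Fin n → ℝ) :
    leak J B e e S Y = Sᶜ.indicator 1 Y := by
  rw [leak, sub_self, Real.sqrt_zero, kern_zero]

/-- the tower rule for the leak -/
lemma kern_leak (hJ : Ctl Λ c J B) {e τ θ : ℝ} {S : Set (Fin n → ℝ)} (hS : MeasurableSet S)
    (Y : Fin n → ℝ) (hθ : 0 ≤ θ) (he : τ + θ ^ 2 ≤ e) :
    kern J B τ θ Y (fun Z => leak J B e (τ + θ ^ 2) S Z) = leak J B e τ S Y := by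
  refine (kern_tower hJ τ θ _ hθ (Real.sqrt_nonneg _) Y (measurable_ind hS.compl) (abs_ind_le _)).trans ?_
  rw [Real.sq_sqrt (sub_nonneg.2 he), show θ ^ 2 + (e - (τ + θ ^ 2)) = e - τ by ring]
  rfl

lemma measurableSet_thick (W : Set (Fin n → ℝ)) (r : ℝ) : MeasurableSet (thick W r) := by
  have h : thick W r = ⋃ w ∈ W, {Y | nrm (fun i => Y i - w i) < r} := by ext Y; simp [thick]
  rw [h]
  exact (isOpen_biUnion fun w _ => isOpen_lt (by unfold nrm; fun_prop) continuous_const).measurableSet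

/-- a shift of the starting point -/
lemma leak_shift {e τ : ℝ} {S S' : Set (Fin n → ℝ)} (hS : MeasurableSet S) (hS' : MeasurableSet S')
    (Y v : Fin n → ℝ) (h : ∀ Z ∈ S, Z + v ∈ S') :
    leak J B e τ S' (Y + v) ≤ Real.exp (2 * nrm v * Real.sqrt n) * leak J B e τ S Y := by
  refine (kern_shift J B τ _ Y v (measurable_ind hS'.compl) (ind_le_one _)).trans
    (mul_le_mul_of_nonneg_left ?_ (Real.exp_pos _).le)
  refine kern_mono J B τ _ Y ((measurable_ind hS'.compl).comp (measurable_add_const v))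
    (fun Z => abs_ind_le _ _) (measurable_ind hS.compl) (abs_ind_le _) fun Z => ?_
  by_cases hZ : Z ∈ S
  · rw [Set.indicator_of_notMem (Set.notMem_compl_iff.2 (h Z hZ))]; exact (ind_le_one _ Z).1
  · rw [Set.indicator_of_mem (s := Sᶜ) hZ]; exact (ind_le_one _ _).2

/-- landings outside the radius `landR √n` -/
def far (Λ τ e : ℝ) (Y : Fin n → ℝ) : Set (Fin n → ℝ) :=
  {Z | landR Λ τ e * Real.sqrt n < nrm fun i => Z i - Y i}

lemma measurableSet_far (Λ τ e : ℝ) (Y : Fin n → ℝ) : MeasurableSet (far Λ τ e Y) :=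
  measurableSet_lt measurable_const (by unfold nrm; fun_prop)

lemma kern_far (hJ : Ctl Λ c J B) {τ e : ℝ} (hτ : τ ≤ e) (Y : Fin n → ℝ) :
    kern J B τ (Real.sqrt (e - τ)) Y ((far Λ τ e Y).indicator 1) ≤ Real.exp (-(n : ℝ)) := by
  have hh := sub_nonneg.2 hτ
  have h := kern_tail hJ τ (Real.sqrt (e - τ)) (Real.sqrt_nonneg _) Y (4 * Real.sqrt n) (by positivity)
  rw [Real.sq_sqrt hh, mul_pow, Real.sq_sqrt (Nat.cast_nonneg n), ← Real.sqrt_mul hh,
    show (e - τ) * Λ * Real.sqrt n + Real.sqrt ((e - τ) * Λ) * (4 * Real.sqrt n) =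
      landR Λ τ e * Real.sqrt n by rw [landR]; ring] at h
  refine h.trans ?_
  have h2 : (2 : ℝ) ^ n ≤ Real.exp (3 * n) := by
    rw [mul_comm, Real.exp_nat_mul]
    exact pow_le_pow_left₀ zero_le_two (by linarith [Real.add_one_le_exp (3 : ℝ)]) n
  refine (mul_le_mul_of_nonneg_right h2 (Real.exp_pos _).le).trans (le_of_eq ?_)
  rw [← Real.exp_add]; ring_nf

/-- a small leak forces a point of the set near the start -/
lemma landing (hJ : Ctl Λ c J B) {τ e : ℝ} {S : Set (Fin n → ℝ)} (hS : MeasurableSet S) (hτ : τ ≤ e)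
    {Y : Fin n → ℝ} (h : leak J B e τ S Y + Real.exp (-(n : ℝ)) < 1) :
    ∃ Z ∈ S, nrm (fun i => Z i - Y i) ≤ landR Λ τ e * Real.sqrt n := by
  by_contra hcon
  push Not at hcon
  refine h.not_ge ?_
  have hf := kern_far hJ hτ Y
  calc (1 : ℝ) = kern J B τ (Real.sqrt (e - τ)) Y fun _ => 1 := (kern_const J B τ _ Y 1).symm
    _ ≤ kern J B τ (Real.sqrt (e - τ)) Y fun Z => Sᶜ.indicator 1 Z + (far Λ τ e Y).indicator 1 Z := by
      refine kern_mono J B τ _ Y measurable_const (fun _ => le_rfl)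
        ((measurable_ind hS.compl).add (measurable_ind (measurableSet_far Λ τ e Y))) (M' := 1 + 1)
        (fun Z => (abs_add_le _ _).trans (add_le_add (abs_ind_le _ Z) (abs_ind_le _ Z))) fun Z => ?_
      by_cases hZ : Z ∈ S
      · rw [Set.indicator_of_mem (show Z ∈ far Λ τ e Y from hcon Z hZ), Pi.one_apply]
        linarith [(ind_le_one Sᶜ Z).1]
      · rw [Set.indicator_of_mem (s := Sᶜ) hZ, Pi.one_apply]
        linarith [(ind_le_one (far Λ τ e Y) Z).1]
    _ ≤ _ := by
      rw [kern_add J B τ _ Y (measurable_ind hS.compl) (abs_ind_le _)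
        (measurable_ind (measurableSet_far Λ τ e Y)) (abs_ind_le _)]
      exact add_le_add (le_refl (leak J B e τ S Y)) hf

end Chan

theorem chanFacts : ChanFacts := fun n Λ c J B hJ =>
  ⟨fun s e thr S hS hs hse hthr => Chan.chanProb_leak_le hJ hS hs hse hthr,
    fun s S T => by
      have : IsProbabilityMeasure (gauss (Fin n)) := by unfold gauss; infer_instance
      rw [chanProb, chanProb, chanProb, ← Finset.sum_add_distrib]
      refine Finset.sum_le_sum fun x _ => ?_
      rw [← mul_add]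
      exact mul_le_mul_of_nonneg_left (measureReal_union_le _ _) (Ising.wt_pos _ _ x).le,
    fun s S T hST => by
      have : IsProbabilityMeasure (gauss (Fin n)) := by unfold gauss; infer_instance
      exact Finset.sum_le_sum fun x _ => mul_le_mul_of_nonneg_left
        (measureReal_mono fun z hz => hST hz) (Ising.wt_pos _ _ x).le,
    fun e τ S hS => ⟨Chan.measurable_leak J B e τ hS, Chan.leak_bounds J B e τ hS⟩,
    fun e S Y => Chan.leak_self e S Y,
    fun e τ θ S Y hS hθ he => Chan.kern_leak hJ hS Y hθ he,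
    fun W r => Chan.measurableSet_thick W r,
    fun e τ S S' Y v hS hS' _ h => Chan.leak_shift hS hS' Y v h,
    fun e τ S Y hS hτ _ h => Chan.landing hJ hS hτ h⟩

end Vale.Agent.P150.PartB
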