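import Mathlib

/-!
# P150, Part B: the scalar conditions of the macro induction

`h = 1/N` is the length of a block, `κ` the shift step, `ρ, Lk` the certified radius and the
Lipschitz constant of the candidate. Proved in Params.lean.
-/

namespace Vale.Agent.P150.PartB.Par

/-- the largest shift -/
noncomputable def kmax (N : ℕ) (κ : ℝ) : ℝ := (2 * N + 2) * κ

/-- radius of a landing over a block -/
noncomputable def land (Λ h : ℝ) : ℝ := h * Λ + 4 * Real.sqrt (h * Λ)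

/-- distance at which the modulus of the mean is used -/
noncomputable def dist (Λ h κ : ℝ) : ℝ := 2 * (κ + land Λ h)

/-- bound for `‖F - H‖` -/
noncomputable def dmax (K ε h : ℝ) : ℝ := Real.exp K * (K * (ε + K * h + 2 * h))

/-- bound for the normalised Frobenius norm of `F - H` -/
noncomputable def pmax (K ε₂ h : ℝ) : ℝ := Real.exp K * (K * (ε₂ + K * h + 2 * h))

/-- bound for the normalised residual -/
noncomputable def rmax (K ε₂ h : ℝ) : ℝ := K * (ε₂ + K * h + pmax K ε₂ h + 2 * h)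

/-- modulus of the mean -/
noncomputable def modR (K Λ η ε₂ h κ : ℝ) : ℝ := (2 * rmax K ε₂ h + dist Λ h κ) / η

/-- leak threshold of a macro step -/
noncomputable def thr (c₀ h : ℝ) (n : ℕ) : ℝ := Real.exp (-(c₀ * h / 2 * n))

/-- leak threshold of the second-order barriers -/
noncomputable def th2 (c₀ h : ℝ) (n : ℕ) : ℝ := Real.exp (-(c₀ * h / 4 * n))

/-- leak threshold of the localisation -/
noncomputable def thV (κ : ℝ) (n : ℕ) : ℝ := Real.exp (-(3 * κ * n))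

/-- crude variance cap -/
noncomputable def cap (K Λ η ε₂ h κ : ℝ) (n : ℕ) : ℝ := 1000 * modR K Λ η ε₂ h κ ^ 2 * n + 1

/-- amplification over a block -/
noncomputable def amp (K Λ η ε₂ h κ : ℝ) (n : ℕ) : ℝ :=
  (n + 2 : ℝ) ^ 9 / thV κ n * Real.exp (K * (cap K Λ η ε₂ h κ n + 1) * (K + 1) * h)

/-- error of the weak Poincaré inequality at the grid -/
noncomputable def errMax (K Λ η ε₂ c₀ κ : ℝ) (N : ℕ) (n : ℕ) : ℝ :=
  N * K ^ N * ((K + 1) * amp K Λ η ε₂ (1 / N) κ n * (Real.exp (2 * kmax N κ * n) * thr c₀ (1 / N) n))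

/-- bound for the field -/
noncomputable def ysup (n : ℕ) : ℝ := (n : ℝ) ^ (3 / 5 : ℝ) + Real.sqrt n

/-- lower bound for `1 - m²` -/
noncomputable def low (Λ : ℝ) (n : ℕ) : ℝ := Real.exp (-(2 * (ysup n + Λ * Real.sqrt n)))

/-- the conditions on the constants -/
structure Ok (K Λ η ε ρ Lk c₀ ε₂ κ : ℝ) (N : ℕ) : Prop where
  step : K * (K + 1) * (1 / N : ℝ) ≤ 1
  time : K * (1 / N : ℝ) ≤ η / 4
  eb : ε + K * (1 / N : ℝ) ≤ 1
  e2 : ε₂ + K * (1 / N : ℝ) ≤ 1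
  dle : dmax K ε (1 / N) ≤ 1
  ple : pmax K ε₂ (1 / N) ≤ 1
  rle : modR K Λ η ε₂ (1 / N) κ ≤ 1 / 4
  rpos : 0 < modR K Λ η ε₂ (1 / N) κ
  slack : kmax N κ + land Λ (1 / N) ≤ 1
  ball : ρ / 4 + 6 * modR K Λ η ε₂ (1 / N) κ +
    Lk * (1 / N + dist Λ (1 / N) κ + 3 * kmax N κ) ≤ ρ
  centre : (kmax N κ + rmax K ε₂ (1 / N)) / η + Lk * kmax N κ ≤ ρ / 8
  shift : 2 * kmax N κ ≤ c₀ * (1 / N) / 16
  rate : 3 * κ + 1000 * modR K Λ η ε₂ (1 / N) κ ^ 2 * (K * (K + 1)) * (1 / N) ≤ c₀ * (1 / N) / 16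

/-- the conditions on the dimension -/
structure OkN (K Λ η c₀ ε₂ κ : ℝ) (N n : ℕ) : Prop where
  pos : 0 < n
  mesh : 1 / Real.sqrt n ≤ (1 / N : ℝ)
  tail : Real.exp (-(n : ℝ)) ≤ modR K Λ η ε₂ (1 / N) κ
  land : th2 c₀ (1 / N) n + Real.exp (-(n : ℝ)) < 1
  shiftR : Real.exp (-(κ * n)) ≤ modR K Λ η ε₂ (1 / N) κ
  capTail : 8 * (n : ℝ) * ((1 + 2 / modR K Λ η ε₂ (1 / N) κ) *
    Real.exp (-(κ * modR K Λ η ε₂ (1 / N) κ * n))) ≤ 1
  small : K ≤ κ * Real.sqrt n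
  zone : th2 c₀ (1 / N) n * Real.exp (2 * K * Real.sqrt n) ≤ thV κ n
  wp : (K * errMax K Λ η ε₂ c₀ κ N n +
      (K + 1) * amp K Λ η ε₂ (1 / N) κ n * (Real.exp (2 * K * Real.sqrt n) * th2 c₀ (1 / N) n)) *
    Real.exp (K * (ysup n + K + Real.sqrt n + 1)) ≤ 1
  field : ysup n + 1 ≤ n
  deep : Real.exp (2 * kmax N κ * n) * thr c₀ (1 / N) n * (K * (n + 2 : ℝ) ^ 20) ≤
    th2 c₀ (1 / N) n * (1 / N : ℝ) ^ 6 * low Λ n ^ 8
  deep' : Real.exp (2 * kmax N κ * n) * thr c₀ (1 / N) n ≤ th2 c₀ (1 / N) n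
  prob : (N + 1 : ℝ) * Real.exp (-(c₀ / 2 * n)) ≤ Real.exp (-(c₀ / 4 * n))

/-- the constants can be chosen in the required order -/
def Exists : Prop :=
  ∀ K Λ η : ℝ, 1 ≤ K → 0 < Λ → 0 < η → η ≤ 1 →
  ∃ ε₀ > 0, ∀ ε, 0 < ε → ε ≤ ε₀ → ∀ ρ Lk c₀, 0 < ρ → 0 < Lk → 0 < c₀ → ∃ ε₂ > 0,
  ∃ N : ℕ, 0 < N ∧ ∃ κ : ℝ, 0 < κ ∧ Ok K Λ η ε ρ Lk c₀ ε₂ κ N ∧
    ∃ n₀ : ℕ, ∀ n ≥ n₀, OkN K Λ η c₀ ε₂ κ N n

end Vale.Agent.P150.PartB.Par
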