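import Vale.Agent.P150.Fast.PartB.InductionSpec
import Vale.Agent.P150.Fast.PartB.ParamsSpec

/-!
# P150, Part B: the invariant of the macro induction

`BlockStep` (BlockStep.lean) and `MacroBase` (MacroBase.lean) are combined in Induction.lean.
-/

open MeasureTheory Matrix
open scoped Matrix.Norms.L2Operator

namespace Vale.Agent.P150.PartB.Macro

variable {n : ℕ}

/-- the Jacobian is at least `a` at `(s, m)` -/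
def Coer (a β s : ℝ) (J : Matrix (Fin n) (Fin n) ℝ) (m : Fin n → ℝ) : Prop :=
  ∀ v : Fin n → ℝ, a * ∑ i, v i ^ 2 ≤ v ⬝ᵥ kHat β s J m *ᵥ v

/-- the constants of the analytic inputs -/
structure Con (β c Λ η L₀ P KV KF K : ℝ) : Prop where
  one : 1 ≤ K
  cap : 0 ≤ L₀ ∧ L₀ ≤ K
  kv : 0 < KV ∧ KV ≤ K
  pdef : P = Real.exp (KV * (L₀ + 1))
  ple : P ≤ K
  kf : 0 < KF ∧ KF ≤ K
  transport : ∀ (n : ℕ) (J B : Matrix (Fin n) (Fin n) ℝ), Ctl Λ c J B →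
    ∀ s t : ℝ, s ∈ Set.Icc (0 : ℝ) 1 → t ∈ Set.Icc (0 : ℝ) 1 → ∀ m : Fin n → ℝ, (∀ i, |m i| < 1) →
      Coer η β t J m → K * |s - t| ≤ η / 2 →
      Coer (η / 2) β s J m ∧
      ‖psiMain β s J (J + c • 1) m (hMat β s J m) (hMat β s J m) -
          psiMain β t J (J + c • 1) m (hMat β t J m) (hMat β t J m)‖ ≤ K * |s - t| ∧
      nrm (resDrift β c s (J + c • 1) m (hMat β s J m) -
          resDrift β c t (J + c • 1) m (hMat β t J m)) ≤ K * |s - t| * Real.sqrt n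
  hbound : ∀ (n : ℕ) (J B : Matrix (Fin n) (Fin n) ℝ), Ctl Λ c J B →
    ∀ t : ℝ, t ∈ Set.Icc (0 : ℝ) 1 → ∀ m : Fin n → ℝ, (∀ i, |m i| < 1) →
      Coer (η / 2) β t J m → 2 + ‖hMat β t J m‖ ≤ L₀
  varB : ∀ (n : ℕ) (J B : Matrix (Fin n) (Fin n) ℝ), Ctl Λ c J B →
    ∀ (s e L ν P e₀ θ₀ : ℝ) (S : Set (Fin n → ℝ)), 0 ≤ s → s ≤ e → e ≤ 1 →
    0 ≤ L → 0 ≤ ν → 0 ≤ P → 0 ≤ e₀ → e₀ ≤ 1 → 0 < θ₀ → θ₀ ≤ 1 → MeasurableSet S →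
    KV * (L + 1) * (e - s) ≤ 1 →
    (∀ Y ∈ S, (∀ v, varW ((1 - e) • J) Y (linF v) ≤ L * ∑ i, v i ^ 2) ∧
      WP ((1 - e) • J) Y P e₀) →
    (∀ τ ∈ Set.Icc s e, ∀ Y, leak J B e τ S Y ≤ θ₀ →
      ∀ v, varW ((1 - τ) • J) Y (linF v) ≤ ν * ∑ i, v i ^ 2) →
    let b := (n + 2 : ℝ) ^ 9 / θ₀ * Real.exp (KV * (ν + 1) * (L + 1) * (e - s))
    ∀ τ ∈ Set.Icc s e, ∀ Y,
      (∀ v, varW ((1 - τ) • J) Y (linF v) ≤ (2 * L + 1 + b * leak J B e τ S Y) * ∑ i, v i ^ 2) ∧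
      WP ((1 - τ) • J) Y (P * Real.exp (KV * (L + 1) * (e - τ)))
        (KV * e₀ + (P + 1) * b * leak J B e τ S Y)
  fB : ∀ (n : ℕ) (J B : Matrix (Fin n) (Fin n) ℝ), Ctl Λ c J B →
    ∀ (s : ℝ), 0 ≤ s → s ≤ 1 → ∀ (y : Fin n → ℝ) (Y e : ℝ),
      (∀ i, |y i| ≤ Y) → 0 ≤ e → e * Real.exp (KF * (Y + Real.sqrt n + 1)) ≤ 1 →
      (∀ w : Fin n → ℝ, nrm w ≤ KF → WP ((1 - s) • J) (y + w) P e) →
      ‖fMat J s y‖ ≤ KF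
  bB : ∃ KB : ℝ, 0 < KB ∧ KB ≤ K ∧ ∀ (n : ℕ) (J B : Matrix (Fin n) (Fin n) ℝ), Ctl Λ c J B → 0 < n →
    ∀ (s e θ₂ l εb ε₂ δ φ r : ℝ) (S : Set (Fin n → ℝ)), 0 ≤ s → s < e → e ≤ 1 → MeasurableSet S →
      0 < θ₂ → θ₂ ≤ 1 → 0 < l → l ≤ 1 → εb ∈ Set.Icc (0 : ℝ) 1 → ε₂ ∈ Set.Icc (0 : ℝ) 1 →
      δ ∈ Set.Icc (0 : ℝ) 1 → φ ∈ Set.Icc (0 : ℝ) 1 → 0 ≤ r →
      (∀ t ∈ Set.Icc s e, ∀ Y, leak J B e t S Y ≤ θ₂ →
        ‖fMat J t Y‖ ≤ KF ∧ (∀ i, |Y i| + 1 ≤ n) ∧ (∀ i, l ≤ 1 - mean J t Y i ^ 2) ∧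
        (∀ v : Fin n → ℝ, η / 2 * ∑ i, v i ^ 2 ≤ v ⬝ᵥ kHat β t J (mean J t Y) *ᵥ v) ∧
        ‖psiMain β t J (J + c • 1) (mean J t Y) (hMat β t J (mean J t Y))
            (hMat β t J (mean J t Y))‖ ≤ εb ∧
        fnrm (psiMain β t J (J + c • 1) (mean J t Y) (hMat β t J (mean J t Y))
            (hMat β t J (mean J t Y))) ≤ ε₂ * Real.sqrt n ∧
        nrm (resDrift β c t (J + c • 1) (mean J t Y) (hMat β t J (mean J t Y))) ≤ ε₂ * Real.sqrt n) →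
      (∀ Y ∈ S, ‖fMat J e Y - hMat β e J (mean J e Y)‖ ≤ δ ∧
        fnrm (fMat J e Y - hMat β e J (mean J e Y)) ≤ φ * Real.sqrt n ∧
        nrm (resM β e J Y (mean J e Y)) ≤ r * Real.sqrt n) →
      let h := e - s
      let g := h + 1 / Real.sqrt n
      ∀ τ ∈ Set.Icc s e, ∀ Y, leak J B e τ S Y * (KB * (n + 2 : ℝ) ^ 20) ≤ θ₂ * h ^ 6 * l ^ 8 →
        ‖fMat J τ Y - hMat β τ J (mean J τ Y)‖ ≤ Real.exp (KB * h) * (δ + KB * (εb + g) * h) ∧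
        fnrm (fMat J τ Y - hMat β τ J (mean J τ Y)) ≤
          Real.exp (KB * h) * (φ + KB * (ε₂ + g) * h) * Real.sqrt n ∧
        nrm (resM β τ J Y (mean J τ Y)) ≤ (r + KB * (ε₂ + φ + g) * h) * Real.sqrt n

/-- `‖F - H‖` after `j` blocks of length `h` -/
noncomputable def dAt (K ε h : ℝ) (j : ℕ) : ℝ := Real.exp (K * (j * h)) * (K * (ε + K * h + 2 * h)) * (j * h)

/-- normalised Frobenius norm of `F - H` after `j` blocks -/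
noncomputable def pAt (K ε₂ h : ℝ) (j : ℕ) : ℝ := Real.exp (K * (j * h)) * (K * (ε₂ + K * h + 2 * h)) * (j * h)

/-- normalised residual after `j` blocks -/
noncomputable def rAt (K ε₂ h : ℝ) (j : ℕ) : ℝ := j * h * (K * (ε₂ + K * h + Par.pmax K ε₂ h + 2 * h))

/-- error of the weak Poincaré inequality after `j` blocks -/
noncomputable def eAt (K Λ η ε₂ c₀ κ : ℝ) (N n j : ℕ) : ℝ :=
  j * K ^ j * ((K + 1) * Par.amp K Λ η ε₂ (1 / N) κ n * (Real.exp (2 * Par.kmax N κ * n) * Par.thr c₀ (1 / N) n))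

/-- the invariant at a grid time -/
def Inv (β η L₀ KV δ φ r e₀ ρ : ℝ) (J : Matrix (Fin n) (Fin n) ℝ)
    (cand : ℝ → (Fin n → ℝ) → Fin n → ℝ) (s : ℝ) (S : Set (Fin n → ℝ)) : Prop :=
  ∀ Y ∈ S, (∀ v, varW ((1 - s) • J) Y (linF v) ≤ L₀ * ∑ i, v i ^ 2) ∧
    WP ((1 - s) • J) Y (Real.exp (KV * (L₀ + 1) * (1 - s))) e₀ ∧
    Coer (η / 2) β s J (mean J s Y) ∧
    nrm (fun i => mean J s Y i - Real.tanh (cand s Y i)) ≤ ρ / 4 * Real.sqrt n ∧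
    ‖fMat J s Y - hMat β s J (mean J s Y)‖ ≤ δ ∧
    fnrm (fMat J s Y - hMat β s J (mean J s Y)) ≤ φ * Real.sqrt n ∧
    nrm (resM β s J Y (mean J s Y)) ≤ r * Real.sqrt n

/-- the standing hypotheses of the induction -/
structure Setting (β c Λ η L₀ P KV KF K ε ρ Lk c₀ ε₂ κ : ℝ) (N : ℕ) (J B : Matrix (Fin n) (Fin n) ℝ)
    (cand : ℝ → (Fin n → ℝ) → Fin n → ℝ) : Prop where
  beta : 0 ≤ β ∧ β < 1
  lam : 0 < Λ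
  eta : 0 < η ∧ η ≤ 1
  epos : 0 < ε ∧ 0 < ε₂
  rho : 0 < ρ
  lip : 0 < Lk
  rate : 0 < c₀
  kappa : 0 < κ
  grid : 0 < N
  con : Con β c Λ η L₀ P KV KF K
  ok : Par.Ok K Λ η ε ρ Lk c₀ ε₂ κ N
  okn : Par.OkN K Λ η c₀ ε₂ κ N n
  ctl : Ctl Λ c J B
  candLip : CandLip Lk cand

/-- One block: from the invariant at its end to the covariance bound inside and the invariant at its
start. -/
def BlockStep : Prop :=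
  ∀ (β c Λ η L₀ P KV KF K ε ρ Lk c₀ ε₂ κ : ℝ) (N n : ℕ) (J B : Matrix (Fin n) (Fin n) ℝ)
    (cand : ℝ → (Fin n → ℝ) → Fin n → ℝ),
    Setting β c Λ η L₀ P KV KF K ε ρ Lk c₀ ε₂ κ N J B cand →
    ∀ k j : ℕ, k + 1 + j = N → ∀ W : Set (Fin n → ℝ), MeasurableSet W →
      (∀ w ∈ W, Cert β c η ε ρ ε₂ (((k + 1 : ℕ) : ℝ) / N) J w (cand (((k + 1 : ℕ) : ℝ) / N) w)) →
      Inv β η L₀ KV (dAt K ε (1 / N) j) (pAt K ε₂ (1 / N) j) (rAt K ε₂ (1 / N) j)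
        (eAt K Λ η ε₂ c₀ κ N n j) ρ J cand (((k + 1 : ℕ) : ℝ) / N)
        (thick W ((2 * (k + 1 : ℕ) + 2) * κ * Real.sqrt n)) →
      (∀ s ∈ Set.Icc ((k : ℝ) / N) (((k + 1 : ℕ) : ℝ) / N), ∀ w,
        leak J B (((k + 1 : ℕ) : ℝ) / N) s W w ≤ Par.thr c₀ (1 / N) n →
        ∀ v : Fin n → ℝ, nrm v ≤ κ * Real.sqrt n → ‖cov J s (w + v)‖ ≤ L₀) ∧
      ∀ W' : Set (Fin n → ℝ),
        (∀ w ∈ W', leak J B (((k + 1 : ℕ) : ℝ) / N) ((k : ℝ) / N) W w ≤ Par.thr c₀ (1 / N) n ∧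
          Cert β c η ε ρ ε₂ ((k : ℝ) / N) J w (cand ((k : ℝ) / N) w)) →
        Inv β η L₀ KV (dAt K ε (1 / N) (j + 1)) (pAt K ε₂ (1 / N) (j + 1)) (rAt K ε₂ (1 / N) (j + 1))
          (eAt K Λ η ε₂ c₀ κ N n (j + 1)) ρ J cand ((k : ℝ) / N)
          (thick W' ((2 * k + 2) * κ * Real.sqrt n))

/-- The invariant at time one. -/
def MacroBase : Prop :=
  ∀ (β c Λ η L₀ P KV KF K ε ρ Lk c₀ ε₂ κ : ℝ) (N n : ℕ) (J B : Matrix (Fin n) (Fin n) ℝ)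
    (cand : ℝ → (Fin n → ℝ) → Fin n → ℝ),
    Setting β c Λ η L₀ P KV KF K ε ρ Lk c₀ ε₂ κ N J B cand →
    ∀ W : Set (Fin n → ℝ), (∀ w ∈ W, Cert β c η ε ρ ε₂ 1 J w (cand 1 w)) →
      Inv β η L₀ KV 0 0 0 0 ρ J cand 1 (thick W ((2 * (N : ℝ) + 2) * κ * Real.sqrt n))

end Vale.Agent.P150.PartB.Macro
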