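import Vale.Agent.P150.Fast.PartB.InductionTools
import Vale.Agent.P150.Fast.PartB.MacroSpec
import Vale.Agent.P150.Fast.PartB.Chan

/-!
# P150, Part B: inside one block of the macro induction

Below the leak threshold `th2` the mean is localised in a certified ball, the normalised covariance
is bounded and the drifts at `F = H` are small.
-/

open MeasureTheory Matrix
open scoped Matrix.Norms.L2Operator

namespace Vale.Agent.P150.PartB.Macro

open Ind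

variable {n : ℕ} {β c Λ η L₀ P KV KF K ε ρ Lk c₀ ε₂ κ : ℝ} {N : ℕ}
  {J B : Matrix (Fin n) (Fin n) ℝ} {cand : ℝ → (Fin n → ℝ) → Fin n → ℝ}

/-- the position of the block `[s, e]` and of the three thickenings of `W` -/
structure Geo (Λ κ : ℝ) (N k j : ℕ) : Prop where
  sub : ((k + 1 : ℕ) : ℝ) / N - (k : ℝ) / N = 1 / N
  s_mem : ((k : ℝ) / N) ∈ Set.Icc (0 : ℝ) 1
  e_mem : (((k + 1 : ℕ) : ℝ) / N) ∈ Set.Icc (0 : ℝ) 1
  hpos : (0 : ℝ) < 1 / N
  kle : (2 * ((k + 1 : ℕ) : ℝ) + 2) * κ ≤ Par.kmax N κ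
  jle : (j : ℝ) * (1 / N) ≤ 1
  jle' : ((j + 1 : ℕ) : ℝ) * (1 / N) ≤ 1
  land : ∀ τ, (k : ℝ) / N ≤ τ → landR Λ τ (((k + 1 : ℕ) : ℝ) / N) ≤ Par.land Λ (1 / N)

lemma geo {k j : ℕ} (hΛ : 0 < Λ) (hκ : 0 < κ) (hN : 0 < N) (hkj : k + 1 + j = N) : Geo Λ κ N k j := by
  have hN' : (0 : ℝ) < N := Nat.cast_pos.2 hN
  have hsum : (k : ℝ) + 1 + j = N := by exact_mod_cast hkj
  have hk : (0 : ℝ) ≤ k := Nat.cast_nonneg k
  have hj : (0 : ℝ) ≤ j := Nat.cast_nonneg j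
  have hsub : ((k + 1 : ℕ) : ℝ) / N - (k : ℝ) / N = 1 / N := by push_cast; ring
  refine ⟨hsub, ⟨by positivity, by rw [div_le_one hN']; linarith⟩,
    ⟨by positivity, by rw [div_le_one hN']; push_cast; linarith⟩, by positivity, ?_, ?_, ?_, fun τ hτ => ?_⟩
  · refine mul_le_mul_of_nonneg_right ?_ hκ.le
    push_cast; linarith
  · rw [mul_one_div, div_le_one hN']; linarith
  · rw [mul_one_div, div_le_one hN']; push_cast; linarith
  · simp only [landR, Par.land]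
    have h1 : (((k + 1 : ℕ) : ℝ) / N - τ) * Λ ≤ 1 / N * Λ := mul_le_mul_of_nonneg_right (by linarith) hΛ.le
    have h2 := Real.sqrt_le_sqrt h1
    linarith

/-- the exponentially small quantity carried by the weak Poincaré inequality -/
noncomputable def eBase (K Λ η ε₂ c₀ κ : ℝ) (N n : ℕ) : ℝ :=
  (K + 1) * Par.amp K Λ η ε₂ (1 / N) κ n * (Real.exp (2 * Par.kmax N κ * n) * Par.thr c₀ (1 / N) n)

variable (hS : Setting β c Λ η L₀ P KV KF K ε ρ Lk c₀ ε₂ κ N J B cand)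
include hS

lemma Setting.size : 0 ≤ K ∧ 0 ≤ Par.rmax K ε₂ (1 / N) ∧ 0 ≤ Par.pmax K ε₂ (1 / N) := by
  have hK : 0 ≤ K := zero_le_one.trans hS.con.one
  have h2 := hS.epos.2
  refine ⟨hK, ?_, ?_⟩ <;> simp only [Par.rmax, Par.pmax] <;> positivity

lemma Setting.amp_nonneg : 0 ≤ Par.amp K Λ η ε₂ (1 / N) κ n := by
  simp only [Par.amp, Par.thV]; positivity

lemma Setting.eBase_nonneg : 0 ≤ eBase K Λ η ε₂ c₀ κ N n := by
  have := hS.amp_nonneg
  have := hS.size.1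
  simp only [eBase, Par.thr]; positivity

lemma rAt_le {j : ℕ} (hj : (j : ℝ) * (1 / N) ≤ 1) : rAt K ε₂ (1 / N) j ≤ Par.rmax K ε₂ (1 / N) := by
  obtain ⟨hK, -, hp⟩ := hS.size
  have h2 := hS.epos.2
  have h3 : 0 ≤ K * (ε₂ + K * (1 / N : ℝ) + Par.pmax K ε₂ (1 / N) + 2 * (1 / N : ℝ)) := by positivity
  exact mul_le_of_le_one_left h3 hj

lemma eAt_le {j : ℕ} (hj : j ≤ N) : 0 ≤ eAt K Λ η ε₂ c₀ κ N n j ∧
    eAt K Λ η ε₂ c₀ κ N n j ≤ Par.errMax K Λ η ε₂ c₀ κ N n := by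
  have hK1 := hS.con.one
  have := hS.size.1
  have hb : 0 ≤ (K + 1) * Par.amp K Λ η ε₂ (1 / N) κ n *
      (Real.exp (2 * Par.kmax N κ * n) * Par.thr c₀ (1 / N) n) := hS.eBase_nonneg
  refine ⟨by simp only [eAt]; positivity, ?_⟩
  refine mul_le_mul_of_nonneg_right ?_ hb
  exact mul_le_mul (Nat.cast_le.2 hj) (pow_le_pow_right₀ hK1 hj) (by positivity) (Nat.cast_nonneg N)

/-- the modulus of the mean at the end of a block -/
lemma modulus {k j : ℕ} (hg : Geo Λ κ N k j) {W : Set (Fin n → ℝ)} {δ φ e₀ : ℝ}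
    (hcert : ∀ w ∈ W, Cert β c η ε ρ ε₂ (((k + 1 : ℕ) : ℝ) / N) J w (cand (((k + 1 : ℕ) : ℝ) / N) w))
    (hinv : Inv β η L₀ KV δ φ (rAt K ε₂ (1 / N) j) e₀ ρ J cand (((k + 1 : ℕ) : ℝ) / N)
      (thick W ((2 * (k + 1 : ℕ) + 2) * κ * Real.sqrt n))) :
    let e := ((k + 1 : ℕ) : ℝ) / N
    let S₂ := thick W ((2 * ((k + 1 : ℕ) : ℝ) + 2) * κ * Real.sqrt n)
    ∀ Z₁ ∈ S₂, ∀ Z₂ ∈ S₂, nrm (fun i => Z₁ i - Z₂ i) ≤ Par.dist Λ (1 / N) κ * Real.sqrt n →
      nrm (fun i => mean J e Z₁ i - mean J e Z₂ i) ≤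
        Par.modR K Λ η ε₂ (1 / N) κ * Real.sqrt n := by
  intro e S₂ Z₁ h1 Z₂ h2 hd
  have hs0 := Real.sqrt_nonneg (n : ℝ)
  obtain ⟨w, hw, hlt⟩ := id h1
  obtain ⟨-, -, -, hb1, -, -, hr1⟩ := hinv Z₁ h1
  obtain ⟨-, -, -, hb2, -, -, hr2⟩ := hinv Z₂ h2
  set z := cand e w
  have hball : ∀ Z, nrm (fun i => Z i - w i) ≤ (Par.kmax N κ + Par.dist Λ (1 / N) κ) * Real.sqrt n →
      nrm (fun i => mean J e Z i - Real.tanh (cand e Z i)) ≤ ρ / 4 * Real.sqrt n →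
      nrm (fun i => mean J e Z i - Real.tanh (z i)) ≤ ρ * Real.sqrt n := fun Z hZ hb => by
    refine (nrm_tri _ (fun i => Real.tanh (cand e Z i)) _).trans ?_
    have hl := hS.candLip e hg.e_mem e hg.e_mem Z w
    rw [sub_self, abs_zero, zero_mul, zero_add] at hl
    have hl2 := mul_le_mul_of_nonneg_left hZ hS.lip.le
    have hR := hS.ok.rpos
    have h6 : (ρ / 4 + Lk * (Par.kmax N κ + Par.dist Λ (1 / N) κ)) * Real.sqrt n ≤ ρ * Real.sqrt n := by
      refine mul_le_mul_of_nonneg_right ?_ hs0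
      have h3 := hS.ok.ball
      have hκ := hS.kappa
      have : 0 ≤ Par.kmax N κ := by simp only [Par.kmax]; positivity
      have := mul_nonneg hS.lip.le this
      have := mul_nonneg hS.lip.le hg.hpos.le
      nlinarith
    linarith
  have hk : (2 * ((k + 1 : ℕ) : ℝ) + 2) * κ * Real.sqrt n ≤ Par.kmax N κ * Real.sqrt n :=
    mul_le_mul_of_nonneg_right hg.kle hs0
  have hd0 : 0 ≤ Par.dist Λ (1 / N) κ * Real.sqrt n := (nrm_nonneg _).trans hd
  have hm1 := hball Z₁ (by linarith) hb1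
  have hm2 := hball Z₂ (by
    have := nrm_tri Z₂ Z₁ w
    rw [nrm_comm Z₂ Z₁] at this
    linarith) hb2
  have hlt' : ∀ Z i, |mean J e Z i| < 1 := fun Z i => StepProof.abs_mean_lt hS.ctl e Z i
  have hd' := (hcert w hw).dist_le Z₁ (mean J e Z₁) (mean J e Z₂) (hlt' Z₁) (hlt' Z₂) hm1 hm2
  rw [nrm_comm (mean J e Z₁)]
  have hres : nrm (fun i => resM β e J Z₁ (mean J e Z₂) i - resM β e J Z₁ (mean J e Z₁) i) ≤
      (2 * Par.rmax K ε₂ (1 / N) + Par.dist Λ (1 / N) κ) * Real.sqrt n := by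
    have e1 : (fun i => resM β e J Z₁ (mean J e Z₂) i - resM β e J Z₁ (mean J e Z₁) i) =
        fun i => resM β e J Z₂ (mean J e Z₂) i + ((Z₂ i - Z₁ i) + -resM β e J Z₁ (mean J e Z₁) i) := by
      funext i; simp only [resM]; ring
    rw [e1]
    refine (nrm_add_le _ _).trans ?_
    have h3 := nrm_add_le (fun i => Z₂ i - Z₁ i) (fun i => -resM β e J Z₁ (mean J e Z₁) i)
    have h4 : nrm (fun i => -resM β e J Z₁ (mean J e Z₁) i) = nrm (resM β e J Z₁ (mean J e Z₁)) := by simp [nrm]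
    rw [nrm_comm Z₂ Z₁] at h3
    have := mul_le_mul_of_nonneg_right (rAt_le hS hg.jle) hs0
    linarith
  rw [Par.modR, div_mul_eq_mul_div, le_div_iff₀ hS.eta.1]
  linarith [hd'.trans hres]

/-- what holds in a block where the leak is below `th2` -/
structure Zone (β c η L₀ KV KF K ε ρ Lk ε₂ κ Λ c₀ : ℝ) (N k : ℕ) (J B : Matrix (Fin n) (Fin n) ℝ)
    (cand : ℝ → (Fin n → ℝ) → Fin n → ℝ) (W : Set (Fin n → ℝ)) (e₀ τ : ℝ) (Y : Fin n → ℝ) : Prop where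
  near : ∃ w₁ ∈ W, nrm (fun i => Y i - w₁ i) ≤ (Par.land Λ (1 / N) + Par.kmax N κ) * Real.sqrt n ∧
    nrm (fun i => mean J τ Y i - Real.tanh (cand (((k + 1 : ℕ) : ℝ) / N) w₁ i)) ≤
      (ρ / 4 + 6 * Par.modR K Λ η ε₂ (1 / N) κ + Lk * Par.kmax N κ) * Real.sqrt n
  wp : ∀ x, leak J B (((k + 1 : ℕ) : ℝ) / N) τ (thick W ((2 * (k : ℝ) + 2) * κ * Real.sqrt n)) Y ≤ x →
    WP ((1 - τ) • J) Y (Real.exp (KV * (L₀ + 1) * (1 - τ)))
      (K * e₀ + (K + 1) * Par.amp K Λ η ε₂ (1 / N) κ n * x)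
  fbd : ‖fMat J τ Y‖ ≤ KF
  field : ∀ i, |Y i| + 1 ≤ (n : ℝ)
  low : ∀ i, Par.low Λ n ≤ 1 - mean J τ Y i ^ 2
  coer : Coer (η / 2) β τ J (mean J τ Y)
  psiOp : ‖psiMain β τ J (J + c • 1) (mean J τ Y) (hMat β τ J (mean J τ Y)) (hMat β τ J (mean J τ Y))‖ ≤
    ε + K * (1 / N)
  psiFrob : fnrm (psiMain β τ J (J + c • 1) (mean J τ Y) (hMat β τ J (mean J τ Y))
    (hMat β τ J (mean J τ Y))) ≤ (ε₂ + K * (1 / N)) * Real.sqrt n
  psiRes : nrm (resDrift β c τ (J + c • 1) (mean J τ Y) (hMat β τ J (mean J τ Y))) ≤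
    (ε₂ + K * (1 / N)) * Real.sqrt n

/-- the facts of a block below the threshold -/
lemma zone {k j : ℕ} (hkj : k + 1 + j = N) {W : Set (Fin n → ℝ)} {δ φ : ℝ}
    (hcert : ∀ w ∈ W, Cert β c η ε ρ ε₂ (((k + 1 : ℕ) : ℝ) / N) J w (cand (((k + 1 : ℕ) : ℝ) / N) w))
    (hinv : Inv β η L₀ KV δ φ (rAt K ε₂ (1 / N) j) (eAt K Λ η ε₂ c₀ κ N n j) ρ J cand
      (((k + 1 : ℕ) : ℝ) / N) (thick W ((2 * (k + 1 : ℕ) + 2) * κ * Real.sqrt n)))
    {τ : ℝ} (hτ : τ ∈ Set.Icc ((k : ℝ) / N) (((k + 1 : ℕ) : ℝ) / N)) {Y : Fin n → ℝ}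
    (hY : leak J B (((k + 1 : ℕ) : ℝ) / N) τ (thick W ((2 * (k : ℝ) + 2) * κ * Real.sqrt n)) Y ≤
      Par.th2 c₀ (1 / N) n) :
    Zone β c η L₀ KV KF K ε ρ Lk ε₂ κ Λ c₀ N k J B cand W (eAt K Λ η ε₂ c₀ κ N n j) τ Y := by
  have hΛ := hS.lam
  have hκ := hS.kappa
  have hg := geo (κ := κ) hΛ hκ hS.grid hkj
  obtain ⟨hK, hrm, -⟩ := hS.size
  have hs0 := Real.sqrt_nonneg (n : ℝ)
  have hmod := modulus hS hg hcert hinv
  obtain ⟨-, -, -, hleak, -, -, hthick, hshift, hland⟩ := chanFacts n Λ c J B hS.ctl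
  set e := ((k + 1 : ℕ) : ℝ) / N with he
  set S₀ := thick W ((2 * (k : ℝ) + 2) * κ * Real.sqrt n)
  set S₁ := thick W ((2 * (k : ℝ) + 3) * κ * Real.sqrt n)
  set S₂ := thick W ((2 * ((k + 1 : ℕ) : ℝ) + 2) * κ * Real.sqrt n) with hS₂
  have hk0 : (0 : ℝ) ≤ k := Nat.cast_nonneg k
  have hκs : 0 ≤ κ * Real.sqrt n := by positivity
  have h01 : ∀ Z ∈ S₀, ∀ v : Fin n → ℝ, nrm v ≤ κ * Real.sqrt n → Z + v ∈ S₁ := fun Z hZ v hv =>
    thick_mono (le_of_eq (by ring)) (mem_thick_add hZ hv)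
  have h12 : ∀ Z ∈ S₁, ∀ v : Fin n → ℝ, nrm v ≤ κ * Real.sqrt n → Z + v ∈ S₂ := fun Z hZ v hv =>
    thick_mono (le_of_eq (by push_cast; ring)) (mem_thick_add hZ hv)
  set R := Par.modR K Λ η ε₂ (1 / N) κ with hRdef
  have hR : 0 < R := hS.ok.rpos
  have hthV : Par.thV κ n * Real.exp (2 * κ * n) ≤ R := by
    refine le_trans (le_of_eq ?_) hS.okn.shiftR
    rw [Par.thV, ← Real.exp_add]; ring_nf
  have hloc : ∀ t ∈ Set.Icc ((k : ℝ) / N) e, ∀ Z, leak J B e t S₁ Z ≤ Par.thV κ n →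
      (∀ Z' ∈ S₂, nrm (fun i => Z' i - Z i) ≤ Par.dist Λ (1 / N) κ / 2 * Real.sqrt n →
        nrm (fun i => mean J t Z i - mean J e Z' i) ≤ 6 * R * Real.sqrt n) ∧
      ∀ v : Fin n → ℝ, varW ((1 - t) • J) Z (linF v) ≤
        Par.cap K Λ η ε₂ (1 / N) κ n * ∑ i, v i ^ 2 := fun t ht Z hZ => by
    have hd : 2 * (κ + landR Λ t e) ≤ Par.dist Λ (1 / N) κ := by
      simp only [Par.dist]
      linarith [hg.land t ht.1]
    obtain ⟨a, b⟩ := locCap n Λ c J B hS.ctl hΛ t e _ κ R S₁ S₂ (hthick _ _) (hthick _ _) ht.2 hκ.le hR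
      hS.ok.rle hd h12 hmod Z
      ((mul_le_mul_of_nonneg_right hZ (Real.exp_pos _).le).trans hthV) hS.okn.tail
    refine ⟨a, fun v => (b v).trans (mul_le_mul_of_nonneg_right ?_ (Finset.sum_nonneg fun i _ => sq_nonneg _))⟩
    simp only [Par.cap]
    linarith [hS.okn.capTail]
  obtain ⟨hex0, hexle⟩ := eAt_le hS (show j ≤ N by omega)
  have hwp1 := hS.okn.wp
  have hamp := hS.amp_nonneg
  have hth2 : 0 < Par.th2 c₀ (1 / N) n := Real.exp_pos _
  have hexp1 : 1 ≤ Real.exp (K * (Par.ysup n + K + Real.sqrt n + 1)) :=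
    Real.one_le_exp (by simp only [Par.ysup]; positivity)
  have he1 : eAt K Λ η ε₂ c₀ κ N n j ≤ 1 := by
    have h1 : K * Par.errMax K Λ η ε₂ c₀ κ N n +
        (K + 1) * Par.amp K Λ η ε₂ (1 / N) κ n * (Real.exp (2 * K * Real.sqrt n) * Par.th2 c₀ (1 / N) n) ≤ 1 := by
      refine le_trans (le_mul_of_one_le_right ?_ hexp1) hwp1
      have := hex0.trans hexle
      positivity
    have h2 : 0 ≤ (K + 1) * Par.amp K Λ η ε₂ (1 / N) κ n *
        (Real.exp (2 * K * Real.sqrt n) * Par.th2 c₀ (1 / N) n) := by positivity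
    have h3 := le_mul_of_one_le_left (hex0.trans hexle) hS.con.one
    linarith
  obtain ⟨hL0, hLK⟩ := hS.con.cap
  obtain ⟨hKV, hKVK⟩ := hS.con.kv
  have hstep : KV * (L₀ + 1) * (e - (k : ℝ) / N) ≤ 1 := by
    rw [he, hg.sub]
    refine le_trans ?_ hS.ok.step
    gcongr
  have hcap : 0 ≤ Par.cap K Λ η ε₂ (1 / N) κ n := by simp only [Par.cap]; positivity
  have hthV1 : Par.thV κ n ≤ 1 :=
    Real.exp_le_one_iff.2 (by have : (0 : ℝ) ≤ n := Nat.cast_nonneg n; nlinarith [mul_nonneg hκ.le this])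
  have hVB := hS.con.varB n J B hS.ctl ((k : ℝ) / N) e L₀ (Par.cap K Λ η ε₂ (1 / N) κ n)
    (Real.exp (KV * (L₀ + 1) * (1 - e))) (eAt K Λ η ε₂ c₀ κ N n j) (Par.thV κ n) S₁ hg.s_mem.1
    (hτ.1.trans hτ.2) hg.e_mem.2 hL0 hcap (Real.exp_pos _).le hex0 he1 (Real.exp_pos _) hthV1 (hthick _ _) hstep
    (fun Z hZ => by
      have hZ2 : Z ∈ S₂ := thick_mono
        (mul_le_mul_of_nonneg_right (mul_le_mul_of_nonneg_right (by push_cast; linarith) hκ.le) hs0) hZ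
      exact ⟨(hinv Z hZ2).1, (hinv Z hZ2).2.1⟩)
    fun t ht Z hZ => (hloc t ht Z hZ).2
  have hb : (n + 2 : ℝ) ^ 9 / Par.thV κ n *
      Real.exp (KV * (Par.cap K Λ η ε₂ (1 / N) κ n + 1) * (L₀ + 1) * (e - (k : ℝ) / N)) ≤
        Par.amp K Λ η ε₂ (1 / N) κ n := by
    rw [he, hg.sub, Par.amp]
    refine mul_le_mul_of_nonneg_left (Real.exp_le_exp.2 ?_) (div_nonneg (by positivity) (Real.exp_pos _).le)
    gcongr
  have hwp : ∀ Z x, leak J B e τ S₁ Z ≤ x → WP ((1 - τ) • J) Z (Real.exp (KV * (L₀ + 1) * (1 - τ)))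
      (K * eAt K Λ η ε₂ c₀ κ N n j + (K + 1) * Par.amp K Λ η ε₂ (1 / N) κ n * x) := fun Z x hx => by
    have h := (hVB τ hτ Z).2
    rw [← Real.exp_add, show KV * (L₀ + 1) * (1 - e) + KV * (L₀ + 1) * (e - τ) = KV * (L₀ + 1) * (1 - τ) by ring] at h
    have hl0 := ((hleak e τ S₁ (hthick _ _)).2 Z).1
    refine wp_mono h le_rfl (add_le_add (mul_le_mul_of_nonneg_right hKVK hex0) ?_)
    refine mul_le_mul (mul_le_mul ?_ hb (mul_nonneg (div_nonneg (by positivity) (Real.exp_pos _).le)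
      (Real.exp_pos _).le) (by linarith)) hx hl0 (by positivity)
    have h1 : Real.exp (KV * (L₀ + 1) * (1 - e)) ≤ P := by
      rw [hS.con.pdef]
      refine Real.exp_le_exp.2 (mul_le_of_le_one_right (by positivity) ?_)
      linarith [hg.e_mem.1]
    linarith [hS.con.ple]
  have hmono : ∀ Z, leak J B e τ S₁ Z ≤ leak J B e τ S₀ Z := fun Z => by
    have := hshift e τ S₀ S₁ Z 0 (hthick _ _) (hthick _ _) hτ.2
      (fun U hU => by simpa using h01 U hU 0 (by simpa [nrm] using hκs))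
    simpa [nrm] using this
  have hY1 : leak J B e τ S₁ Y ≤ Par.thV κ n := (hmono Y).trans (hY.trans ((le_mul_of_one_le_right hth2.le
    (Real.one_le_exp (by positivity))).trans hS.okn.zone))
  obtain ⟨Z, hZ0, hZn⟩ := hland e τ S₀ Y (hthick _ _) hτ.2 hΛ (by linarith [hS.okn.land])
  have hkm : (2 * (k : ℝ) + 2) * κ ≤ Par.kmax N κ := le_trans
    (mul_le_mul_of_nonneg_right (by push_cast; linarith) hκ.le) hg.kle
  have hnear : ∃ w₁ ∈ W, nrm (fun i => Y i - w₁ i) ≤ (Par.land Λ (1 / N) + Par.kmax N κ) * Real.sqrt n ∧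
      nrm (fun i => mean J τ Y i - Real.tanh (cand e w₁ i)) ≤
        (ρ / 4 + 6 * R + Lk * Par.kmax N κ) * Real.sqrt n := by
    obtain ⟨w₁, hw₁, hlt⟩ := id hZ0
    refine ⟨w₁, hw₁, ?_, ?_⟩
    · refine (nrm_tri Y Z w₁).trans ?_
      rw [nrm_comm Y Z]
      have h1 := mul_le_mul_of_nonneg_right (hg.land τ hτ.1) hs0
      have h2 := mul_le_mul_of_nonneg_right hkm hs0
      linarith
    · have hZ2 : Z ∈ S₂ := thick_mono
        (mul_le_mul_of_nonneg_right (mul_le_mul_of_nonneg_right (by push_cast; linarith) hκ.le) hs0) hZ0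
      have hd : nrm (fun i => Z i - Y i) ≤ Par.dist Λ (1 / N) κ / 2 * Real.sqrt n :=
        hZn.trans (mul_le_mul_of_nonneg_right (by
          simp only [Par.dist]
          linarith [hg.land τ hτ.1]) hs0)
      have h1 := (hloc τ hτ Y hY1).1 Z hZ2 hd
      have h2 := (hinv Z hZ2).2.2.2.1
      have h3 := hS.candLip e hg.e_mem e hg.e_mem Z w₁
      rw [sub_self, abs_zero, zero_mul, zero_add] at h3
      have h4 := mul_le_mul_of_nonneg_left (hlt.le.trans (mul_le_mul_of_nonneg_right hkm hs0)) hS.lip.le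
      have h5 := nrm_tri (mean J τ Y) (mean J e Z) fun i => Real.tanh (cand e w₁ i)
      have h6 := nrm_tri (mean J e Z) (fun i => Real.tanh (cand e Z i)) fun i => Real.tanh (cand e w₁ i)
      linarith
  obtain ⟨w₁, hw₁, hYw, hball⟩ := hnear
  have hC := hcert w₁ hw₁
  have hys : ∀ i, |Y i| ≤ Par.ysup n := fun i => by
    have h1 := abs_le_nrm (fun i => Y i - w₁ i) i
    have h2 := abs_add_le (Y i - w₁ i) (w₁ i)
    rw [sub_add_cancel] at h2
    have h3 : (Par.land Λ (1 / N) + Par.kmax N κ) * Real.sqrt n ≤ 1 * Real.sqrt n :=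
      mul_le_mul_of_nonneg_right (by linarith [hS.ok.slack]) hs0
    have h4 := hC.ysup i
    simp only [Par.ysup]
    linarith
  have hτI : τ ∈ Set.Icc (0 : ℝ) 1 := ⟨hg.s_mem.1.trans hτ.1, hτ.2.trans hg.e_mem.2⟩
  set m := mean J τ Y
  have hm : ∀ i, |m i| < 1 := StepProof.abs_mean_lt hS.ctl τ Y
  have hin : nrm (fun i => m i - Real.tanh (cand e w₁ i)) ≤ ρ * Real.sqrt n := by
    refine hball.trans (mul_le_mul_of_nonneg_right ?_ hs0)
    have h := hS.ok.ball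
    have hL := hS.lip.le
    have h1 : 0 ≤ Par.kmax N κ := by simp only [Par.kmax]; positivity
    have h2 : 0 ≤ Par.dist Λ (1 / N) κ := by simp only [Par.dist, Par.land]; positivity
    nlinarith [mul_nonneg hL h1, mul_nonneg hL h2, mul_nonneg hL hg.hpos.le]
  have hdt : K * |τ - e| ≤ K * (1 / N) := mul_le_mul_of_nonneg_left (by
    rw [abs_of_nonpos (by linarith [hτ.2])]
    linarith [hτ.1, hg.sub]) hK
  obtain ⟨hco, hop, hres⟩ := hS.con.transport n J B hS.ctl τ e hτI hg.e_mem m hm (hC.pos m hm hin)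
    (hdt.trans (by linarith [hS.ok.time, hS.eta.1]))
  refine ⟨⟨w₁, hw₁, hYw, hball⟩, fun x hx => hwp Y x ((hmono Y).trans hx), ?_, fun i => ?_,
    one_sub_sq_ge hS.ctl hτI Y hys, hco, ?_, ?_, ?_⟩
  · obtain ⟨hKF, hKFK⟩ := hS.con.kf
    set e' := K * Par.errMax K Λ η ε₂ c₀ κ N n +
      (K + 1) * Par.amp K Λ η ε₂ (1 / N) κ n * (Real.exp (2 * K * Real.sqrt n) * Par.th2 c₀ (1 / N) n)
    have he' : 0 ≤ e' := by
      have := hex0.trans hexle
      simp only [e']; positivity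
    refine hS.con.fB n J B hS.ctl τ hτI.1 hτI.2 Y (Par.ysup n) e' hys he' ?_ fun w hw => ?_
    · refine le_trans (mul_le_mul_of_nonneg_left (Real.exp_le_exp.2 ?_) he') hwp1
      have : 0 ≤ Par.ysup n := by simp only [Par.ysup]; positivity
      exact mul_le_mul hKFK (by linarith) (by positivity) hK
    · have hw2 : nrm w ≤ κ * Real.sqrt n := hw.trans (hKFK.trans hS.okn.small)
      have hl : leak J B e τ S₁ (Y + w) ≤ Real.exp (2 * K * Real.sqrt n) * Par.th2 c₀ (1 / N) n := by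
        refine (hshift e τ S₀ S₁ Y w (hthick _ _) (hthick _ _) hτ.2 fun U hU => h01 U hU w hw2).trans
          (mul_le_mul (Real.exp_le_exp.2 ?_) hY ((hleak e τ S₀ (hthick _ _)).2 Y).1 (Real.exp_pos _).le)
        exact mul_le_mul_of_nonneg_right (by linarith) hs0
      refine wp_mono (hwp (Y + w) _ hl) ?_ (add_le_add (mul_le_mul_of_nonneg_left hexle hK) le_rfl)
      rw [hS.con.pdef]
      exact Real.exp_le_exp.2 (mul_le_of_le_one_right (by positivity) (by linarith [hτI.1]))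
  · linarith [hys i, hS.okn.field]
  · have h1 := hC.psiBall m hm hin
    refine (norm_le_norm_add_norm_sub' _ _).trans (add_le_add h1 (hop.trans hdt))
  · refine le_trans ?_ (add_mul ε₂ (K * (1 / N : ℝ)) (Real.sqrt n)).ge
    refine le_trans (le_of_eq (by rw [add_sub_cancel])) ((fnrm_add_le
      (psiMain β e J (J + c • 1) m (hMat β e J m) (hMat β e J m))
      (psiMain β τ J (J + c • 1) m (hMat β τ J m) (hMat β τ J m) -
        psiMain β e J (J + c • 1) m (hMat β e J m) (hMat β e J m))).trans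
      (add_le_add (hC.psiFrob m hm hin) ((fnrm_le_norm _).trans ?_)))
    rw [mul_comm]
    exact mul_le_mul_of_nonneg_right (hop.trans hdt) hs0
  · refine le_trans ?_ (add_mul ε₂ (K * (1 / N : ℝ)) (Real.sqrt n)).ge
    refine le_trans (le_of_eq ?_) ((nrm_add_le (resDrift β c e (J + c • 1) m (hMat β e J m))
      (resDrift β c τ (J + c • 1) m (hMat β τ J m) - resDrift β c e (J + c • 1) m (hMat β e J m))).trans
      (add_le_add (hC.resBall m hm hin) (hres.trans (mul_le_mul_of_nonneg_right hdt hs0))))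
    congr 1; funext i; simp only [Pi.sub_apply, add_sub_cancel]; rfl

end Vale.Agent.P150.PartB.Macro
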