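import Vale.Agent.P150.Fast.PartB.BlockTools

/-!
# P150, Part B: `BlockBarriers`

Each of the three quantities is run through the barrier twice: first on the leak level `θ₂` with the
crude bound `‖F - H‖ ≤ K₀ + ‖H‖` in the rate, then on a polynomially smaller level with the bound
just obtained.
-/

open MeasureTheory Matrix
open scoped Matrix.Norms.L2Operator

namespace Vale.Agent.P150.PartB

open Vale.Agent.P150.Fast

variable {n : ℕ} {Λ c : ℝ} {J B : Matrix (Fin n) (Fin n) ℝ}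

namespace Block

open StepProof

/-- admissible cut-off and mesh for one step -/
lemma step_params {K l : ℝ} (hK : 0 ≤ K) (hl : 0 < l) (hl1 : l ≤ 1) (n : ℕ) :
    ∃ σ θm : ℝ, 0 < σ ∧ σ ≤ 1 ∧ 0 < θm ∧ ∀ θ, 0 < θ → θ ≤ θm →
      θ ≤ 1 ∧ θ ^ 2 * n ≤ 1 ∧ K * (n + 1 : ℝ) ^ 4 * (θ ^ 2 + σ) ≤ l ^ 4 := by
  set σ := l ^ 4 / (2 * (K + 1) * (n + 1 : ℝ) ^ 4)
  have hσ : 0 < σ := by positivity
  have h4 : (n : ℝ) + 1 ≤ (n + 1 : ℝ) ^ 4 :=
    le_self_pow₀ (by linarith [show (0 : ℝ) ≤ n from Nat.cast_nonneg n]) (by norm_num)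
  have hσn : σ * (n + 1) ≤ 1 := by
    rw [div_mul_eq_mul_div, div_le_one (by positivity)]
    calc l ^ 4 * (n + 1 : ℝ) ≤ 1 * (n + 1 : ℝ) ^ 4 :=
          mul_le_mul (pow_le_one₀ hl.le hl1) h4 (by positivity) zero_le_one
      _ ≤ _ := by gcongr; linarith
  have hσ1 : σ ≤ 1 := (le_mul_of_one_le_right hσ.le (by linarith [show (0 : ℝ) ≤ n from Nat.cast_nonneg n])).trans hσn
  refine ⟨σ, Real.sqrt σ, hσ, hσ1, Real.sqrt_pos.2 hσ, fun θ hθ hθm => ?_⟩
  have h2 : θ ^ 2 ≤ σ := (Real.le_sqrt hθ.le hσ.le).1 hθm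
  refine ⟨hθm.trans (Real.sqrt_le_one.2 hσ1), ?_, ?_⟩
  · exact (mul_le_mul h2 (le_add_of_nonneg_right zero_le_one) (Nat.cast_nonneg n) hσ.le).trans hσn
  · calc K * (n + 1 : ℝ) ^ 4 * (θ ^ 2 + σ) ≤ (K + 1) * (n + 1 : ℝ) ^ 4 * (σ + σ) := by
          gcongr; linarith
      _ = l ^ 4 := by simp only [σ]; field_simp; ring

lemma small_first {n : ℕ} {θ₂ h l L a : ℝ} (hθ₂ : 0 < θ₂) (hh0 : 0 ≤ h) (hh : h ≤ 1) (hl : 0 < l)
    (ha : 0 ≤ a) (hL : L ≤ θ₂ * h ^ 2 * l ^ 2 / (n + 2) ^ 2) :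
    n * a / (θ₂ * l ^ 2) * L ≤ a * h := by
  have hn : (n : ℝ) ≤ (n + 2) ^ 2 := by nlinarith [show (0 : ℝ) ≤ n from Nat.cast_nonneg n]
  calc n * a / (θ₂ * l ^ 2) * L
      ≤ n * a / (θ₂ * l ^ 2) * (θ₂ * h ^ 2 * l ^ 2 / (n + 2) ^ 2) :=
        mul_le_mul_of_nonneg_left hL (by positivity)
    _ = a * h ^ 2 * (n / (n + 2) ^ 2) := by field_simp
    _ ≤ a * h ^ 2 := mul_le_of_le_one_right (by positivity) (div_le_one_of_le₀ hn (by positivity))
    _ ≤ a * h := by gcongr; exact pow_le_of_le_one hh0 hh two_ne_zero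

lemma small_final {n : ℕ} {θ₂ h l L a K : ℝ} (hθ₂ : 0 < θ₂) (hh0 : 0 < h) (hh : h ≤ 1) (hl : 0 < l)
    (hl1 : l ≤ 1) (haK : a ≤ K) (hK : 1 ≤ K) (hL0 : 0 ≤ L)
    (hL : L * (K * (n + 2 : ℝ) ^ 20) ≤ θ₂ * h ^ 6 * l ^ 8) :
    L ≤ θ₂ * h ^ 2 * l ^ 2 / (n + 2) ^ 2 ∧
      n * a / (θ₂ * h ^ 2 * l ^ 2 / (n + 2) ^ 2 * l ^ 2) * L ≤ h ^ 2 := by
  have hn : (1 : ℝ) ≤ n + 2 := by linarith [show (0 : ℝ) ≤ n from Nat.cast_nonneg n]
  constructor
  · rw [le_div_iff₀ (by positivity)]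
    calc L * (n + 2 : ℝ) ^ 2 ≤ L * (K * (n + 2 : ℝ) ^ 20) :=
          mul_le_mul_of_nonneg_left ((pow_le_pow_right₀ hn (by norm_num)).trans
            (le_mul_of_one_le_left (by positivity) hK)) hL0
      _ ≤ θ₂ * h ^ 6 * l ^ 8 := hL
      _ ≤ θ₂ * h ^ 2 * l ^ 2 := mul_le_mul
          (mul_le_mul_of_nonneg_left (pow_le_pow_of_le_one hh0.le hh (by norm_num)) hθ₂.le)
          (pow_le_pow_of_le_one hl.le hl1 (by norm_num)) (by positivity) (by positivity)
  · rw [div_mul_eq_mul_div, div_le_iff₀ (by positivity), ← mul_le_mul_iff_left₀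
      (show (0 : ℝ) < (n + 2) ^ 2 by positivity)]
    calc n * a * L * (n + 2 : ℝ) ^ 2 ≤ (n + 2 : ℝ) * K * L * (n + 2 : ℝ) ^ 2 := by
          refine mul_le_mul_of_nonneg_right (mul_le_mul_of_nonneg_right ?_ hL0) (by positivity)
          calc (n : ℝ) * a ≤ n * K := mul_le_mul_of_nonneg_left haK (Nat.cast_nonneg n)
            _ ≤ (n + 2) * K := by gcongr; linarith
      _ = L * (K * (n + 2 : ℝ) ^ 3) := by ring
      _ ≤ L * (K * (n + 2 : ℝ) ^ 20) := mul_le_mul_of_nonneg_left (mul_le_mul_of_nonneg_left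
          (pow_le_pow_right₀ hn (by norm_num)) (by linarith)) hL0
      _ ≤ θ₂ * h ^ 6 * l ^ 8 := hL
      _ ≤ θ₂ * h ^ 4 * l ^ 4 := mul_le_mul
          (mul_le_mul_of_nonneg_left (pow_le_pow_of_le_one hh0.le hh (by norm_num)) hθ₂.le)
          (pow_le_pow_of_le_one hl.le hl1 (by norm_num)) (by positivity) (by positivity)
      _ = _ := by field_simp

/-- the rate `p x + A g` is absorbed by the exponential -/
lemma final_scalar {x p A g h KD K : ℝ} (hx : 0 ≤ x) (hp : 0 ≤ p) (hA : 0 ≤ A) (hg : 0 ≤ g)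
    (hh : 0 ≤ h) (_hKD : 0 ≤ KD) (hK1 : KD + p ≤ K) (hK2 : A + 1 ≤ K) :
    (x + (p * x + A * g) * h) * Real.exp (KD * h) + g * h ≤ Real.exp (K * h) * (x + K * g * h) := by
  have h1 : (1 + p * h) * Real.exp (KD * h) ≤ Real.exp (K * h) := by
    refine (mul_le_mul_of_nonneg_right (show 1 + p * h ≤ Real.exp (p * h) by
      linarith [Real.add_one_le_exp (p * h)]) (Real.exp_pos _).le).trans ?_
    rw [← Real.exp_add]
    exact Real.exp_le_exp.2 (by linarith [mul_le_mul_of_nonneg_right hK1 hh])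
  have h2 : Real.exp (KD * h) ≤ Real.exp (K * h) :=
    Real.exp_le_exp.2 (mul_le_mul_of_nonneg_right (by linarith) hh)
  have h3 : 1 ≤ Real.exp (K * h) := Real.one_le_exp (mul_nonneg (by linarith) hh)
  have hgh : 0 ≤ g * h := mul_nonneg hg hh
  calc (x + (p * x + A * g) * h) * Real.exp (KD * h) + g * h
      = x * ((1 + p * h) * Real.exp (KD * h)) + A * (g * h) * Real.exp (KD * h) + 1 * (g * h) := by ring
    _ ≤ x * Real.exp (K * h) + A * (g * h) * Real.exp (K * h) + Real.exp (K * h) * (g * h) := by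
        gcongr
    _ = Real.exp (K * h) * (x + (A + 1) * (g * h)) := by ring
    _ ≤ Real.exp (K * h) * (x + K * (g * h)) := by gcongr
    _ = _ := by ring

/-- the bound of a first pass, and the rate it gives to the second -/
lemma first_scalar {x A G b h KD : ℝ} (hx : 0 ≤ x) (hA : 0 ≤ A) (hGA : G ≤ A) (hh : 0 ≤ h) (hh1 : h ≤ 1)
    (hKD : 0 ≤ KD) :
    (x + G * h) * Real.exp (KD * h) + b * h ≤ Real.exp KD * x + (A * Real.exp KD + b) * h :=
  calc (x + G * h) * Real.exp (KD * h) + b * h ≤ (x + A * h) * Real.exp KD + b * h := by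
        refine add_le_add (mul_le_mul ?_ (Real.exp_le_exp.2 (mul_le_of_le_one_right hKD hh1))
          (Real.exp_pos _).le (by positivity)) le_rfl
        gcongr
    _ = _ := by ring

end Block

open Block StepProof in
/-- The three second-order quantities over one block. -/
theorem blockBarriers (hB : Barrier) (hE : StepE) (hD : DStep) (hR : ResStep) (hP : PsiLip) :
    BlockBarriers := by
  intro β c Λ η K₀ hβ0 hβ1 hΛ hη hη1 hK₀
  obtain ⟨KE, hKE, hE⟩ := hE β c Λ η K₀ hβ0 hβ1 hΛ hη hη1 hK₀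
  obtain ⟨KD, hKD, hD⟩ := hD Λ K₀ hΛ hK₀
  obtain ⟨KR, hKR, hR⟩ := hR β c Λ K₀ hβ0 hβ1 hΛ hK₀
  obtain ⟨KP, hKP, hP⟩ := hP β c Λ η hβ0 hβ1 hΛ hη K₀ hK₀
  set b := 2 + 1 / (η / 2)
  set A := 1 + KP * (K₀ + KP) + KE
  set EX := Real.exp KD
  set A1 := A * EX + b
  set A2 := 1 + KP * A1 + KE
  have hb : 0 ≤ b := by positivity
  have hA : 0 ≤ A := by positivity
  have hEX : 0 < EX := Real.exp_pos _
  have hA1 : 0 ≤ A1 := by positivity
  set K := KD + KP * EX + A2 + KR + (3 + 2 * Λ) + b + 1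
  have hK : 0 < K := by positivity
  have hKbig : KD + KP * EX ≤ K ∧ A2 + 1 ≤ K ∧ KP * A1 + KR + 2 ≤ K ∧ KP * EX ≤ K ∧
      3 + 2 * Λ ≤ K ∧ b ≤ K ∧ 1 ≤ K := by
    have : 0 ≤ KP * A1 := by positivity
    have : 0 ≤ KP * EX := by positivity
    simp only [K, A2]
    refine ⟨?_, ?_, ?_, ?_, ?_, ?_, ?_⟩ <;> linarith
  refine ⟨K, hK, fun n J B hJ hn s e θ₂ l εb ε₂ δ φ r S hs hse he hS hθ₂ hθ₂1 hl hl1 hεb hε₂ hδ hφ hr
    hzone hend => ?_⟩
  intro h g τ hτ Y hY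
  have hh0 : 0 < h := sub_pos.2 hse
  have hh1 : h ≤ 1 := by simp only [h]; linarith
  have hn1 : (1 : ℝ) ≤ n := by exact_mod_cast hn
  have hsn : 1 ≤ Real.sqrt n := Real.one_le_sqrt.2 hn1
  have hsn0 : 0 < Real.sqrt n := by linarith
  have hinv : 0 ≤ 1 / Real.sqrt n ∧ 1 / Real.sqrt n ≤ 1 := ⟨by positivity, (div_le_one hsn0).2 hsn⟩
  have hg : 0 ≤ g ∧ h ≤ g ∧ 1 / Real.sqrt n ≤ g := by
    simp only [g]; exact ⟨by linarith, by linarith, by linarith⟩
  -- the step parameters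
  obtain ⟨σ, θm, hσ, hσ1, hθm, hpar⟩ :=
    step_params (show 0 ≤ KE + KR by positivity) hl hl1 n
  set err := KE * (n + 1 : ℝ) ^ 18 / l ^ 12 / σ ^ 3 + KD * (n + 1 : ℝ) ^ 6
  have herr : 0 ≤ err := by positivity
  -- where the leak is small
  have hIcc : ∀ t ∈ Set.Icc s e, t ∈ Set.Icc (0 : ℝ) 1 := fun t ht =>
    ⟨hs.trans ht.1, ht.2.trans he⟩
  have zone : ∀ t ∈ Set.Icc s e, ∀ Z, leak J B e t S Z ≤ θ₂ →
      Nice (η / 2) β l t J Z ∧
      ‖fMat J t Z - hMat β t J (mean J t Z)‖ ≤ K₀ + KP ∧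
      ‖psiMain β t J (J + c • 1) (mean J t Z) (hMat β t J (mean J t Z)) (fMat J t Z)‖ ≤
        εb + KP * ‖fMat J t Z - hMat β t J (mean J t Z)‖ ∧
      fnrm (psiMain β t J (J + c • 1) (mean J t Z) (hMat β t J (mean J t Z)) (fMat J t Z)) ≤
        ε₂ * Real.sqrt n + KP * fnrm (fMat J t Z - hMat β t J (mean J t Z)) ∧
      nrm (resDrift β c t (J + c • 1) (mean J t Z) (fMat J t Z)) ≤
        ε₂ * Real.sqrt n + KP * fnrm (fMat J t Z - hMat β t J (mean J t Z)) := by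
    intro t ht Z hZ
    obtain ⟨hF, -, hlD, hco, hψ, hψF, hres⟩ := hzone t ht Z hZ
    obtain ⟨-, hinv', hH, hLip, -⟩ := hP n J B hJ t t (hIcc t ht) (hIcc t ht) (mean J t Z)
      (abs_mean_lt hJ t Z) hco
    obtain ⟨l1, l2, l3⟩ := hLip _ hF
    refine ⟨nice_of_coercive hJ hη hlD hco hinv', (norm_sub_le _ _).trans (add_le_add hF hH),
      (norm_le_norm_add_norm_sub' _ _).trans (add_le_add hψ l1), ?_, ?_⟩
    · refine le_trans ?_ (add_le_add hψF l2)
      conv_lhs => rw [← add_sub_cancel (psiMain β t J (J + c • 1) (mean J t Z)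
        (hMat β t J (mean J t Z)) (hMat β t J (mean J t Z)))
        (psiMain β t J (J + c • 1) (mean J t Z) (hMat β t J (mean J t Z)) (fMat J t Z))]
      exact PsiLip.sem_fnrm.add _ _
    · refine le_trans ?_ (add_le_add hres l3)
      refine le_trans (le_of_eq (congrArg nrm (funext fun i => ?_))) (nrm_add_le _ _)
      simp [Pi.sub_apply]
  have estep : ∀ t θ : ℝ, s ≤ t → 0 < θ → θ ≤ θm → t + θ ^ 2 ≤ e → ∀ Z, leak J B e t S Z ≤ θ₂ →
      ∃ X : Matrix (Fin n) (Fin n) ℝ, ‖X‖ ≤ KE / Real.sqrt n ∧ fnrm X ≤ KE ∧ ∀ i j,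
        |eMat (η / 2) β t J Z i j - kern J B t θ Z (fun W => eMat (η / 2) β (t + θ ^ 2) J W i j) -
          θ ^ 2 * (dMat (mean J t Z) * (psiMain β t J (J + c • 1) (mean J t Z)
            (hMat β t J (mean J t Z)) (fMat J t Z) + X) * dMat (mean J t Z)) i j| ≤ err * θ ^ 3 := by
    intro t θ hts hθ hθ' hte Z hZ
    have ht : t ∈ Set.Icc s e := ⟨hts, by linarith [sq_nonneg θ]⟩
    obtain ⟨hF, -, hlD, hco, -, -, -⟩ := hzone t ht Z hZ
    obtain ⟨h1, h2, h3⟩ := hpar θ hθ hθ'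
    obtain ⟨-, X, hX, hEX'⟩ := hE n J B hJ t θ l σ Z (hs.trans hts) hθ h1 h2 (hte.trans he) hl hl1 hσ
      hσ1 (le_trans (by gcongr; linarith) h3) hlD hF hco
    refine ⟨X, hX, (fnrm_le_norm X).trans ((mul_le_mul_of_nonneg_left hX hsn0.le).trans_eq
      (mul_div_cancel₀ _ hsn0.ne')), fun i j => (hEX' i j).trans ?_⟩
    rw [mul_div_assoc', mul_comm _ (θ ^ 3), mul_div_assoc]
    rw [mul_comm err]
    gcongr
    exact le_add_of_nonneg_right (by positivity)
  have dstep : ∀ t θ : ℝ, s ≤ t → 0 < θ → θ ≤ θm → t + θ ^ 2 ≤ e → ∀ Z, leak J B e t S Z ≤ θ₂ →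
      (∀ j, kern J B t θ Z (fun W => (1 - mean J (t + θ ^ 2) W j ^ 2) ^ 2) ≤
        (1 + KD * θ ^ 2) * (1 - mean J t Z j ^ 2) ^ 2 + err * θ ^ 3) ∧
      ∀ j k, kern J B t θ Z (fun W =>
          ((1 - mean J (t + θ ^ 2) W j ^ 2) * (1 - mean J (t + θ ^ 2) W k ^ 2)) ^ 2) ≤
        (1 + KD * θ ^ 2) * ((1 - mean J t Z j ^ 2) * (1 - mean J t Z k ^ 2)) ^ 2 + err * θ ^ 3 := by
    intro t θ hts hθ hθ' hte Z hZ
    obtain ⟨hF, -⟩ := hzone t ⟨hts, by linarith [sq_nonneg θ]⟩ Z hZ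
    obtain ⟨h1, h2, -⟩ := hpar θ hθ hθ'
    obtain ⟨hD1, hD2⟩ := hD n c J B hJ t θ Z hθ.le h2 h1 hF
    have herr' : KD * (n + 1 : ℝ) ^ 6 * θ ^ 3 ≤ err * θ ^ 3 :=
      mul_le_mul_of_nonneg_right (le_add_of_nonneg_left (by positivity)) (by positivity)
    exact ⟨fun j => (hD1 j).trans (add_le_add le_rfl herr'),
      fun j k => (hD2 j k).trans (add_le_add le_rfl herr')⟩
  -- the smaller leak level
  set θ₃ := θ₂ * h ^ 2 * l ^ 2 / (n + 2 : ℝ) ^ 2
  have hθ₃ : 0 < θ₃ := by positivity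
  have hθ₃₂ : θ₃ ≤ θ₂ := by
    rw [div_le_iff₀ (by positivity)]
    calc θ₂ * h ^ 2 * l ^ 2 ≤ θ₂ * 1 * 1 := by
          gcongr <;> exact pow_le_one₀ (by positivity) (by assumption)
      _ = θ₂ * 1 := by ring
      _ ≤ θ₂ * (n + 2 : ℝ) ^ 2 := mul_le_mul_of_nonneg_left (one_le_pow₀ (by linarith)) hθ₂.le
  have hL0 : 0 ≤ leak J B e τ S Y := (Chan.leak_bounds J B e τ hS Y).1
  obtain ⟨hY₃, hYb⟩ := small_final (a := b) hθ₂ hh0 hh1 hl hl1 hKbig.2.2.2.2.2.1 hKbig.2.2.2.2.2.2 hL0 hY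
  have hhh : h ^ 2 ≤ g * h := by rw [sq]; exact mul_le_mul_of_nonneg_right hg.2.1 hh0.le
  have hnice : ∀ θ', θ' ≤ θ₂ → ∀ t ∈ Set.Icc s e, ∀ Z, leak J B e t S Z ≤ θ' →
      Nice (η / 2) β l t J Z := fun θ' hle t ht Z hZ => (zone t ht Z (hZ.trans hle)).1
  -- operator norm, first pass
  have op1 : ∀ t ∈ Set.Icc s e, ∀ Z, leak J B e t S Z ≤ θ₃ →
      ‖fMat J t Z - hMat β t J (mean J t Z)‖ ≤ EX * δ + A1 * h := fun t ht Z hZ => by
    refine (op_pass hB hJ (K := KD) (δ := δ) (G := εb + KP * (K₀ + KP) + KE) hS hse.le hθ₂ hθ₂1 hl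
      (half_pos hη) hKD.le hδ.1 (by linarith [hεb.1, mul_nonneg hKP.le (by positivity : 0 ≤ K₀ + KP), hKE.le])
      herr hθm (hnice θ₂ le_rfl) (fun u θ hu hθ hθ' hue W hW => ?_) (fun W hW => (hend W hW).1)
      t ht Z (hZ.trans hθ₃₂)).trans ?_
    · obtain ⟨X, hX, -, hXe⟩ := estep u θ hu hθ hθ' hue W hW
      obtain ⟨-, hFH, hψ, -, -⟩ := zone u ⟨hu, by linarith [sq_nonneg θ]⟩ W hW
      refine ⟨⟨_, (norm_add_le _ _).trans (add_le_add (hψ.trans (add_le_add le_rfl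
        (mul_le_mul_of_nonneg_left hFH hKP.le))) (hX.trans (div_le_self hKE.le hsn))), hXe⟩,
        (dstep u θ hu hθ hθ' hue W hW).1⟩
    · refine (add_le_add le_rfl (small_first hθ₂ hh0.le hh1 hl hb hZ)).trans ?_
      exact first_scalar hδ.1 hA (by simp only [A]; linarith [hεb.2]) hh0.le hh1 hKD.le
  -- Frobenius norm, first pass
  have fr1 : ∀ t ∈ Set.Icc s e, ∀ Z, leak J B e t S Z ≤ θ₃ →
      fnrm (fMat J t Z - hMat β t J (mean J t Z)) ≤ (EX * φ + A1 * h) * Real.sqrt n := fun t ht Z hZ => by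
    have hsum : 0 ≤ ε₂ + KP * (K₀ + KP) + KE := by
      linarith [hε₂.1, mul_nonneg hKP.le (by positivity : 0 ≤ K₀ + KP), hKE.le]
    refine (frob_pass hB hJ (K := KD) (φ := φ * Real.sqrt n)
      (G := (ε₂ + KP * (K₀ + KP) + KE) * Real.sqrt n) hS hse.le hθ₂ hθ₂1 hl
      (half_pos hη) hKD.le (mul_nonneg hφ.1 hsn0.le) (mul_nonneg hsum hsn0.le) herr hθm
      (hnice θ₂ le_rfl) (fun u θ hu hθ hθ' hue W hW => ?_) (fun W hW => (hend W hW).2.1)
      t ht Z (hZ.trans hθ₃₂)).trans ?_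
    · obtain ⟨X, -, hX, hXe⟩ := estep u θ hu hθ hθ' hue W hW
      obtain ⟨-, hFH, -, hψ, -⟩ := zone u ⟨hu, by linarith [sq_nonneg θ]⟩ W hW
      refine ⟨⟨_, ?_, hXe⟩, (dstep u θ hu hθ hθ' hue W hW).2⟩
      refine (PsiLip.sem_fnrm.add _ _).trans ?_
      have h1 := mul_le_mul_of_nonneg_left ((fnrm_le_norm _).trans
        (mul_le_mul_of_nonneg_left hFH hsn0.le)) hKP.le
      linarith [mul_le_mul_of_nonneg_left hsn hKE.le]
    · refine (add_le_add le_rfl ((small_first hθ₂ hh0.le hh1 hl hb hZ).trans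
        (le_mul_of_one_le_right (by positivity) hsn))).trans ?_
      refine le_trans (le_of_eq ?_) (mul_le_mul_of_nonneg_right (first_scalar (b := b)
        (G := ε₂ + KP * (K₀ + KP) + KE) hφ.1 hA (by simp only [A]; linarith [hε₂.2]) hh0.le hh1 hKD.le)
        hsn0.le)
      ring
  refine ⟨?_, ?_, ?_⟩
  · -- operator norm, second pass
    set G := KP * EX * δ + A2 * (εb + g)
    have hG : 0 ≤ G := by
      have := hεb.1; have := hg.1; have := hδ.1
      positivity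
    refine (op_pass hB hJ (K := KD) (δ := δ) (G := G) hS hse.le hθ₃ (hθ₃₂.trans hθ₂1) hl (half_pos hη)
      hKD.le hδ.1 hG herr hθm (hnice θ₃ hθ₃₂) (fun u θ hu hθ hθ' hue W hW => ?_)
      (fun W hW => (hend W hW).1) τ hτ Y hY₃).trans ?_
    · have hu' : u ∈ Set.Icc s e := ⟨hu, by linarith [sq_nonneg θ]⟩
      obtain ⟨X, hX, -, hXe⟩ := estep u θ hu hθ hθ' hue W (hW.trans hθ₃₂)
      obtain ⟨-, -, hψ, -, -⟩ := zone u hu' W (hW.trans hθ₃₂)
      refine ⟨⟨_, ?_, hXe⟩, (dstep u θ hu hθ hθ' hue W (hW.trans hθ₃₂)).1⟩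
      refine (norm_add_le _ _).trans ((add_le_add (hψ.trans (add_le_add le_rfl
        (mul_le_mul_of_nonneg_left (op1 u hu' W hW) hKP.le))) hX).trans ?_)
      simp only [G, A2]
      have := mul_le_mul_of_nonneg_left hg.2.1 (mul_nonneg hKP.le hA1)
      have := mul_le_mul_of_nonneg_left hg.2.2 hKE.le
      have : 0 ≤ KP * A1 * εb := mul_nonneg (mul_nonneg hKP.le hA1) hεb.1
      have : 0 ≤ KE * εb := mul_nonneg hKE.le hεb.1
      linarith [hg.1, show KE / Real.sqrt n = KE * (1 / Real.sqrt n) by ring]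
    · refine le_trans (add_le_add le_rfl (hYb.trans (hhh.trans
        (mul_le_mul_of_nonneg_right (le_add_of_nonneg_left hεb.1) hh0.le)))) ?_
      exact final_scalar hδ.1 (by positivity) (by positivity) (add_nonneg hεb.1 hg.1) hh0.le hKD.le
        hKbig.1 hKbig.2.1
  · -- Frobenius norm, second pass
    set G := KP * EX * φ + A2 * (ε₂ + g)
    have hG : 0 ≤ G := by
      have := hε₂.1; have := hg.1; have := hφ.1
      positivity
    refine (frob_pass hB hJ (K := KD) (φ := φ * Real.sqrt n) (G := G * Real.sqrt n) hS hse.le hθ₃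
      (hθ₃₂.trans hθ₂1) hl (half_pos hη) hKD.le (mul_nonneg hφ.1 hsn0.le) (mul_nonneg hG hsn0.le)
      herr hθm (hnice θ₃ hθ₃₂) (fun u θ hu hθ hθ' hue W hW => ?_)
      (fun W hW => (hend W hW).2.1) τ hτ Y hY₃).trans ?_
    · have hu' : u ∈ Set.Icc s e := ⟨hu, by linarith [sq_nonneg θ]⟩
      obtain ⟨X, -, hX, hXe⟩ := estep u θ hu hθ hθ' hue W (hW.trans hθ₃₂)
      obtain ⟨-, -, -, hψ, -⟩ := zone u hu' W (hW.trans hθ₃₂)
      refine ⟨⟨_, ?_, hXe⟩, (dstep u θ hu hθ hθ' hue W (hW.trans hθ₃₂)).2⟩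
      refine (PsiLip.sem_fnrm.add _ _).trans ((add_le_add (hψ.trans (add_le_add le_rfl
        (mul_le_mul_of_nonneg_left (fr1 u hu' W hW) hKP.le))) hX).trans ?_)
      simp only [G, A2]
      have e1 : KE ≤ KE * g * Real.sqrt n :=
        calc KE = KE * (1 / Real.sqrt n) * Real.sqrt n := by field_simp
          _ ≤ KE * g * Real.sqrt n :=
            mul_le_mul_of_nonneg_right (mul_le_mul_of_nonneg_left hg.2.2 hKE.le) hsn0.le
      have := mul_le_mul_of_nonneg_right (mul_le_mul_of_nonneg_left hg.2.1 (mul_nonneg hKP.le hA1)) hsn0.le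
      have : 0 ≤ KP * A1 * ε₂ * Real.sqrt n := by have := hε₂.1; positivity
      have : 0 ≤ KE * ε₂ * Real.sqrt n := by have := hε₂.1; positivity
      have : 0 ≤ g * Real.sqrt n := by have := hg.1; positivity
      linarith
    · refine le_trans (add_le_add le_rfl ((hYb.trans (hhh.trans
        (mul_le_mul_of_nonneg_right (le_add_of_nonneg_left hε₂.1) hh0.le))).trans
          (le_mul_of_one_le_right (mul_nonneg (add_nonneg hε₂.1 hg.1) hh0.le) hsn))) ?_
      refine le_trans (le_of_eq ?_) (mul_le_mul_of_nonneg_right (final_scalar hφ.1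
        (show 0 ≤ KP * EX by positivity) (show 0 ≤ A2 by positivity) (add_nonneg hε₂.1 hg.1) hh0.le
        hKD.le hKbig.1 hKbig.2.1) hsn0.le)
      simp only [G]; ring
  · -- residual
    set v := resM β τ J Y (mean J τ Y)
    set Q := ε₂ + KP * (EX * φ + A1 * h) + KR * (1 / Real.sqrt n)
    have hQ : 0 ≤ Q := by
      have := hε₂.1; have := hφ.1
      positivity
    set errR := nrm v * (KR * (n + 1 : ℝ) ^ 16 / l ^ 12 / σ ^ 3)
    have herrR : 0 ≤ errR := mul_nonneg (nrm_nonneg v) (by positivity)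
    have hresClip : ∀ t ∈ Set.Icc s e, ∀ Z, leak J B e t S Z ≤ θ₂ →
        resClip β t J Z = resM β t J Z (mean J t Z) := fun t ht Z hZ => by
      funext i
      simp only [resClip]
      exact if_pos fun j => by linarith [(hzone t ht Z hZ).2.1 j]
    have hdot : ∀ u : Fin n → ℝ, ∑ i, v i * u i ≤ nrm v * nrm u := fun u =>
      (le_abs_self _).trans (PartB.abs_dot_le_nrm v u)
    have hrb : ∀ t ∈ Set.Icc s e, ∀ Z,
        |∑ i, v i * resClip β t J Z i| ≤ nrm v * (n * ((3 + 2 * Λ) * Real.sqrt n)) := fun t ht Z => by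
      refine (PartB.abs_dot_le_nrm v _).trans (mul_le_mul_of_nonneg_left ?_ (nrm_nonneg v))
      have hb := fun i => abs_resClip_le hJ hn (pow_le_one₀ hβ0 hβ1.le) (hIcc t ht).1 (hIcc t ht).2 Z i
      calc nrm (resClip β t J Z) ≤ Real.sqrt (∑ _i : Fin n, ((3 + 2 * Λ) * n) ^ 2) :=
            Real.sqrt_le_sqrt (Finset.sum_le_sum fun i _ =>
              sq_le_sq' (abs_le.1 (hb i)).1 (abs_le.1 (hb i)).2)
        _ = n * ((3 + 2 * Λ) * Real.sqrt n) := by
            simp only [Finset.sum_const, Finset.card_univ, Fintype.card_fin, nsmul_eq_mul]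
            rw [Real.sqrt_mul (Nat.cast_nonneg n), Real.sqrt_sq (by positivity)]
            ring
    have hcon := hB n Λ c J B hJ s e θ₃ (nrm v * (r * Real.sqrt n)) (nrm v * (Q * Real.sqrt n)) 0
      (nrm v * (n * ((3 + 2 * Λ) * Real.sqrt n))) 1 errR θm S
      (fun t Z => ∑ i, v i * resClip β t J Z i) (fun _ _ => 1) hS hse.le hθ₃ (hθ₃₂.trans hθ₂1)
      (mul_nonneg (nrm_nonneg v) (mul_nonneg hr hsn0.le))
      (mul_nonneg (nrm_nonneg v) (mul_nonneg hQ hsn0.le)) le_rfl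
      (mul_nonneg (nrm_nonneg v) (by positivity)) hθm
      (fun t => ⟨Finset.measurable_sum _ fun i _ => (measurable_resClip β t i).const_mul _,
        measurable_const⟩)
      (fun t ht Z => ⟨hrb t ht Z, zero_le_one, le_rfl⟩)
      (fun Z hZ => by
        have hz : leak J B e e S Z ≤ θ₂ := by rw [Chan.leak_self]; simp [hZ, hθ₂.le]
        rw [hresClip e ⟨hse.le, le_rfl⟩ Z hz, mul_one]
        exact (hdot _).trans (mul_le_mul_of_nonneg_left (hend Z hZ).2.2 (nrm_nonneg v)))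
      (fun t θ hts hθ hθ' hte Z hz => by
        have ht : t ∈ Set.Icc s e := ⟨hts, by linarith [sq_nonneg θ]⟩
        obtain ⟨hF, hy, hlD, -⟩ := hzone t ht Z (hz.trans hθ₃₂)
        obtain ⟨h1, h2, h3⟩ := hpar θ hθ hθ'
        have hres := hR n J B hJ t θ l σ Z (hs.trans hts) hθ h2 (hte.trans he) hl hl1 hσ hσ1
          (le_trans (by gcongr; linarith) h3) hlD hy hF v
        have hd : nrm (resDrift β c t (J + c • 1) (mean J t Z) (fMat J t Z)) + KR ≤ Q * Real.sqrt n := by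
          have h4 := (zone t ht Z (hz.trans hθ₃₂)).2.2.2.2
          have h5 := mul_le_mul_of_nonneg_left (fr1 t ht Z hz) hKP.le
          have h6 : KR * (1 / Real.sqrt n) * Real.sqrt n = KR := by field_simp
          simp only [Q]; linarith
        refine ⟨?_, ?_⟩
        · have hbd : ∀ i, Bdd fun W => resClip β (t + θ ^ 2) J W i := fun i =>
            ⟨measurable_resClip β _ i, _, fun W => abs_resClip_le hJ hn (pow_le_one₀ hβ0 hβ1.le)
              (by linarith [hs, sq_nonneg θ]) (hte.trans he) W i⟩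
          rw [k_sum J B _ t θ Z fun i => (hbd i).const_mul (v i)]
          simp only [kern_smul, mul_sub, Finset.sum_sub_distrib, mul_one] at hres ⊢
          rw [hresClip t ht Z (hz.trans hθ₃₂)]
          have h7 : -(nrm v * nrm (resDrift β c t (J + c • 1) (mean J t Z) (fMat J t Z))) ≤
              ∑ i, v i * resDrift β c t (J + c • 1) (mean J t Z) (fMat J t Z) i :=
            (neg_le_neg (PartB.abs_dot_le_nrm v _)).trans (neg_abs_le _)
          have h8 : ∑ i, v i * (θ ^ 2 * resDrift β c t (J + c • 1) (mean J t Z) (fMat J t Z) i) =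
              θ ^ 2 * ∑ i, v i * resDrift β c t (J + c • 1) (mean J t Z) (fMat J t Z) i := by
            rw [Finset.mul_sum]; exact Finset.sum_congr rfl fun i _ => mul_left_comm _ _ _
          have h9 := mul_le_mul_of_nonneg_left h7 (sq_nonneg θ)
          have h10 := mul_le_mul_of_nonneg_left (mul_le_mul_of_nonneg_left hd (nrm_nonneg v)) (sq_nonneg θ)
          have h11 := (abs_le.1 hres).1
          have h12 : nrm v * (KR * (n + 1 : ℝ) ^ 16 / l ^ 12 * (θ ^ 3 / σ ^ 3)) = errR * θ ^ 3 := by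
            simp only [errR]; ring
          linarith
        · rw [kern_const]
          simp only [zero_mul, add_zero, mul_one]
          exact le_add_of_nonneg_right (by positivity))
      τ hτ Y
    rw [zero_mul, Real.exp_zero, mul_one, mul_one,
      hresClip τ hτ Y (hY₃.trans hθ₃₂), show ∑ i, v i * v i = nrm v * nrm v by
        rw [nrm, Real.mul_self_sqrt (Finset.sum_nonneg fun i _ => sq_nonneg _)]
        exact Finset.sum_congr rfl fun i _ => (sq _).symm] at hcon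
    have hleak : n * (3 + 2 * Λ) / θ₃ * leak J B e τ S Y ≤ h ^ 2 := by
      refine le_trans ?_ (small_final (a := 3 + 2 * Λ) hθ₂ hh0 hh1 hl hl1 hKbig.2.2.2.2.1
        hKbig.2.2.2.2.2.2 hL0 hY).2
      exact mul_le_mul_of_nonneg_right (div_le_div_of_nonneg_left (by positivity) (by positivity)
        (mul_le_of_le_one_right hθ₃.le (pow_le_one₀ hl.le hl1))) hL0
    have hbd : (r + Q * (e - τ) + h ^ 2) ≤ r + K * (ε₂ + φ + g) * h := by
      have h1 : Q * (e - τ) ≤ Q * h := mul_le_mul_of_nonneg_left (by simp only [h]; linarith [hτ.1]) hQ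
      have hQK : Q + h ≤ K * (ε₂ + φ + g) := by
        simp only [Q]
        have := mul_le_mul_of_nonneg_left hg.2.1 (mul_nonneg hKP.le hA1)
        have := mul_le_mul_of_nonneg_left hg.2.2 hKR.le
        have := mul_le_mul_of_nonneg_right hKbig.2.2.1 hg.1
        have := mul_le_mul_of_nonneg_right hKbig.2.2.2.1 hφ.1
        have := mul_le_mul_of_nonneg_right hKbig.2.2.2.2.2.2 hε₂.1
        linarith [hg.2.1, hg.1, hφ.1]
      have h2 := mul_le_mul_of_nonneg_right hQK hh0.le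
      linarith
    rcases (nrm_nonneg v).eq_or_lt with h0 | hv
    · have := hε₂.1; have := hφ.1; have := hg.1
      rw [← h0]; positivity
    refine le_of_mul_le_mul_left ?_ hv
    calc nrm v * nrm v ≤ _ := hcon
      _ = nrm v * ((r + Q * (e - τ) + n * (3 + 2 * Λ) / θ₃ * leak J B e τ S Y) * Real.sqrt n) := by ring
      _ ≤ _ := mul_le_mul_of_nonneg_left (mul_le_mul_of_nonneg_right
          (le_trans (add_le_add le_rfl hleak) hbd) hsn0.le) hv.le

end Vale.Agent.P150.PartB
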