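import Vale.Agent.P150.Fast.PartB.Defs

/-!
# P150, Part B: frozen interfaces of the deterministic half

`KernelFacts` (Kernel.lean), `StepVar` (StepVar.lean), `MomentFacts` (Moments.lean), `FBound` (FBound.lean), `PsiLip` (PsiLip.lean).
-/

open MeasureTheory Matrix
open scoped Matrix.Norms.L2Operator

namespace Vale.Agent.P150.PartB

/-- the standing hypotheses on the couplings -/
structure Ctl {n : ℕ} (Λ c : ℝ) (J B : Matrix (Fin n) (Fin n) ℝ) : Prop where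
  symm : ∀ i j, J i j = J j i
  diag : ∀ i, J i i = 0
  op : ‖J‖ + |c| ≤ Λ
  factor : B * Bᵀ = J + c • 1

/-- tower rule, shifts, tails and monotonicity of the Dirichlet form for the kernel -/
def KernelFacts : Prop :=
  ∀ (n : ℕ) (Λ c : ℝ) (J B : Matrix (Fin n) (Fin n) ℝ), Ctl Λ c J B → ∀ (s θ : ℝ) (y : Fin n → ℝ), 0 ≤ θ →
    (∀ (φ M : ℝ) (F : (Fin n → ℝ) → ℝ), 0 ≤ φ → Measurable F → (∀ Y, |F Y| ≤ M) →
      kern J B s θ y (fun Y => kern J B (s + θ ^ 2) φ Y F) = kern J B s (Real.sqrt (θ ^ 2 + φ ^ 2)) y F) ∧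
    (∀ (v : Fin n → ℝ) (M : ℝ) (F : (Fin n → ℝ) → ℝ), Measurable F → (∀ Y, 0 ≤ F Y ∧ F Y ≤ M) →
      kern J B s θ (y + v) F ≤
        Real.exp (2 * nrm v * Real.sqrt n) * kern J B s θ y fun Y => F (Y + v)) ∧
    (∀ t : ℝ, 0 ≤ t → kern J B s θ y
        ({Y | θ ^ 2 * Λ * Real.sqrt n + θ * Real.sqrt Λ * t < nrm fun i => Y i - y i}.indicator 1) ≤
      2 ^ n * Real.exp (-(t ^ 2 / 4))) ∧
    ∀ f : Cfg n → ℝ, kern J B s θ y (fun Y => Ising.dir ((1 - (s + θ ^ 2)) • J) Y f) ≤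
      Ising.dir ((1 - s) • J) y f

/-- One short step: the variance lost is at most the first-order term plus a second-order error. -/
def StepVar : Prop :=
  ∀ Λ : ℝ, 0 < Λ → ∃ K : ℝ, 0 < K ∧ ∀ (n : ℕ) (c : ℝ) (J B : Matrix (Fin n) (Fin n) ℝ),
    Ctl Λ c J B → ∀ (s θ : ℝ) (y : Fin n → ℝ), 0 ≤ θ → θ ^ 2 * n ≤ 1 → ∀ f : Cfg n → ℝ,
      varW ((1 - s) • J) y f ≤
        kern J B s θ y (fun Y => varW ((1 - (s + θ ^ 2)) • J) Y f) +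
          θ ^ 2 * (1 + K * (θ ^ 2 * n)) *
            (covVec ((1 - s) • J) y f ⬝ᵥ (J + c • 1) *ᵥ covVec ((1 - s) • J) y f) +
          K * (θ ^ 2 * n) ^ 2 * varW ((1 - s) • J) y f

/-- Moments of the posterior mean over one short step: it is a martingale, its second moments are
`θ² C A C` and its third moment is of order `θ³`. -/
def MomentFacts : Prop :=
  ∀ Λ : ℝ, 0 < Λ → ∃ K : ℝ, 0 < K ∧ ∀ (n : ℕ) (c : ℝ) (J B : Matrix (Fin n) (Fin n) ℝ),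
    Ctl Λ c J B → ∀ (s θ : ℝ) (y : Fin n → ℝ), 0 ≤ θ → θ ^ 2 * n ≤ 1 →
      let d : (Fin n → ℝ) → Fin n → ℝ := fun Y i => mean J (s + θ ^ 2) Y i - mean J s y i
      (∀ f : Cfg n → ℝ, kern J B s θ y (fun Y => Ising.avg ((1 - (s + θ ^ 2)) • J) Y f) =
        Ising.avg ((1 - s) • J) y f) ∧
      (∀ i, kern J B s θ y (fun Y => d Y i) = 0) ∧
      (∀ i j, |kern J B s θ y (fun Y => d Y i * d Y j) -
        θ ^ 2 * (cov J s y * (J + c • 1) * cov J s y) i j| ≤ K * (n + 1 : ℝ) ^ 4 * θ ^ 3) ∧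
      kern J B s θ y (fun Y => nrm (d Y) ^ 3) ≤ K * (n + 1 : ℝ) ^ 4 * θ ^ 3

/-- A weak Poincaré inequality at the fields near `y` bounds the normalised covariance. -/
def FBound : Prop :=
  ∀ Λ P : ℝ, 0 < Λ → 0 < P → ∃ K : ℝ, 0 < K ∧ ∀ (n : ℕ) (c : ℝ) (J B : Matrix (Fin n) (Fin n) ℝ),
    Ctl Λ c J B → ∀ (s : ℝ), 0 ≤ s → s ≤ 1 → ∀ (y : Fin n → ℝ) (Y e : ℝ),
      (∀ i, |y i| ≤ Y) → 0 ≤ e → e * Real.exp (K * (Y + Real.sqrt n + 1)) ≤ 1 →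
      (∀ w : Fin n → ℝ, nrm w ≤ K → WP ((1 - s) • J) (y + w) P e) →
      ‖fMat J s y‖ ≤ K

/-- `H` is bounded where the Jacobian is definite; the drifts are Lipschitz in `F` and in time. -/
def PsiLip : Prop :=
  ∀ β c Λ η : ℝ, 0 ≤ β → β < 1 → 0 < Λ → 0 < η → ∀ K₀ : ℝ, 0 < K₀ → ∃ K : ℝ, 0 < K ∧
  ∀ (n : ℕ) (J B : Matrix (Fin n) (Fin n) ℝ), Ctl Λ c J B →
  ∀ s t : ℝ, s ∈ Set.Icc (0 : ℝ) 1 → t ∈ Set.Icc (0 : ℝ) 1 → ∀ m : Fin n → ℝ, (∀ i, |m i| < 1) →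
    (∀ v : Fin n → ℝ, η * ∑ i, v i ^ 2 ≤ v ⬝ᵥ kHat β t J m *ᵥ v) →
    (∀ v : Fin n → ℝ, (η - K * |s - t|) * ∑ i, v i ^ 2 ≤ v ⬝ᵥ kHat β s J m *ᵥ v) ∧
    kHat β t J m * (dMat m + dMat m * hMat β t J m * dMat m) = 1 ∧
    ‖hMat β t J m‖ ≤ K ∧
    (∀ F, ‖F‖ ≤ K₀ →
      ‖psiMain β t J (J + c • 1) m (hMat β t J m) F -
          psiMain β t J (J + c • 1) m (hMat β t J m) (hMat β t J m)‖ ≤ K * ‖F - hMat β t J m‖ ∧
      fnrm (psiMain β t J (J + c • 1) m (hMat β t J m) F -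
          psiMain β t J (J + c • 1) m (hMat β t J m) (hMat β t J m)) ≤ K * fnrm (F - hMat β t J m) ∧
      nrm (resDrift β c t (J + c • 1) m F - resDrift β c t (J + c • 1) m (hMat β t J m)) ≤
          K * fnrm (F - hMat β t J m)) ∧
    (K * |s - t| ≤ η / 2 →
      ‖psiMain β s J (J + c • 1) m (hMat β s J m) (hMat β s J m) -
          psiMain β t J (J + c • 1) m (hMat β t J m) (hMat β t J m)‖ ≤ K * |s - t| ∧
      nrm (resDrift β c s (J + c • 1) m (hMat β s J m) -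
          resDrift β c t (J + c • 1) m (hMat β t J m)) ≤ K * |s - t| * Real.sqrt n)

end Vale.Agent.P150.PartB
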