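import Vale.Agent.P150.Fast.PartB.Residual
import Vale.Agent.P150.Fast.PartB.Spec

/-!
# P150, Part B: frozen interfaces of the block induction

`DriftAlgebra` (Drift.lean), `ExpandR` and `ExpandRes` (Expand.lean), `VarBlock` and `ProductBase`
(VarBlock.lean).
-/

open MeasureTheory Matrix
open scoped Matrix.Norms.L2Operator

namespace Vale.Agent.P150.PartB.Drift

variable {n : ℕ}

/-- the first derivative of `1/(1-m²)` -/
noncomputable def cvec (m : Fin n → ℝ) (j : Fin n) : ℝ := 2 * m j / (1 - m j ^ 2) ^ 2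

/-- first variation of `kHat` in `m` -/
noncomputable def lMat (β t : ℝ) (m d : Fin n → ℝ) : Matrix (Fin n) (Fin n) ℝ :=
  diagonal (fun j => cvec m j * d j)
    - (2 * aCoef β t / n) • ((m ⬝ᵥ d) • 1 + vecMulVec m d + vecMulVec d m)

/-- second variation of `kHat` in `m`, as a linear function of the second moment `P` -/
noncomputable def qLin (β t : ℝ) (m : Fin n → ℝ) (P : Matrix (Fin n) (Fin n) ℝ) :
    Matrix (Fin n) (Fin n) ℝ :=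
  diagonal (fun j => (1 / (1 - m j ^ 2) ^ 2 + 4 * m j ^ 2 / (1 - m j ^ 2) ^ 3) * P j j)
    - (aCoef β t * trace P / n) • 1 - (2 * aCoef β t / n) • P

/-- time derivative of `kHat` -/
noncomputable def tMat (β t : ℝ) (J : Matrix (Fin n) (Fin n) ℝ) (m : Fin n → ℝ) :
    Matrix (Fin n) (Fin n) ℝ :=
  (aCoef' β t * (1 - qv m)) • 1 + J - (2 * aCoef' β t / n) • vecMulVec m m

/-- the product of two diagonal parts of the first variation -/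
noncomputable def diagDiag (m : Fin n → ℝ) (R P : Matrix (Fin n) (Fin n) ℝ) :
    Matrix (Fin n) (Fin n) ℝ :=
  diagonal (cvec m) * (P ⊙ R) * diagonal (cvec m)

/-- the product of the diagonal and of the rank one part -/
noncomputable def diagRest (m : Fin n → ℝ) (R P : Matrix (Fin n) (Fin n) ℝ) :
    Matrix (Fin n) (Fin n) ℝ :=
  diagonal (fun j => cvec m j * (P *ᵥ m) j) * R
    + vecMulVec (fun j => cvec m j * (P * R) j j) m + diagonal (fun j => cvec m j * (R *ᵥ m) j) * P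

/-- the product of two rank one parts -/
noncomputable def restRest (m : Fin n → ℝ) (R P : Matrix (Fin n) (Fin n) ℝ) :
    Matrix (Fin n) (Fin n) ℝ :=
  (m ⬝ᵥ P *ᵥ m) • R + vecMulVec (R *ᵥ m) (P *ᵥ m) + vecMulVec (P *ᵥ m) (R *ᵥ m)
    + vecMulVec (R *ᵥ P *ᵥ m) m + vecMulVec m (R *ᵥ P *ᵥ m) + vecMulVec (P *ᵥ R *ᵥ m) m
    + vecMulVec m (P *ᵥ R *ᵥ m) + (m ⬝ᵥ R *ᵥ m) • P + trace (R * P) • vecMulVec m m

/-- `E[L(d) R L(d)]` when `E[d dᵀ] = P` -/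
noncomputable def sqLin (β t : ℝ) (m : Fin n → ℝ) (R P : Matrix (Fin n) (Fin n) ℝ) :
    Matrix (Fin n) (Fin n) ℝ :=
  diagDiag m R P - (2 * aCoef β t / n) • (diagRest m R P + (diagRest m R P)ᵀ)
    + (2 * aCoef β t / n) ^ 2 • restRest m R P

end Vale.Agent.P150.PartB.Drift

namespace Vale.Agent.P150.PartB

/-- probability of landing outside `S` at time `e` from `(τ, Y)` -/
noncomputable def leak {n : ℕ} (J B : Matrix (Fin n) (Fin n) ℝ) (e τ : ℝ) (S : Set (Fin n → ℝ))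
    (Y : Fin n → ℝ) : ℝ :=
  kern J B τ (Real.sqrt (e - τ)) Y (Sᶜ.indicator 1)

/-- the linear statistic `v · x` -/
def linF {n : ℕ} (v : Fin n → ℝ) (x : Cfg n) : ℝ := ∑ i, v i * spin (x i)

/-- The second-order coefficients of the resolvent, averaged against `P = D p D`, are the main drift
up to `O(n^{-1/2})`. -/
def DriftAlgebra : Prop :=
  ∀ β c Λ K₀ : ℝ, 0 ≤ β → β < 1 → 0 < Λ → 0 < K₀ → ∃ K : ℝ, 0 < K ∧
  ∀ (n : ℕ) (J B : Matrix (Fin n) (Fin n) ℝ), Ctl Λ c J B → ∀ t ∈ Set.Icc (0 : ℝ) 1,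
  ∀ (m : Fin n → ℝ) (H F : Matrix (Fin n) (Fin n) ℝ), (∀ i, |m i| < 1) → H.IsSymm → F.IsSymm →
    ‖H‖ ≤ K₀ → ‖F‖ ≤ K₀ →
      let R := dMat m + dMat m * H * dMat m
      let P := dMat m * pMat (J + c • 1) m F * dMat m
      ∃ E : Matrix (Fin n) (Fin n) ℝ, ‖E‖ ≤ K / Real.sqrt n ∧
        -(R * (Drift.tMat β t J m + Drift.qLin β t m P) * R) + R * Drift.sqLin β t m R P * R + P =
          dMat m * (psiMain β t J (J + c • 1) m H F + E) * dMat m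

/-- Second-order expansion of the inverse of the TAP Jacobian. -/
def ExpandR : Prop :=
  ∀ β Λ η : ℝ, 0 ≤ β → β < 1 → 0 < Λ → 0 < η → η ≤ 1 → ∃ K : ℝ, 0 < K ∧
  ∀ (n : ℕ) (c : ℝ) (J B : Matrix (Fin n) (Fin n) ℝ), Ctl Λ c J B →
  ∀ t h : ℝ, 0 ≤ t → 0 ≤ h → t + h ≤ 1 → ∀ (m d : Fin n → ℝ) (l : ℝ), 0 < l → l ≤ 1 →
    (∀ i, |m i| < 1) → (∀ i, l ≤ 1 - m i ^ 2) →
    K * (n + 1 : ℝ) ^ 4 * (h + nrm d) ≤ l ^ 4 →
    (∀ v : Fin n → ℝ, η * ∑ i, v i ^ 2 ≤ v ⬝ᵥ kHat β t J m *ᵥ v) →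
      let R := (kHat β t J m)⁻¹
      (∀ i, |m i + d i| < 1) ∧
      (∀ v : Fin n → ℝ, η / 2 * ∑ i, v i ^ 2 ≤ v ⬝ᵥ kHat β (t + h) J (m + d) *ᵥ v) ∧
      ‖(kHat β (t + h) J (m + d))⁻¹ - R
          + R * (h • Drift.tMat β t J m + Drift.lMat β t m d + Drift.qLin β t m (vecMulVec d d)) * R
          - R * Drift.lMat β t m d * R * Drift.lMat β t m d * R‖ ≤
        K * (n + 1 : ℝ) ^ 8 / l ^ 12 * (nrm d ^ 3 + h * nrm d + h ^ 2)

/-- Second-order expansion of the TAP residual. -/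
def ExpandRes : Prop :=
  ∀ β Λ : ℝ, 0 ≤ β → β < 1 → 0 < Λ → ∃ K : ℝ, 0 < K ∧
  ∀ (n : ℕ) (c : ℝ) (J B : Matrix (Fin n) (Fin n) ℝ), Ctl Λ c J B →
  ∀ t h : ℝ, 0 ≤ t → 0 ≤ h → t + h ≤ 1 → ∀ (y d' m d : Fin n → ℝ) (l : ℝ), 0 < l → l ≤ 1 →
    (∀ i, |m i| < 1) → (∀ i, l ≤ 1 - m i ^ 2) →
    K * (n + 1 : ℝ) ^ 4 * (h + nrm d) ≤ l ^ 4 →
    ∀ i, |resM β (t + h) J (y + d') (m + d) i - resM β t J y m i
        - ((kHat β t J m *ᵥ d) i + h * (aCoef' β t * (1 - qv m) * m i + (J *ᵥ m) i) - d' i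
          + (m i * d i ^ 2 / (1 - m i ^ 2) ^ 2 - aCoef β t * (d ⬝ᵥ d) / n * m i
            - 2 * aCoef β t / n * (m ⬝ᵥ d) * d i))| ≤
      K * (n + 1 : ℝ) ^ 4 / l ^ 4 * (nrm d ^ 3 + h * nrm d + h ^ 2)

/-- Covariance bound and weak Poincaré inequality over one block, given a crude covariance bound
where the leak is small. -/
def VarBlock : Prop :=
  ∀ Λ : ℝ, 0 < Λ → ∃ K : ℝ, 0 < K ∧ ∀ (n : ℕ) (c : ℝ) (J B : Matrix (Fin n) (Fin n) ℝ),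
    Ctl Λ c J B → ∀ (s e L ν P e₀ θ₀ : ℝ) (S : Set (Fin n → ℝ)), 0 ≤ s → s ≤ e → e ≤ 1 →
    0 ≤ L → 0 ≤ ν → 0 ≤ P → 0 ≤ e₀ → e₀ ≤ 1 → 0 < θ₀ → θ₀ ≤ 1 → MeasurableSet S →
    K * (L + 1) * (e - s) ≤ 1 →
    (∀ Y ∈ S, (∀ v, varW ((1 - e) • J) Y (linF v) ≤ L * ∑ i, v i ^ 2) ∧
      WP ((1 - e) • J) Y P e₀) →
    (∀ τ ∈ Set.Icc s e, ∀ Y, leak J B e τ S Y ≤ θ₀ →
      ∀ v, varW ((1 - τ) • J) Y (linF v) ≤ ν * ∑ i, v i ^ 2) →
    let b := (n + 2 : ℝ) ^ 9 / θ₀ * Real.exp (K * (ν + 1) * (L + 1) * (e - s))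
    ∀ τ ∈ Set.Icc s e, ∀ Y,
      (∀ v, varW ((1 - τ) • J) Y (linF v) ≤ (2 * L + 1 + b * leak J B e τ S Y) * ∑ i, v i ^ 2) ∧
      WP ((1 - τ) • J) Y (P * Real.exp (K * (L + 1) * (e - τ)))
        (K * e₀ + (P + 1) * b * leak J B e τ S Y)

/-- The terminal time: a product measure. -/
def ProductBase : Prop :=
  ∀ (n : ℕ) (β : ℝ) (J : Matrix (Fin n) (Fin n) ℝ) (Y : Fin n → ℝ), (∀ i, J i i = 0) →
    WP ((1 - (1 : ℝ)) • J) Y 1 0 ∧ (∀ v, varW ((1 - (1 : ℝ)) • J) Y (linF v) ≤ ∑ i, v i ^ 2) ∧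
    mean J 1 Y = (fun i => Real.tanh (Y i)) ∧
    cov J 1 Y = dMat (mean J 1 Y) ∧ fMat J 1 Y = 0 ∧ hMat β 1 J (mean J 1 Y) = 0 ∧
    resM β 1 J Y (mean J 1 Y) = 0

end Vale.Agent.P150.PartB
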