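import Vale.Agent.P150.Fast.PartB.Block

/-!
# P150, Part B: one block of the macro induction
-/

open MeasureTheory Matrix
open scoped Matrix.Norms.L2Operator

namespace Vale.Agent.P150.PartB.Macro

open Ind

/-- the recursion of the two norms over one block -/
lemma at_succ {K h x A a KB E : ℝ} {j : ℕ} (hKB0 : 0 ≤ KB) (hKB : KB ≤ K) (hh : 0 ≤ h) (hE : E ≤ A)
    (hE0 : 0 ≤ E) (ha : a = Real.exp (K * (j * h)) * (K * A) * (j * h)) (hx : 0 ≤ a)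
    (hxe : x = a + KB * E * h) :
    Real.exp (KB * h) * x ≤ Real.exp (K * ((j + 1 : ℕ) * h)) * (K * A) * ((j + 1 : ℕ) * h) := by
  have hK : 0 ≤ K := hKB0.trans hKB
  have h1 : Real.exp (KB * h) ≤ Real.exp (K * h) := Real.exp_le_exp.2 (mul_le_mul_of_nonneg_right hKB hh)
  have h2 : KB * E * h ≤ Real.exp (K * (j * h)) * (K * A) * h := by
    refine mul_le_mul_of_nonneg_right ((mul_le_mul hKB hE hE0 hK).trans
      (le_mul_of_one_le_left ?_ (Real.one_le_exp (by positivity)))) hh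
    exact mul_nonneg hK (hE0.trans hE)
  have h4 : 0 ≤ x := hxe ▸ add_nonneg hx (mul_nonneg (mul_nonneg hKB0 hE0) hh)
  refine (mul_le_mul h1 (le_of_eq_of_le hxe (add_le_add le_rfl h2)) h4 (Real.exp_pos _).le).trans (le_of_eq ?_)
  rw [ha, show K * (((j + 1 : ℕ) : ℝ) * h) = K * h + K * (j * h) by push_cast; ring, Real.exp_add]
  push_cast; ring

variable {n : ℕ} {β c Λ η L₀ P KV KF K ε ρ Lk c₀ ε₂ κ : ℝ} {N : ℕ}
  {J B : Matrix (Fin n) (Fin n) ℝ} {cand : ℝ → (Fin n → ℝ) → Fin n → ℝ}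

lemma atle {K A M h : ℝ} {j : ℕ} (hK : 0 ≤ K) (hA : 0 ≤ A) (hh : 0 ≤ h) (hj : (j : ℝ) * h ≤ 1)
    (hM : Real.exp K * (K * A) ≤ M) :
    0 ≤ Real.exp (K * (j * h)) * (K * A) * (j * h) ∧ Real.exp (K * (j * h)) * (K * A) * (j * h) ≤ M := by
  refine ⟨by positivity, le_trans ?_ hM⟩
  calc Real.exp (K * (j * h)) * (K * A) * (j * h) ≤ Real.exp (K * (j * h)) * (K * A) * 1 :=
        mul_le_mul_of_nonneg_left hj (by positivity)
    _ ≤ _ := by
        rw [mul_one]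
        exact mul_le_mul_of_nonneg_right (Real.exp_le_exp.2 (mul_le_of_le_one_right hK hj)) (by positivity)

variable (hS : Setting β c Λ η L₀ P KV KF K ε ρ Lk c₀ ε₂ κ N J B cand)
include hS

/-- deep below the threshold the three quantities are small at every time of the block -/
lemma deep {k j : ℕ} (hkj : k + 1 + j = N) {W : Set (Fin n → ℝ)}
    (hcert : ∀ w ∈ W, Cert β c η ε ρ ε₂ (((k + 1 : ℕ) : ℝ) / N) J w (cand (((k + 1 : ℕ) : ℝ) / N) w))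
    (hinv : Inv β η L₀ KV (dAt K ε (1 / N) j) (pAt K ε₂ (1 / N) j) (rAt K ε₂ (1 / N) j)
      (eAt K Λ η ε₂ c₀ κ N n j) ρ J cand (((k + 1 : ℕ) : ℝ) / N)
      (thick W ((2 * (k + 1 : ℕ) + 2) * κ * Real.sqrt n)))
    {τ : ℝ} (hτ : τ ∈ Set.Icc ((k : ℝ) / N) (((k + 1 : ℕ) : ℝ) / N)) {Y : Fin n → ℝ}
    (hY : leak J B (((k + 1 : ℕ) : ℝ) / N) τ (thick W ((2 * (k : ℝ) + 2) * κ * Real.sqrt n)) Y ≤
      Real.exp (2 * Par.kmax N κ * n) * Par.thr c₀ (1 / N) n) :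
    Zone β c η L₀ KV KF K ε ρ Lk ε₂ κ Λ c₀ N k J B cand W (eAt K Λ η ε₂ c₀ κ N n j) τ Y ∧
      ‖fMat J τ Y - hMat β τ J (mean J τ Y)‖ ≤ dAt K ε (1 / N) (j + 1) ∧
      fnrm (fMat J τ Y - hMat β τ J (mean J τ Y)) ≤ pAt K ε₂ (1 / N) (j + 1) * Real.sqrt n ∧
      nrm (resM β τ J Y (mean J τ Y)) ≤ rAt K ε₂ (1 / N) (j + 1) * Real.sqrt n ∧
      ‖cov J τ Y‖ ≤ L₀ ∧ 1 + ‖fMat J τ Y‖ ≤ L₀ := by
  have hΛ := hS.lam
  have hκ := hS.kappa
  have hg := geo (κ := κ) hΛ hκ hS.grid hkj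
  obtain ⟨hK, -, -⟩ := hS.size
  have hs0 := Real.sqrt_nonneg (n : ℝ)
  have hh := hg.hpos.le
  obtain ⟨-, -, -, hleak, -, -, hthick, -, -⟩ := chanFacts n Λ c J B hS.ctl
  set e := ((k + 1 : ℕ) : ℝ) / N with he
  set S₀ := thick W ((2 * (k : ℝ) + 2) * κ * Real.sqrt n)
  obtain ⟨hε, hε₂⟩ := hS.epos
  have hd0 : 0 ≤ ε + K * (1 / N : ℝ) + 2 * (1 / N : ℝ) := by positivity
  have hp0 : 0 ≤ ε₂ + K * (1 / N : ℝ) + 2 * (1 / N : ℝ) := by positivity
  obtain ⟨hdj, hdj'⟩ := atle hK hd0 hh hg.jle (le_refl (Real.exp K * (K * (ε + K * (1 / N : ℝ) + 2 * (1 / N : ℝ)))))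
  obtain ⟨hpj, hpj'⟩ := atle hK hp0 hh hg.jle (le_refl (Real.exp K * (K * (ε₂ + K * (1 / N : ℝ) + 2 * (1 / N : ℝ)))))
  obtain ⟨-, hdj1⟩ := atle hK hd0 hh hg.jle' (le_refl (Real.exp K * (K * (ε + K * (1 / N : ℝ) + 2 * (1 / N : ℝ)))))
  have hr0 : 0 ≤ rAt K ε₂ (1 / N) j := by
    simp only [rAt, Par.pmax]; positivity
  obtain ⟨KB, hKB0, hKBK, hBB⟩ := hS.con.bB
  have hlow : 0 < Par.low Λ n ∧ Par.low Λ n ≤ 1 := by
    refine ⟨Real.exp_pos _, Real.exp_le_one_iff.2 ?_⟩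
    have : 0 ≤ Par.ysup n + Λ * Real.sqrt n := by simp only [Par.ysup]; positivity
    linarith
  have hth : 0 < Par.th2 c₀ (1 / N) n ∧ Par.th2 c₀ (1 / N) n ≤ 1 := by
    refine ⟨Real.exp_pos _, Real.exp_le_one_iff.2 ?_⟩
    have := hS.rate
    have : 0 ≤ c₀ * (1 / N : ℝ) / 4 * n := by positivity
    linarith
  have hzone := fun t (ht : t ∈ Set.Icc ((k : ℝ) / N) e) Z
      (hZ : leak J B e t S₀ Z ≤ Par.th2 c₀ (1 / N) n) => zone hS hkj hcert hinv ht hZ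
  have hsub2 : S₀ ⊆ thick W ((2 * ((k + 1 : ℕ) : ℝ) + 2) * κ * Real.sqrt n) := thick_mono
    (mul_le_mul_of_nonneg_right (mul_le_mul_of_nonneg_right (by push_cast; linarith) hκ.le) hs0)
  have hl0 := ((hleak e τ S₀ (hthick _ _)).2 Y).1
  obtain ⟨hd, hp, hr⟩ := hBB n J B hS.ctl hS.okn.pos ((k : ℝ) / N) e (Par.th2 c₀ (1 / N) n) (Par.low Λ n)
    (ε + K * (1 / N)) (ε₂ + K * (1 / N)) (dAt K ε (1 / N) j) (pAt K ε₂ (1 / N) j) (rAt K ε₂ (1 / N) j) S₀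
    hg.s_mem.1 (by linarith [hg.sub, hg.hpos]) hg.e_mem.2 (hthick _ _) hth.1 hth.2 hlow.1 hlow.2
    ⟨by positivity, hS.ok.eb⟩ ⟨by positivity, hS.ok.e2⟩ ⟨hdj, hdj'.trans hS.ok.dle⟩ ⟨hpj, hpj'.trans hS.ok.ple⟩ hr0
    (fun t ht Z hZ => by
      have z := hzone t ht Z hZ
      exact ⟨z.fbd, z.field, z.low, z.coer, z.psiOp, z.psiFrob, z.psiRes⟩)
    (fun Z hZ => by
      obtain ⟨-, -, -, -, a, b, d⟩ := hinv Z (hsub2 hZ)
      exact ⟨a, b, d⟩)
    τ hτ Y (by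
      rw [hg.sub]
      refine le_trans ?_ hS.okn.deep
      exact mul_le_mul hY (mul_le_mul_of_nonneg_right hKBK (by positivity)) (by positivity)
        (mul_nonneg (Real.exp_pos _).le (Real.exp_pos _).le))
  rw [hg.sub] at hd hp hr
  have hmesh := hS.okn.mesh
  have hg2 : (1 / N : ℝ) + 1 / Real.sqrt n ≤ 2 * (1 / N : ℝ) := by linarith
  have hg0 : 0 ≤ (1 / N : ℝ) + 1 / Real.sqrt n := by positivity
  have hdn : ‖fMat J τ Y - hMat β τ J (mean J τ Y)‖ ≤ dAt K ε (1 / N) (j + 1) :=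
    hd.trans (at_succ hKB0.le hKBK hh
      (show ε + K * (1 / N : ℝ) + ((1 / N : ℝ) + 1 / Real.sqrt n) ≤ ε + K * (1 / N) + 2 * (1 / N) by linarith)
      (by positivity) rfl hdj rfl)
  have hpn : fnrm (fMat J τ Y - hMat β τ J (mean J τ Y)) ≤ pAt K ε₂ (1 / N) (j + 1) * Real.sqrt n :=
    hp.trans (mul_le_mul_of_nonneg_right (at_succ hKB0.le hKBK hh
      (show ε₂ + K * (1 / N : ℝ) + ((1 / N : ℝ) + 1 / Real.sqrt n) ≤ ε₂ + K * (1 / N) + 2 * (1 / N) by linarith)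
      (by positivity) rfl hpj rfl) hs0)
  have hrn : nrm (resM β τ J Y (mean J τ Y)) ≤ rAt K ε₂ (1 / N) (j + 1) * Real.sqrt n := by
    refine hr.trans (mul_le_mul_of_nonneg_right ?_ hs0)
    have h1 : ε₂ + K * (1 / N : ℝ) + pAt K ε₂ (1 / N) j + ((1 / N : ℝ) + 1 / Real.sqrt n) ≤
        ε₂ + K * (1 / N : ℝ) + Par.pmax K ε₂ (1 / N) + 2 * (1 / N : ℝ) := by
      have : pAt K ε₂ (1 / N) j ≤ Par.pmax K ε₂ (1 / N) := hpj'
      linarith
    have h2 := mul_le_mul_of_nonneg_right (mul_le_mul hKBK h1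
      (by have : 0 ≤ pAt K ε₂ (1 / N) j := hpj; positivity) hK) hh
    simp only [rAt] at h2 ⊢
    push_cast
    linarith
  have hdeep : leak J B e τ S₀ Y ≤ Par.th2 c₀ (1 / N) n := hY.trans hS.okn.deep'
  have z := hzone τ hτ Y hdeep
  have hτI : τ ∈ Set.Icc (0 : ℝ) 1 := ⟨hg.s_mem.1.trans hτ.1, hτ.2.trans hg.e_mem.2⟩
  have hH := hS.con.hbound n J B hS.ctl τ hτI _ (StepProof.abs_mean_lt hS.ctl τ Y) z.coer
  have hF : 1 + ‖fMat J τ Y‖ ≤ L₀ := by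
    have h3 := norm_le_norm_add_norm_sub' (fMat J τ Y) (hMat β τ J (mean J τ Y))
    have : dAt K ε (1 / N) (j + 1) ≤ 1 := hdj1.trans hS.ok.dle
    linarith
  exact ⟨z, hdn, hpn, hrn, (norm_cov_le hS.ctl τ Y).trans hF, hF⟩

omit hS in
/-- the block step -/
theorem blockStep : BlockStep := by
  intro β c Λ η L₀ P KV KF K ε ρ Lk c₀ ε₂ κ N n J B cand hS k j hkj W hW hcert hinv
  have hκ := hS.kappa
  have hg := geo (κ := κ) hS.lam hκ hS.grid hkj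
  obtain ⟨hK, hrm, -⟩ := hS.size
  have hs0 := Real.sqrt_nonneg (n : ℝ)
  have hsn : 0 < Real.sqrt n := Real.sqrt_pos.2 (Nat.cast_pos.2 hS.okn.pos)
  obtain ⟨-, -, -, hleak, -, -, hthick, hshift, -⟩ := chanFacts n Λ c J B hS.ctl
  set e := ((k + 1 : ℕ) : ℝ) / N with he
  have hkk : (2 * (k : ℝ) + 2) * κ ≤ Par.kmax N κ := le_trans
    (mul_le_mul_of_nonneg_right (by push_cast; linarith) hκ.le) hg.kle
  have key : ∀ τ ∈ Set.Icc ((k : ℝ) / N) e, ∀ w, leak J B e τ W w ≤ Par.thr c₀ (1 / N) n → ∀ v : Fin n → ℝ,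
      nrm v < (2 * (k : ℝ) + 2) * κ * Real.sqrt n →
      leak J B e τ (thick W ((2 * (k : ℝ) + 2) * κ * Real.sqrt n)) (w + v) ≤
        Real.exp (2 * Par.kmax N κ * n) * Par.thr c₀ (1 / N) n := fun τ hτ w hw v hv => by
    refine (hshift e τ W _ w v hW (hthick _ _) hτ.2 fun Z hZ => ⟨Z, hZ, by simpa using hv⟩).trans
      (mul_le_mul (Real.exp_le_exp.2 ?_) hw ((hleak e τ W hW).2 w).1 (Real.exp_pos _).le)
    calc 2 * nrm v * Real.sqrt n ≤ 2 * (Par.kmax N κ * Real.sqrt n) * Real.sqrt n := by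
          refine mul_le_mul_of_nonneg_right ?_ hs0
          linarith [mul_le_mul_of_nonneg_right hkk hs0]
      _ = 2 * Par.kmax N κ * n := by rw [mul_assoc, mul_assoc, Real.mul_self_sqrt (Nat.cast_nonneg n)]; ring
  refine ⟨fun s hs w hw v hv => (deep hS hkj hcert hinv hs (key s hs w hw v (hv.trans_lt ?_))).2.2.2.2.1,
    fun W' hW' Y hY => ?_⟩
  · refine mul_lt_mul_of_pos_right (lt_mul_of_one_lt_left hκ ?_) hsn
    linarith [(Nat.cast_nonneg k : (0 : ℝ) ≤ k)]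
  obtain ⟨w, hw, hlt⟩ := hY
  obtain ⟨hwl, hC⟩ := hW' w hw
  have hs : (k : ℝ) / N ∈ Set.Icc ((k : ℝ) / N) e := ⟨le_rfl, by linarith [hg.sub, hg.hpos]⟩
  set v : Fin n → ℝ := fun i => Y i - w i with hv
  have hYe : w + v = Y := by funext i; simp [hv]
  have hl := key _ hs w hwl v hlt
  rw [hYe] at hl
  obtain ⟨z, hd, hp, hr, -, hF⟩ := deep hS hkj hcert hinv hs hl
  refine ⟨fun u => (varW_le hS.ctl _ Y u).trans
    (mul_le_mul_of_nonneg_right hF (Finset.sum_nonneg fun i _ => sq_nonneg _)), ?_, z.coer, ?_, hd, hp, hr⟩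
  · refine wp_mono (z.wp _ hl) le_rfl ?_
    have hK1 := hS.con.one
    have hE := hS.eBase_nonneg
    show K * ((j : ℝ) * K ^ j * eBase K Λ η ε₂ c₀ κ N n) + eBase K Λ η ε₂ c₀ κ N n ≤
      ((j + 1 : ℕ) : ℝ) * K ^ (j + 1) * eBase K Λ η ε₂ c₀ κ N n
    have h1 := le_mul_of_one_le_left hE (one_le_pow₀ hK1 (n := j + 1))
    rw [pow_succ] at h1 ⊢
    push_cast
    linarith
  · obtain ⟨w₁, -, hYw, hball⟩ := z.near
    set m := mean J ((k : ℝ) / N) Y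
    have hvn : nrm v ≤ Par.kmax N κ * Real.sqrt n := hlt.le.trans (mul_le_mul_of_nonneg_right hkk hs0)
    have hww : nrm (fun i => w₁ i - w i) ≤ (Par.land Λ (1 / N) + 2 * Par.kmax N κ) * Real.sqrt n := by
      have h1 := nrm_tri w₁ Y w
      rw [nrm_comm w₁ Y] at h1
      linarith
    have hlip := hS.candLip e hg.e_mem ((k : ℝ) / N) hg.s_mem w₁ w
    rw [abs_of_nonneg (show 0 ≤ e - (k : ℝ) / N by linarith [hg.sub, hg.hpos]), hg.sub] at hlip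
    have hd2 : Par.land Λ (1 / N) ≤ Par.dist Λ (1 / N) κ := by
      simp only [Par.dist]
      have : 0 ≤ Par.land Λ (1 / N) := by
        have := hS.lam; have := hg.hpos; simp only [Par.land]; positivity
      linarith
    set T := fun i => Real.tanh (cand ((k : ℝ) / N) w i)
    have hin : nrm (fun i => m i - T i) ≤ ρ * Real.sqrt n := by
      refine (nrm_tri m (fun i => Real.tanh (cand e w₁ i)) T).trans ?_
      have h1 := mul_le_mul_of_nonneg_left hww hS.lip.le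
      have h2 := mul_le_mul_of_nonneg_right hS.ok.ball hs0
      have h3 : Lk * ((Par.land Λ (1 / N)) * Real.sqrt n) ≤ Lk * (Par.dist Λ (1 / N) κ * Real.sqrt n) :=
        mul_le_mul_of_nonneg_left (mul_le_mul_of_nonneg_right hd2 hs0) hS.lip.le
      linarith
    have hc := hC.centre_le v m hS.rho.le (StepProof.abs_mean_lt hS.ctl _ Y) hin
    rw [hYe] at hc
    have hr' : nrm (resM β ((k : ℝ) / N) J Y m) ≤ Par.rmax K ε₂ (1 / N) * Real.sqrt n :=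
      hr.trans (mul_le_mul_of_nonneg_right (rAt_le hS hg.jle') hs0)
    have hcen : nrm (fun i => m i - T i) ≤
        (ρ / 8 + (Par.kmax N κ + Par.rmax K ε₂ (1 / N)) / η) * Real.sqrt n := by
      refine le_of_mul_le_mul_left ?_ hS.eta.1
      rw [show η * ((ρ / 8 + (Par.kmax N κ + Par.rmax K ε₂ (1 / N)) / η) * Real.sqrt n) =
        η * ρ / 8 * Real.sqrt n + (Par.kmax N κ + Par.rmax K ε₂ (1 / N)) * Real.sqrt n by
          have := hS.eta.1.ne'; field_simp]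
      linarith
    refine (nrm_tri m T _).trans ?_
    have hl2 := hS.candLip ((k : ℝ) / N) hg.s_mem ((k : ℝ) / N) hg.s_mem w Y
    rw [sub_self, abs_zero, zero_mul, zero_add, nrm_comm w Y] at hl2
    have h4 := mul_le_mul_of_nonneg_left hvn hS.lip.le
    have h5 := mul_le_mul_of_nonneg_right hS.ok.centre hs0
    linarith

end Vale.Agent.P150.PartB.Macro
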