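import Vale.Agent.P150.Fast.PartB.Spec
import Vale.Agent.P150.Fast.OpNormBridge

/-!
# P150, Part B: Lipschitz bounds for the drift and for `hMat`

`psiMain`, `resDrift` and `vMat` are algebraic expressions in `diag m`, `H`, `F` and constant matrices,
built from sums, products, Schur products and the normalised trace; such expressions are Lipschitz both
in Frobenius and in operator norm, with constants free of `n`.
-/

open Matrix Vale.Agent.P150.Fast
open scoped Matrix.Norms.L2Operator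

namespace Vale.Agent.P150.PartB.PsiLip

variable {n : ℕ}

/-- the normalised trace, as a multiple of the identity -/
noncomputable def avgM (X : Matrix (Fin n) (Fin n) ℝ) : Matrix (Fin n) (Fin n) ℝ :=
  (trace X / n) • 1

/-- all entries equal to `1/n` -/
noncomputable def qMat (n : ℕ) : Matrix (Fin n) (Fin n) ℝ :=
  Matrix.of fun _ _ => 1 / (n : ℝ)

lemma norm_one_le : ‖(1 : Matrix (Fin n) (Fin n) ℝ)‖ ≤ 1 :=
  OpNorm.opLe_iff_norm_le.1 OpNorm.opLe_one

lemma norm_qMat_le : ‖qMat n‖ ≤ 1 := by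
  refine OpNorm.opLe_iff_norm_le.1 ?_
  have h := (OpNorm.opLe_rankOne (fun _ : Fin n => (1 : ℝ)) (fun _ : Fin n => (1 : ℝ))).smul
    (1 / (n : ℝ))
  have e : (1 / (n : ℝ)) • (Matrix.of fun i j : Fin n => (fun _ => (1 : ℝ)) i * (fun _ => (1 : ℝ)) j) =
      qMat n := by
    ext i j; simp [qMat]
  rw [e] at h
  refine h.mono ?_
  rw [Real.mul_self_sqrt (OpNorm.nsq_nonneg _)]
  rcases Nat.eq_zero_or_pos n with rfl | hn
  · simp
  · simp [OpNorm.nsq]
    field_simp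
    exact le_refl _

lemma norm_hadamard_le (X Y : Matrix (Fin n) (Fin n) ℝ) : ‖X ⊙ Y‖ ≤ ‖X‖ * ‖Y‖ :=
  OpNorm.opLe_iff_norm_le.1
    ((OpNorm.opLe_iff_norm_le.2 le_rfl).hadamard (OpNorm.opLe_iff_norm_le.2 le_rfl))

lemma abs_entry_le (X : Matrix (Fin n) (Fin n) ℝ) (i j : Fin n) : |X i j| ≤ ‖X‖ :=
  (OpNorm.opLe_iff_norm_le.2 le_rfl).entry i j

lemma norm_avgM_le (X : Matrix (Fin n) (Fin n) ℝ) : ‖avgM X‖ ≤ ‖X‖ := by
  rw [avgM, norm_smul, Real.norm_eq_abs]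
  refine (mul_le_mul_of_nonneg_left norm_one_le (abs_nonneg _)).trans ?_
  rw [mul_one, abs_div, Nat.abs_cast]
  refine div_le_of_le_mul₀ (Nat.cast_nonneg n) (norm_nonneg X) ?_
  refine (Finset.abs_sum_le_sum_abs _ _).trans
    ((Finset.sum_le_sum fun i _ => abs_entry_le X i i).trans_eq ?_)
  simp [mul_comm]

/-- a seminorm on matrices dominated in the way the Frobenius and operator norms are -/
structure Sem (N : Matrix (Fin n) (Fin n) ℝ → ℝ) : Prop where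
  nonneg : ∀ X, 0 ≤ N X
  add : ∀ X Y, N (X + Y) ≤ N X + N Y
  smul : ∀ (c : ℝ) X, N (c • X) = |c| * N X
  mulLeft : ∀ X Y, N (X * Y) ≤ ‖X‖ * N Y
  mulRight : ∀ X Y, N (X * Y) ≤ N X * ‖Y‖
  had : ∀ X Y, N (X ⊙ Y) ≤ ‖X‖ * N Y
  avg : ∀ X, N (avgM X) ≤ N X

lemma sem_norm : Sem (fun X : Matrix (Fin n) (Fin n) ℝ => ‖X‖) where
  nonneg := norm_nonneg
  add := norm_add_le
  smul c X := by simp [norm_smul]
  mulLeft := norm_mul_le
  mulRight := norm_mul_le
  had := norm_hadamard_le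
  avg := norm_avgM_le

lemma sem_fnrm : Sem (fnrm (n := n)) where
  nonneg _ := Real.sqrt_nonneg _
  add X Y := by simpa only [OpNorm.fnrm_eq] using OpNorm.sqrt_fsq_add X Y
  smul c X := by
    rw [OpNorm.fnrm_eq, OpNorm.fnrm_eq, OpNorm.fsq_smul, Real.sqrt_mul (sq_nonneg c),
      Real.sqrt_sq_eq_abs]
  mulLeft X Y := by
    rw [OpNorm.fnrm_eq, OpNorm.fnrm_eq, ← Real.sqrt_sq (norm_nonneg X), ← Real.sqrt_mul (sq_nonneg _)]
    exact Real.sqrt_le_sqrt (OpNorm.opLe_iff_norm_le.2 le_rfl).fsq_mul_le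
  mulRight X Y := by
    rw [OpNorm.fnrm_eq, OpNorm.fnrm_eq, mul_comm, ← Real.sqrt_sq (norm_nonneg Y),
      ← Real.sqrt_mul (sq_nonneg _)]
    exact Real.sqrt_le_sqrt (OpNorm.fsq_mul_le_right (OpNorm.opLe_iff_norm_le.2 le_rfl) X)
  had X Y := by
    rw [OpNorm.fnrm_eq, OpNorm.fnrm_eq, ← Real.sqrt_sq (norm_nonneg X), ← Real.sqrt_mul (sq_nonneg _)]
    exact Real.sqrt_le_sqrt (OpNorm.fsq_hadamard_le (abs_entry_le X) Y)
  avg X := by
    refine Real.sqrt_le_sqrt ?_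
    rcases Nat.eq_zero_or_pos n with rfl | hn
    · simp
    have h1 : ∑ i : Fin n, ∑ j, avgM X i j ^ 2 = (trace X) ^ 2 / n := by
      simp [avgM, Matrix.one_apply]
      field_simp
    rw [h1, div_le_iff₀ (by exact_mod_cast hn)]
    have h2 : (trace X) ^ 2 ≤ n * ∑ i, X i i ^ 2 := by
      simpa [trace] using sq_sum_le_card_mul_sum_sq (s := (Finset.univ : Finset (Fin n))) (f := fun i => X i i)
    refine h2.trans ?_
    rw [mul_comm]
    exact mul_le_mul_of_nonneg_right (Finset.sum_le_sum fun i _ =>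
      Finset.single_le_sum (f := fun j => X i j ^ 2) (fun j _ => sq_nonneg _) (Finset.mem_univ i))
      (Nat.cast_nonneg n)

/-- two values of an expression: bounded by `b` in norm and `d e` apart -/
def Lip (N : Matrix (Fin n) (Fin n) ℝ → ℝ) (e b d : ℝ) (X X' : Matrix (Fin n) (Fin n) ℝ) : Prop :=
  ‖X‖ ≤ b ∧ ‖X'‖ ≤ b ∧ N (X - X') ≤ d * e

variable {N : Matrix (Fin n) (Fin n) ℝ → ℝ} {e b₁ b₂ d₁ d₂ : ℝ}
  {X X' Y Y' : Matrix (Fin n) (Fin n) ℝ}

lemma lip_const (hN : Sem N) {b : ℝ} (h : ‖X‖ ≤ b) : Lip N e b 0 X X := by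
  refine ⟨h, h, ?_⟩
  have h0 := hN.smul 0 0
  simp only [smul_zero, abs_zero, zero_mul] at h0
  simp [h0]

lemma Lip.add (hN : Sem N) (h₁ : Lip N e b₁ d₁ X X') (h₂ : Lip N e b₂ d₂ Y Y') :
    Lip N e (b₁ + b₂) (d₁ + d₂) (X + Y) (X' + Y') := by
  refine ⟨(norm_add_le _ _).trans (add_le_add h₁.1 h₂.1),
    (norm_add_le _ _).trans (add_le_add h₁.2.1 h₂.2.1), ?_⟩
  rw [add_sub_add_comm, add_mul]
  exact (hN.add _ _).trans (add_le_add h₁.2.2 h₂.2.2)

lemma Lip.smul (hN : Sem N) {c C : ℝ} (hc : |c| ≤ C) (h : Lip N e b₁ d₁ X X') :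
    Lip N e (C * b₁) (C * d₁) (c • X) (c • X') := by
  have hC : 0 ≤ C := (abs_nonneg c).trans hc
  refine ⟨?_, ?_, ?_⟩
  · rw [norm_smul, Real.norm_eq_abs]; exact mul_le_mul hc h.1 (norm_nonneg _) hC
  · rw [norm_smul, Real.norm_eq_abs]; exact mul_le_mul hc h.2.1 (norm_nonneg _) hC
  · rw [← smul_sub, hN.smul, mul_assoc]; exact mul_le_mul hc h.2.2 (hN.nonneg _) hC

lemma Lip.neg (hN : Sem N) (h : Lip N e b₁ d₁ X X') : Lip N e b₁ d₁ (-X) (-X') := by
  refine ⟨by rw [norm_neg]; exact h.1, by rw [norm_neg]; exact h.2.1, ?_⟩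
  have h0 := hN.smul (-1) (X - X')
  rw [neg_one_smul, abs_neg, abs_one, one_mul] at h0
  rw [← neg_sub', h0]; exact h.2.2

lemma Lip.sub (hN : Sem N) (h₁ : Lip N e b₁ d₁ X X') (h₂ : Lip N e b₂ d₂ Y Y') :
    Lip N e (b₁ + b₂) (d₁ + d₂) (X - Y) (X' - Y') := by
  simpa only [sub_eq_add_neg] using h₁.add hN (h₂.neg hN)

lemma Lip.mul (hN : Sem N) (h₁ : Lip N e b₁ d₁ X X') (h₂ : Lip N e b₂ d₂ Y Y') :
    Lip N e (b₁ * b₂) (b₁ * d₂ + d₁ * b₂) (X * Y) (X' * Y') := by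
  have hb₁ : 0 ≤ b₁ := (norm_nonneg _).trans h₁.1
  refine ⟨(norm_mul_le _ _).trans (mul_le_mul h₁.1 h₂.1 (norm_nonneg _) hb₁),
    (norm_mul_le _ _).trans (mul_le_mul h₁.2.1 h₂.2.1 (norm_nonneg _) hb₁), ?_⟩
  rw [show X * Y - X' * Y' = X * (Y - Y') + (X - X') * Y' by noncomm_ring]
  refine (hN.add _ _).trans ((add_le_add (hN.mulLeft _ _) (hN.mulRight _ _)).trans ?_)
  rw [add_mul, mul_assoc, mul_right_comm d₁]
  exact add_le_add (mul_le_mul h₁.1 h₂.2.2 (hN.nonneg _) hb₁)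
    (mul_le_mul h₁.2.2 h₂.2.1 (norm_nonneg _) ((hN.nonneg _).trans h₁.2.2))

lemma Lip.had (hN : Sem N) (h₁ : Lip N e b₁ d₁ X X') (h₂ : Lip N e b₂ d₂ Y Y') :
    Lip N e (b₁ * b₂) (b₁ * d₂ + d₁ * b₂) (X ⊙ Y) (X' ⊙ Y') := by
  have hb₁ : 0 ≤ b₁ := (norm_nonneg _).trans h₁.1
  refine ⟨(norm_hadamard_le _ _).trans (mul_le_mul h₁.1 h₂.1 (norm_nonneg _) hb₁),
    (norm_hadamard_le _ _).trans (mul_le_mul h₁.2.1 h₂.2.1 (norm_nonneg _) hb₁), ?_⟩
  rw [show X ⊙ Y - X' ⊙ Y' = X ⊙ (Y - Y') + Y' ⊙ (X - X') by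
    ext i j; simp only [Matrix.sub_apply, Matrix.add_apply, Matrix.hadamard_apply]; ring]
  refine (hN.add _ _).trans ((add_le_add (hN.had _ _) (hN.had _ _)).trans ?_)
  refine (add_le_add (mul_le_mul h₁.1 h₂.2.2 (hN.nonneg _) hb₁)
    (mul_le_mul h₂.2.1 h₁.2.2 (hN.nonneg _) ((norm_nonneg _).trans h₂.2.1))).trans_eq ?_
  ring

lemma Lip.avgM (hN : Sem N) (h : Lip N e b₁ d₁ X X') : Lip N e b₁ d₁ (avgM X) (avgM X') := by
  refine ⟨(norm_avgM_le _).trans h.1, (norm_avgM_le _).trans h.2.1, ?_⟩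
  rw [show PsiLip.avgM X - PsiLip.avgM X' = PsiLip.avgM (X - X') by
    simp [PsiLip.avgM, Matrix.trace_sub, sub_div, sub_smul]]
  exact (hN.avg _).trans h.2.2

/-! ### The expressions -/

variable (β c s : ℝ) (J A : Matrix (Fin n) (Fin n) ℝ) (m : Fin n → ℝ) (H F p : Matrix (Fin n) (Fin n) ℝ)

/-- the scalar `shiftCoef` as a matrix expression -/
noncomputable def shiftExpr : Matrix (Fin n) (Fin n) ℝ :=
  aCoef' β s • (1 - avgM (diagonal m * diagonal m)) - aCoef β s • avgM (dMat m * p * dMat m)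

lemma dMat_eq : dMat m = 1 - diagonal m * diagonal m := by
  ext i j
  rcases eq_or_ne i j with rfl | h
  · simp [dMat, sq]
  · simp [dMat, h]

lemma qv_smul : qv m • (1 : Matrix (Fin n) (Fin n) ℝ) = avgM (diagonal m * diagonal m) := by
  simp [avgM, qv, Matrix.diagonal_mul_diagonal, Matrix.trace_diagonal, sq]

lemma shift_smul : shiftCoef β s m p • (1 : Matrix (Fin n) (Fin n) ℝ) = shiftExpr β s m p := by
  have h : trace (dMat m * p * dMat m) = ∑ i, (1 - m i ^ 2) ^ 2 * p i i := by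
    simp only [trace, Matrix.diag, dMat, Matrix.mul_diagonal, Matrix.diagonal_mul]
    exact Finset.sum_congr rfl fun i _ => by ring
  rw [shiftExpr, ← qv_smul, avgM, h, shiftCoef, sub_smul, mul_smul, mul_smul, sub_smul, one_smul,
    trP]

lemma diag_had (X : Matrix (Fin n) (Fin n) ℝ) : diagonal (fun i => X i i) = X ⊙ 1 := by
  rw [Matrix.hadamard_one]; rfl

lemma smul_vecMulVec (r : ℝ) (u v : Fin n → ℝ) :
    (r / n) • vecMulVec u v = r • (diagonal u * qMat n * diagonal v) := by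
  ext i j
  simp [qMat, vecMulVec_apply, Matrix.mul_diagonal, Matrix.diagonal_mul]
  ring

lemma cross_diag :
    diagonal (cross m H p) = diagonal m * ((p * dMat m * (1 + dMat m * H)) ⊙ 1) := by
  rw [← diag_had, Matrix.diagonal_mul_diagonal]; rfl

lemma vMat_eq : vMat β s J m = aCoef β s • (1 - avgM (diagonal m * diagonal m)) - (1 - s) • J
    - (2 * aCoef β s) • (diagonal m * qMat n * diagonal m) := by
  rw [vMat, smul_vecMulVec, mul_smul, sub_smul, one_smul, qv_smul]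

lemma xMain_eq : xMain β s J m H p =
    -(p ⊙ 1) + (4 : ℝ) • (diagonal m * (H ⊙ p) * diagonal m) - shiftExpr β s m p - J
      + ((2 * aCoef' β s) • (diagonal m * qMat n * diagonal m)
        + (2 * aCoef β s) ^ 2 • (avgM ((dMat m + dMat m * H * dMat m) * (dMat m * p * dMat m))
            * (diagonal m * qMat n * diagonal m)))
      - (2 * (2 * aCoef β s)) • (diagonal (cross m H p) * qMat n * diagonal m
        + diagonal m * qMat n * diagonal (cross m H p)) := by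
  rw [xMain, shift_smul, diag_had, add_smul, smul_vecMulVec, smul_add (2 * (2 * aCoef β s) / (n : ℝ)),
    smul_vecMulVec, smul_vecMulVec, ← smul_add, avgM, smul_mul_assoc, one_mul, smul_smul]
  congr 3
  set t := trace ((dMat m + dMat m * H * dMat m) * (dMat m * p * dMat m))
  rw [show (2 * aCoef β s) ^ 2 * t / (n : ℝ) ^ 2 = ((2 * aCoef β s) ^ 2 * (t / n)) / n by ring,
    smul_vecMulVec]

lemma resDrift_diag : diagonal (resDrift β c s A m F) =
    diagonal m * (pMat A m F ⊙ 1) + (shiftExpr β s m (pMat A m F) - c • 1) * diagonal m := by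
  rw [← shift_smul, ← sub_smul, smul_mul_assoc, one_mul, ← diag_had, Matrix.diagonal_mul_diagonal,
    ← Matrix.diagonal_smul, Matrix.diagonal_add]
  rfl

/-! ### Bounds -/

variable {β c s} {J A m H F p}
variable {m' : Fin n → ℝ} {H' F' : Matrix (Fin n) (Fin n) ℝ}

lemma coef_bounds (hβ : |β| ≤ 1) (hs : s ∈ Set.Icc (0 : ℝ) 1) :
    |1 - s| ≤ 1 ∧ |aCoef β s| ≤ 1 ∧ |aCoef' β s| ≤ 2 := by
  have h1 : |1 - s| ≤ 1 := abs_le.2 ⟨by linarith [hs.2], by linarith [hs.1]⟩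
  have h2 : |β ^ 2| ≤ 1 := by rw [abs_pow]; exact pow_le_one₀ (abs_nonneg β) hβ
  refine ⟨h1, ?_, ?_⟩
  · rw [aCoef, abs_mul, abs_pow (1 - s)]
    exact mul_le_one₀ h2 (by positivity) (pow_le_one₀ (abs_nonneg _) h1)
  · rw [aCoef', abs_mul, abs_mul, abs_neg, abs_two]
    exact (mul_le_mul (mul_le_mul_of_nonneg_left h2 two_pos.le) h1 (abs_nonneg _) (by norm_num)).trans_eq
      (by norm_num)

lemma lip_diag (h : ∀ i, |m i| ≤ 1) (h' : ∀ i, |m' i| ≤ 1)
    (hd : N (diagonal m - diagonal m') ≤ e) : Lip N e 1 1 (diagonal m) (diagonal m') :=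
  ⟨OpNorm.opLe_iff_norm_le.1 (OpNorm.opLe_diagonal zero_le_one h),
    OpNorm.opLe_iff_norm_le.1 (OpNorm.opLe_diagonal zero_le_one h'), by rwa [one_mul]⟩

lemma lip_dMat (hN : Sem N) (hM : Lip N e 1 1 (diagonal m) (diagonal m')) :
    Lip N e (1 + 1 * 1) (0 + (1 * 1 + 1 * 1)) (dMat m) (dMat m') := by
  rw [dMat_eq, dMat_eq]
  exact (lip_const hN norm_one_le).sub hN (hM.mul hN hM)

/-- multiples `(1 - s)`, `aCoef` and `aCoef'` of an expression, at two times -/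
lemma lip_time (hN : Sem N) {e b d β s t : ℝ} {X X' : Matrix (Fin n) (Fin n) ℝ} (hβ : |β| ≤ 1)
    (hT : Lip N e 1 1 ((1 - s) • (1 : Matrix (Fin n) (Fin n) ℝ)) ((1 - t) • 1))
    (h : Lip N e b d X X') :
    Lip N e b (d + b) ((1 - s) • X) ((1 - t) • X') ∧
      Lip N e b (d + b + b) (aCoef β s • X) (aCoef β t • X') ∧
      Lip N e (2 * b) (2 * (d + b)) (aCoef' β s • X) (aCoef' β t • X') := by
  have h1 : ∀ {b d} {Y Y' : Matrix (Fin n) (Fin n) ℝ}, Lip N e b d Y Y' →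
      Lip N e b (d + b) ((1 - s) • Y) ((1 - t) • Y') := fun {b d Y Y'} hY => by
    have := hT.mul hN hY
    rwa [smul_mul_assoc, smul_mul_assoc, one_mul, one_mul, one_mul, one_mul] at this
  have hb : |β ^ 2| ≤ 1 := by rw [abs_pow]; exact pow_le_one₀ (abs_nonneg β) hβ
  refine ⟨h1 h, ?_, ?_⟩
  · have := (h1 (h1 h)).smul hN hb
    rwa [one_mul, one_mul, smul_smul, smul_smul, smul_smul, smul_smul,
      show β ^ 2 * (1 - s) * (1 - s) = aCoef β s by rw [aCoef]; ring,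
      show β ^ 2 * (1 - t) * (1 - t) = aCoef β t by rw [aCoef]; ring] at this
  · have := (h1 h).smul hN (show |-2 * β ^ 2| ≤ 2 by rw [abs_mul, abs_neg, abs_two]; linarith)
    rwa [smul_smul, smul_smul] at this

/-- the constants of `vMat` -/
lemma exists_lip_vMat (K : ℝ) : ∃ b d : ℝ, ∀ {n : ℕ} {N : Matrix (Fin n) (Fin n) ℝ → ℝ}
    (_ : Sem N) {e β s t : ℝ} {J : Matrix (Fin n) (Fin n) ℝ} {m m' : Fin n → ℝ}, |β| ≤ 1 →
    ‖J‖ ≤ K → Lip N e 1 1 ((1 - s) • (1 : Matrix (Fin n) (Fin n) ℝ)) ((1 - t) • 1) →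
    Lip N e 1 1 (diagonal m) (diagonal m') →
    Lip N e b d (vMat β s J m) (vMat β t J m') := by
  refine ⟨?b, ?d, fun {n N} hN {e β s t J m m'} hβ hJ hT hM => ?key⟩
  case key =>
    rw [vMat_eq, vMat_eq, mul_smul, mul_smul]
    exact (((lip_time hN hβ hT ((lip_const hN norm_one_le).sub hN ((hM.mul hN hM).avgM hN))).2.1).sub hN
        (lip_time hN hβ hT (lip_const hN hJ)).1).sub hN
      ((lip_time hN hβ hT ((hM.mul hN (lip_const hN norm_qMat_le)).mul hN hM)).2.1.smul hN abs_two.le)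

/-- the constants of `psiMain` and `resDrift` -/
lemma exists_lip_drift (K : ℝ) : ∃ b d : ℝ, ∀ {n : ℕ} {N : Matrix (Fin n) (Fin n) ℝ → ℝ}
    (_ : Sem N) {e β c s t : ℝ} {J A H H' F F' : Matrix (Fin n) (Fin n) ℝ} {m m' : Fin n → ℝ},
    |β| ≤ 1 → |c| ≤ K → ‖J‖ ≤ K → ‖A‖ ≤ K →
    Lip N e 1 1 ((1 - s) • (1 : Matrix (Fin n) (Fin n) ℝ)) ((1 - t) • 1) →
    Lip N e 1 1 (diagonal m) (diagonal m') → Lip N e K 1 H H' → Lip N e K 1 F F' →
    (∃ b₁ d₁, b₁ ≤ b ∧ d₁ ≤ d ∧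
      Lip N e b₁ d₁ (psiMain β s J A m H F) (psiMain β t J A m' H' F')) ∧
    (∃ b₁ d₁, b₁ ≤ b ∧ d₁ ≤ d ∧
      Lip N e b₁ d₁ (diagonal (resDrift β c s A m F)) (diagonal (resDrift β c t A m' F'))) := by
  refine ⟨max ?b ?b', max ?d ?d', fun {n N} hN {e β c s t J A H H' F F' m m'} hβ hc hJ hA hT hM hH hF =>
    ⟨⟨?b, ?d, le_max_left _ _, le_max_left _ _, ?psi⟩,
      ⟨?b', ?d', le_max_right _ _, le_max_right _ _, ?res⟩⟩⟩
  case psi =>
    have hD := lip_dMat hN hM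
    have h1 := lip_const (X := (1 : Matrix (Fin n) (Fin n) ℝ)) (e := e) hN norm_one_le
    have hp := ((h1.add hN (hF.mul hN hD)).mul hN (lip_const hN hA)).mul hN (h1.add hN (hD.mul hN hF))
    have hDp := (hD.mul hN hp).mul hN hD
    have hQ := (hM.mul hN (lip_const hN norm_qMat_le)).mul hN hM
    have hc' := hM.mul hN (((hp.mul hN hD).mul hN (h1.add hN (hD.mul hN hH))).had hN h1)
    rw [← cross_diag, ← cross_diag] at hc'
    have hsh : Lip N e _ _ (shiftExpr β s m ((1 + F * dMat m) * A * (1 + dMat m * F)))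
        (shiftExpr β t m' ((1 + F' * dMat m') * A * (1 + dMat m' * F'))) :=
      ((lip_time hN hβ hT (h1.sub hN ((hM.mul hN hM).avgM hN))).2.2).sub hN
        (lip_time hN hβ hT (hDp.avgM hN)).2.1
    have hsq := (lip_time hN hβ hT (lip_time hN hβ hT
      ((((hD.add hN ((hD.mul hN hH).mul hN hD)).mul hN hDp).avgM hN).mul hN hQ)).2.1).2.1.smul hN
        (show |(4 : ℝ)| ≤ 4 by norm_num)
    rw [psiMain, psiMain, xMain_eq, xMain_eq,
      show (2 * aCoef β s) ^ 2 = 4 * (aCoef β s * aCoef β s) by ring,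
      show (2 * aCoef β t) ^ 2 = 4 * (aCoef β t * aCoef β t) by ring,
      show 2 * (2 * aCoef β s) = 4 * aCoef β s by ring, show 2 * (2 * aCoef β t) = 4 * aCoef β t by ring]
    simp only [mul_smul]
    exact (((h1.add hN (hH.mul hN hD)).mul hN
      ((((((hp.had hN h1).neg hN).add hN
            (((hM.mul hN (hH.had hN hp)).mul hN hM).smul hN (show |(4 : ℝ)| ≤ 4 by norm_num))).sub hN
          hsh).sub hN (lip_const hN hJ)).add hN
        (((lip_time hN hβ hT hQ).2.2.smul hN abs_two.le).add hN hsq)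
        |>.sub hN
        ((lip_time hN hβ hT
          (((hc'.mul hN (lip_const hN norm_qMat_le)).mul hN hM).add hN
            ((hM.mul hN (lip_const hN norm_qMat_le)).mul hN hc'))).2.1.smul hN
          (show |(4 : ℝ)| ≤ 4 by norm_num)))).mul hN
      (h1.add hN (hD.mul hN hH))).add hN hp
  case res =>
    have hD := lip_dMat hN hM
    have h1 := lip_const (X := (1 : Matrix (Fin n) (Fin n) ℝ)) (e := e) hN norm_one_le
    have hp := ((h1.add hN (hF.mul hN hD)).mul hN (lip_const hN hA)).mul hN (h1.add hN (hD.mul hN hF))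
    rw [resDrift_diag, resDrift_diag]
    exact (hM.mul hN (hp.had hN h1)).add hN
      (((((lip_time hN hβ hT (h1.sub hN ((hM.mul hN hM).avgM hN))).2.2).sub hN
        (lip_time hN hβ hT (((hD.mul hN hp).mul hN hD).avgM hN)).2.1).sub hN (h1.smul hN hc)).mul hN hM)

lemma fnrm_diagonal (v : Fin n → ℝ) : fnrm (diagonal v) = nrm v := by
  rw [OpNorm.fnrm_eq, OpNorm.fsq_diagonal]; rfl

lemma nrm_le_sqrt_mul_norm (v : Fin n → ℝ) : nrm v ≤ Real.sqrt n * ‖diagonal v‖ := by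
  rw [← fnrm_diagonal, OpNorm.fnrm_eq, ← Real.sqrt_sq (norm_nonneg (diagonal v)),
    ← Real.sqrt_mul (Nat.cast_nonneg n)]
  exact Real.sqrt_le_sqrt ((OpNorm.opLe_iff_norm_le.2 le_rfl).fsq_le.trans_eq (by simp))

/-! ### `hMat` -/

/-- `(1 + D V)⁻¹ = 1 + D H`, `H = -V + V K⁻¹ V` and `H + V + H D V = 0` -/
lemma hMat_facts {η : ℝ} (hη : 0 < η) (hm : ∀ i, |m i| < 1)
    (hK : ∀ v : Fin n → ℝ, η * ∑ i, v i ^ 2 ≤ v ⬝ᵥ kHat β s J m *ᵥ v) :
    IsUnit (1 + dMat m * vMat β s J m).det ∧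
      (1 + dMat m * vMat β s J m)⁻¹ = 1 + dMat m * hMat β s J m ∧
      hMat β s J m = -vMat β s J m + vMat β s J m * (kHat β s J m)⁻¹ * vMat β s J m ∧
      hMat β s J m + vMat β s J m + hMat β s J m * dMat m * vMat β s J m = 0 := by
  have hpos : ∀ i, 0 < 1 - m i ^ 2 := fun i => by
    nlinarith [abs_lt.1 (hm i)]
  have hKu := OpNorm.isUnit_det_of_coercive hη hK
  have e1 : dMat m * diagonal (fun i => 1 / (1 - m i ^ 2)) = 1 := by
    rw [dMat, Matrix.diagonal_mul_diagonal, ← Matrix.diagonal_one]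
    exact congrArg diagonal (funext fun i => mul_one_div_cancel (hpos i).ne')
  have e2 : 1 + dMat m * vMat β s J m = dMat m * kHat β s J m := by rw [kHat, Matrix.mul_add, e1]
  have hDu : IsUnit (dMat m).det := by
    rw [dMat, Matrix.det_diagonal, isUnit_iff_ne_zero]
    exact Finset.prod_ne_zero_iff.2 fun i _ => (hpos i).ne'
  have hu : IsUnit (1 + dMat m * vMat β s J m).det := by
    rw [e2, Matrix.det_mul]; exact hDu.mul hKu
  set V := vMat β s J m
  set W := (1 + dMat m * V)⁻¹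
  have hW : W = 1 - (kHat β s J m)⁻¹ * V := by
    refine Matrix.inv_eq_right_inv ?_
    rw [Matrix.mul_sub, Matrix.mul_one, ← Matrix.mul_assoc]
    conv_lhs => arg 2; rw [e2, Matrix.mul_assoc (dMat m), Matrix.mul_nonsing_inv _ hKu, Matrix.mul_one]
    simp
  have hH : hMat β s J m = -(V * W) := rfl
  have hr : (1 + dMat m * V) * W = 1 := Matrix.mul_nonsing_inv _ hu
  have hl : W * (1 + dMat m * V) = 1 := Matrix.nonsing_inv_mul _ hu
  refine ⟨hu, ?_, ?_, ?_⟩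
  · rw [hH]
    calc W = (1 + dMat m * V) * W - dMat m * V * W := by noncomm_ring
      _ = 1 + dMat m * -(V * W) := by rw [hr]; noncomm_ring
  · rw [hH, hW]; noncomm_ring
  · rw [hH]
    calc -(V * W) + V + -(V * W) * dMat m * V = V - V * (W * (1 + dMat m * V)) := by noncomm_ring
      _ = 0 := by rw [hl, Matrix.mul_one, sub_self]

/-- bound on `hMat` and its modulus, at two points with `kHat ≥ η` -/
lemma exists_lip_hMat (K η : ℝ) (hη : 0 < η) : ∃ b d : ℝ, ∀ {n : ℕ} {N : Matrix (Fin n) (Fin n) ℝ → ℝ}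
    (_ : Sem N) {e β s t : ℝ} {J : Matrix (Fin n) (Fin n) ℝ} {m m' : Fin n → ℝ}, |β| ≤ 1 → ‖J‖ ≤ K →
    Lip N e 1 1 ((1 - s) • (1 : Matrix (Fin n) (Fin n) ℝ)) ((1 - t) • 1) →
    Lip N e 1 1 (diagonal m) (diagonal m') → (∀ i, |m i| < 1) → (∀ i, |m' i| < 1) →
    (∀ v : Fin n → ℝ, η * ∑ i, v i ^ 2 ≤ v ⬝ᵥ kHat β s J m *ᵥ v) →
    (∀ v : Fin n → ℝ, η * ∑ i, v i ^ 2 ≤ v ⬝ᵥ kHat β t J m' *ᵥ v) →
    Lip N e b d (hMat β s J m) (hMat β t J m') := by
  obtain ⟨b, d, hV⟩ := exists_lip_vMat K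
  set B := b + b * (1 / η) * b
  refine ⟨B, (1 + B * 2) ^ 2 * d + B ^ 2 * 2,
    fun {n N} hN {e β s t J m m'} hβ hJ hT hM hm hm' hK hK' => ?_⟩
  have h1 := hV hN hβ hJ hT hM
  have hD := lip_dMat hN hM
  obtain ⟨-, -, hH, hsum⟩ := hMat_facts hη hm hK
  obtain ⟨-, hW', hH', -⟩ := hMat_facts hη hm' hK'
  have hb : ∀ {V X : Matrix (Fin n) (Fin n) ℝ}, ‖V‖ ≤ b →
      (∀ v : Fin n → ℝ, η * ∑ i, v i ^ 2 ≤ v ⬝ᵥ X *ᵥ v) → ‖-V + V * X⁻¹ * V‖ ≤ B := by
    intro V X h hX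
    have hb0 : 0 ≤ b := (norm_nonneg _).trans h
    have hi : ‖X⁻¹‖ ≤ 1 / η := OpNorm.opLe_iff_norm_le.1 (OpNorm.opLe_inv_of_coercive hη hX)
    refine (norm_add_le _ _).trans (add_le_add (by rwa [norm_neg]) ?_)
    exact (norm_mul_le _ _).trans (mul_le_mul ((norm_mul_le _ _).trans
      (mul_le_mul h hi (norm_nonneg _) hb0)) h (norm_nonneg _) (by positivity))
  have hnH : ‖hMat β s J m‖ ≤ B := hH ▸ hb h1.1 hK
  have hnH' : ‖hMat β t J m'‖ ≤ B := hH' ▸ hb h1.2.1 hK'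
  refine ⟨hnH, hnH', ?_⟩
  have key : hMat β s J m - hMat β t J m' =
      (-1 : ℝ) • ((1 + hMat β s J m * dMat m) * (vMat β s J m - vMat β t J m') *
        (1 + dMat m' * hMat β t J m')) + hMat β s J m * (dMat m - dMat m') * hMat β t J m' := by
    have e2 : vMat β t J m' * (1 + dMat m' * hMat β t J m') = -hMat β t J m' := by
      rw [← hW']; exact (neg_neg _).symm
    have e3 : (1 + hMat β s J m * dMat m) * vMat β s J m = -hMat β s J m := by
      rw [eq_neg_iff_add_eq_zero, ← hsum]; noncomm_ring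
    rw [Matrix.mul_sub, Matrix.sub_mul, e3, Matrix.mul_assoc _ (vMat β t J m'), e2, neg_one_smul]
    noncomm_ring
  have hB : 0 ≤ B := (norm_nonneg _).trans hnH
  have hd0 : N (dMat m - dMat m') ≤ 2 * e := hD.2.2.trans_eq (by norm_num)
  have q1 : ‖1 + hMat β s J m * dMat m‖ ≤ 1 + B * 2 := (norm_add_le _ _).trans
    (add_le_add norm_one_le ((norm_mul_le _ _).trans
      (mul_le_mul hnH (hD.1.trans_eq (by norm_num)) (norm_nonneg _) hB)))
  have q2 : ‖1 + dMat m' * hMat β t J m'‖ ≤ 1 + B * 2 := (norm_add_le _ _).trans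
    (add_le_add norm_one_le ((norm_mul_le _ _).trans
      ((mul_le_mul (hD.2.1.trans_eq (by norm_num)) hnH' (norm_nonneg _) zero_le_two).trans_eq (mul_comm _ _))))
  rw [key]
  refine (hN.add _ _).trans (le_trans (add_le_add (le_of_eq (hN.smul _ _)) le_rfl) ?_)
  rw [abs_neg, abs_one, one_mul (N _)]
  refine (add_le_add
    ((hN.mulRight _ _).trans (mul_le_mul ((hN.mulLeft _ _).trans
      (mul_le_mul q1 h1.2.2 (hN.nonneg _) (by positivity))) q2 (norm_nonneg _)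
      (mul_nonneg (by positivity) ((hN.nonneg _).trans h1.2.2))))
    ((hN.mulRight _ _).trans (mul_le_mul ((hN.mulLeft _ _).trans
      (mul_le_mul hnH hd0 (hN.nonneg _) hB)) hnH' (norm_nonneg _)
      (mul_nonneg hB ((hN.nonneg _).trans hd0))))).trans_eq ?_
  ring

end Vale.Agent.P150.PartB.PsiLip

namespace Vale.Agent.P150.PartB

open PsiLip in
/-- `H` is bounded where the Jacobian is definite; the drifts are Lipschitz in `F` and in time. -/
theorem psiLip : PsiLip := by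
  intro β c Λ η hβ0 hβ1 hΛ hη K₀ hK₀
  obtain ⟨bv, dv, hV⟩ := exists_lip_vMat Λ
  obtain ⟨bh, dh, hH⟩ := exists_lip_hMat Λ (η / 2) (half_pos hη)
  obtain ⟨bp, dp, hP⟩ := exists_lip_drift (max (max K₀ Λ) bh)
  set S := max dh 1
  refine ⟨max (max (max dv bh) (max dp 0 * S)) 1, lt_max_of_lt_right one_pos,
    fun n J B hC s t hs ht m hm hK => ?_⟩
  set K := max (max (max dv bh) (max dp 0 * S)) 1
  have hβ : |β| ≤ 1 := by rw [abs_of_nonneg hβ0]; exact hβ1.le
  have hJ : ‖J‖ ≤ Λ := by linarith [hC.op, abs_nonneg c]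
  have hcΛ : |c| ≤ Λ := by linarith [hC.op, norm_nonneg J]
  have hA : ‖J + c • (1 : Matrix (Fin n) (Fin n) ℝ)‖ ≤ Λ := by
    refine (norm_add_le _ _).trans (le_trans (add_le_add le_rfl ?_) hC.op)
    rw [norm_smul, Real.norm_eq_abs]
    exact (mul_le_mul_of_nonneg_left norm_one_le (abs_nonneg c)).trans_eq (mul_one _)
  have hT : ∀ {N : Matrix (Fin n) (Fin n) ℝ → ℝ} (_ : Sem N) (e : ℝ) {r : ℝ}, r ∈ Set.Icc (0 : ℝ) 1 →
      0 ≤ e → Lip N e 1 1 ((1 - r) • (1 : Matrix (Fin n) (Fin n) ℝ)) ((1 - r) • 1) := by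
    intro N hN e r hr he
    obtain ⟨h1, h2, h3⟩ := lip_const (X := (1 - r) • (1 : Matrix (Fin n) (Fin n) ℝ)) (e := e) (b := 1) hN
      (by rw [norm_smul, Real.norm_eq_abs]
          exact mul_le_one₀ (abs_le.2 ⟨by linarith [hr.2], by linarith [hr.1]⟩) (norm_nonneg _) norm_one_le)
    exact ⟨h1, h2, by rw [zero_mul] at h3; linarith⟩
  have hMop : Lip (fun X : Matrix (Fin n) (Fin n) ℝ => ‖X‖) |s - t| 1 1 (diagonal m) (diagonal m) :=
    lip_diag (fun i => (hm i).le) (fun i => (hm i).le) (by simp)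
  have hTop : Lip (fun X : Matrix (Fin n) (Fin n) ℝ => ‖X‖) |s - t| 1 1
      ((1 - s) • (1 : Matrix (Fin n) (Fin n) ℝ)) ((1 - t) • 1) := by
    refine ⟨(hT sem_norm 0 hs le_rfl).1, (hT sem_norm 0 ht le_rfl).1, ?_⟩
    show ‖_‖ ≤ _
    rw [← sub_smul, norm_smul, Real.norm_eq_abs, one_mul, show 1 - s - (1 - t) = -(s - t) by ring, abs_neg]
    exact mul_le_of_le_one_right (abs_nonneg _) norm_one_le
  have hV' := hV sem_norm hβ hJ hTop hMop
  have hKv : dv ≤ K := ((le_max_left _ _).trans (le_max_left _ _)).trans (le_max_left _ _)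
  have hKh : bh ≤ K := ((le_max_right _ _).trans (le_max_left _ _)).trans (le_max_left _ _)
  have hKp : max dp 0 * S ≤ K := (le_max_right _ _).trans (le_max_left _ _)
  have hS : 1 ≤ S := le_max_right _ _
  have hKd : max dp 0 ≤ K := (le_mul_of_one_le_right (le_max_right _ _) hS).trans hKp
  have part1 : ∀ v : Fin n → ℝ, (η - K * |s - t|) * ∑ i, v i ^ 2 ≤ v ⬝ᵥ kHat β s J m *ᵥ v := by
    refine fun v => OpNorm.coercive_of_sub hK (OpNorm.opLe_iff_norm_le.2 ?_) v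
    rw [kHat, kHat, add_sub_add_left_eq_sub]
    exact hV'.2.2.trans (mul_le_mul_of_nonneg_right hKv (abs_nonneg _))
  have hhalf : ∀ v : Fin n → ℝ, η / 2 * ∑ i, v i ^ 2 ≤ v ⬝ᵥ kHat β t J m *ᵥ v := fun v =>
    (mul_le_mul_of_nonneg_right (half_le_self hη.le) (OpNorm.nsq_nonneg v)).trans (hK v)
  have hHt : ‖hMat β t J m‖ ≤ bh :=
    (hH sem_norm hβ hJ (hT sem_norm 0 ht le_rfl) (lip_diag (fun i => (hm i).le) (fun i => (hm i).le)
      (by simp)) hm hm hhalf hhalf).1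
  have hb1 : ∀ {x}, x ≤ Λ → x ≤ max (max K₀ Λ) bh := fun h =>
    h.trans ((le_max_right _ _).trans (le_max_left _ _))
  refine ⟨part1, ?_, hHt.trans hKh, fun F hF => ?_, fun hst => ?_⟩
  · obtain ⟨hu, hW, -, hsum⟩ := hMat_facts hη hm hK
    have hDK : kHat β t J m * dMat m = 1 + vMat β t J m * dMat m := by
      rw [kHat, Matrix.add_mul, dMat, Matrix.diagonal_mul_diagonal]
      congr 1
      rw [← Matrix.diagonal_one]
      refine congrArg diagonal (funext fun i => one_div_mul_cancel ?_)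
      nlinarith [abs_lt.1 (hm i)]
    have hh : hMat β t J m + vMat β t J m + vMat β t J m * dMat m * hMat β t J m = 0 := by
      have e2 : vMat β t J m * (1 + dMat m * hMat β t J m) = -hMat β t J m := by
        rw [← hW]; exact (neg_neg _).symm
      rw [Matrix.mul_add, Matrix.mul_one, eq_neg_iff_add_eq_zero] at e2
      rw [← e2]; noncomm_ring
    rw [Matrix.mul_add, ← Matrix.mul_assoc, ← Matrix.mul_assoc, hDK]
    calc 1 + vMat β t J m * dMat m + (1 + vMat β t J m * dMat m) * hMat β t J m * dMat m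
        = 1 + (hMat β t J m + vMat β t J m + vMat β t J m * dMat m * hMat β t J m) * dMat m := by
          noncomm_ring
      _ = 1 := by rw [hh, Matrix.zero_mul, add_zero]
  · have go : ∀ {N : Matrix (Fin n) (Fin n) ℝ → ℝ} (_ : Sem N),
        (N (psiMain β t J (J + c • 1) m (hMat β t J m) F -
          psiMain β t J (J + c • 1) m (hMat β t J m) (hMat β t J m)) ≤ K * N (F - hMat β t J m)) ∧
        N (diagonal (resDrift β c t (J + c • 1) m F) -
          diagonal (resDrift β c t (J + c • 1) m (hMat β t J m))) ≤ K * N (F - hMat β t J m) := by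
      intro N hN
      set e := N (F - hMat β t J m)
      have he : 0 ≤ e := hN.nonneg _
      have h0 : ∀ X : Matrix (Fin n) (Fin n) ℝ, N (X - X) ≤ e := fun X => by
        have := hN.smul 0 0
        simp only [smul_zero, abs_zero, zero_mul] at this
        rw [sub_self, this]; exact he
      obtain ⟨⟨_, d₁, -, hd₁, h₁⟩, ⟨_, d₂, -, hd₂, h₂⟩⟩ := hP hN (c := c) hβ (hb1 hcΛ) (hb1 hJ) (hb1 hA)
        (hT hN e ht he) (lip_diag (fun i => (hm i).le) (fun i => (hm i).le) (h0 _))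
        (show Lip N e _ 1 (hMat β t J m) (hMat β t J m) from
          ⟨hHt.trans (le_max_right _ _), hHt.trans (le_max_right _ _), by rw [one_mul]; exact h0 _⟩)
        (show Lip N e _ 1 F (hMat β t J m) from
          ⟨hF.trans ((le_max_left _ _).trans (le_max_left _ _)), hHt.trans (le_max_right _ _),
            (one_mul e).symm.le⟩)
      exact ⟨h₁.2.2.trans (mul_le_mul_of_nonneg_right (hd₁.trans ((le_max_left _ _).trans hKd)) he),
        h₂.2.2.trans (mul_le_mul_of_nonneg_right (hd₂.trans ((le_max_left _ _).trans hKd)) he)⟩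
    refine ⟨(go sem_norm).1, (go sem_fnrm).1, ?_⟩
    rw [← fnrm_diagonal, Pi.sub_def, ← Matrix.diagonal_sub]
    exact (go sem_fnrm).2
  · have hs2 : ∀ v : Fin n → ℝ, η / 2 * ∑ i, v i ^ 2 ≤ v ⬝ᵥ kHat β s J m *ᵥ v := fun v =>
      (mul_le_mul_of_nonneg_right (by linarith) (OpNorm.nsq_nonneg v)).trans (part1 v)
    obtain ⟨hb, hb', hd⟩ := hH sem_norm hβ hJ hTop hMop hm hm hs2 hhalf
    have hSe : |s - t| ≤ S * |s - t| := le_mul_of_one_le_left (abs_nonneg _) hS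
    have hH2 : Lip (fun X : Matrix (Fin n) (Fin n) ℝ => ‖X‖) (S * |s - t|) (max (max K₀ Λ) bh) 1
        (hMat β s J m) (hMat β t J m) :=
      ⟨hb.trans (le_max_right _ _), hb'.trans (le_max_right _ _), by
        rw [one_mul]; exact hd.trans (mul_le_mul_of_nonneg_right (le_max_left _ _) (abs_nonneg _))⟩
    obtain ⟨⟨_, d₁, -, hd₁, h₁⟩, ⟨_, d₂, -, hd₂, h₂⟩⟩ := hP sem_norm (c := c) hβ (hb1 hcΛ) (hb1 hJ)
      (hb1 hA) (show Lip (fun X : Matrix (Fin n) (Fin n) ℝ => ‖X‖) (S * |s - t|) 1 1 _ _ from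
        ⟨hTop.1, hTop.2.1, hTop.2.2.trans (by linarith)⟩)
      (lip_diag (fun i => (hm i).le) (fun i => (hm i).le) (hMop.2.2.trans (by linarith))) hH2 hH2
    have fin : ∀ {x d : ℝ}, x ≤ d * (S * |s - t|) → d ≤ dp → x ≤ K * |s - t| := fun {x d} hx hd => by
      refine (hx.trans ?_).trans (mul_le_mul_of_nonneg_right hKp (abs_nonneg _))
      rw [← mul_assoc]
      exact mul_le_mul_of_nonneg_right (mul_le_mul_of_nonneg_right (hd.trans (le_max_left _ _))
        (zero_le_one.trans hS)) (abs_nonneg _)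
    refine ⟨fin h₁.2.2 hd₁, (nrm_le_sqrt_mul_norm _).trans ?_⟩
    rw [mul_comm (K * |s - t|)]
    refine mul_le_mul_of_nonneg_left ?_ (Real.sqrt_nonneg _)
    rw [Pi.sub_def, ← Matrix.diagonal_sub]
    exact fin h₂.2.2 hd₂

end Vale.Agent.P150.PartB
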