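import Vale.Agent.P150.Fast.PartB.Drift

/-!
# P150, Part B: second-order expansions of the inverse TAP Jacobian and of the TAP residual
-/

open Matrix Vale.Agent.P150.Fast
open scoped Matrix.Norms.L2Operator

namespace Vale.Agent.P150.PartB

namespace Expand

variable {n : ℕ}

/-- the size of the third order -/
def cube (h δ : ℝ) : ℝ := δ ^ 3 + h * δ + h ^ 2

lemma cube_nonneg {h δ : ℝ} (hh : 0 ≤ h) (hδ : 0 ≤ δ) : 0 ≤ cube h δ := by unfold cube; positivity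

/-- the denominators stay away from zero -/
lemma den_bound {x e l : ℝ} (hx : |x| ≤ 1) (hl : l ≤ 1) (hu : l ≤ 1 - x ^ 2) (he : 6 * |e| ≤ l) :
    |2 * x * e + e ^ 2| ≤ 3 * |e| ∧ l / 2 ≤ 1 - (x + e) ^ 2 ∧
      1 - (x + e) ^ 2 = (1 - x ^ 2) - (2 * x * e + e ^ 2) := by
  have h1 : |2 * x * e + e ^ 2| ≤ 3 * |e| := by
    rw [show 2 * x * e + e ^ 2 = e * (2 * x + e) by ring, abs_mul, mul_comm 3]
    refine mul_le_mul_of_nonneg_left ((abs_add_le _ _).trans ?_) (abs_nonneg e)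
    rw [abs_mul, abs_two]
    linarith
  refine ⟨h1, ?_, by ring⟩
  rw [show 1 - (x + e) ^ 2 = (1 - x ^ 2) - (2 * x * e + e ^ 2) by ring]
  linarith [(abs_le.1 h1).2]

/-- third order remainder of `1/(1-x²)` -/
lemma inv_taylor {x e l : ℝ} (hx : |x| ≤ 1) (hl0 : 0 < l) (hl : l ≤ 1) (hu : l ≤ 1 - x ^ 2)
    (he : 6 * |e| ≤ l) :
    |1 / (1 - (x + e) ^ 2) - 1 / (1 - x ^ 2) - 2 * x / (1 - x ^ 2) ^ 2 * e
        - (1 / (1 - x ^ 2) ^ 2 + 4 * x ^ 2 / (1 - x ^ 2) ^ 3) * (e * e)| ≤ 59 * |e| ^ 3 / l ^ 4 := by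
  obtain ⟨hs, hden, hsplit⟩ := den_bound hx hl hu he
  have he1 : |e| ≤ 1 := by linarith
  rw [hsplit] at hden ⊢
  set u := 1 - x ^ 2
  set s := 2 * x * e + e ^ 2 with hs'
  have hu0 : 0 < u := hl0.trans_le hu
  have hd0 : 0 < u - s := (half_pos hl0).trans_le hden
  have key : 1 / (u - s) - 1 / u - 2 * x / u ^ 2 * e - (1 / u ^ 2 + 4 * x ^ 2 / u ^ 3) * (e * e) =
      (4 * x * e ^ 3 + e ^ 4) / u ^ 3 + s ^ 3 / (u ^ 3 * (u - s)) := by
    have g : 1 / (u - s) = 1 / u + s / u ^ 2 + s ^ 2 / u ^ 3 + s ^ 3 / (u ^ 3 * (u - s)) := by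
      field_simp
      ring
    rw [g, hs']
    ring
  rw [key]
  refine (abs_add_le _ _).trans ?_
  have h1 : |(4 * x * e ^ 3 + e ^ 4) / u ^ 3| ≤ 5 * |e| ^ 3 / l ^ 4 := by
    rw [abs_div, abs_of_pos (pow_pos hu0 3)]
    refine (div_le_div₀ (by positivity) ?_ (pow_pos hl0 3) (pow_le_pow_left₀ hl0.le hu 3)).trans
      (div_le_div_of_nonneg_left (by positivity) (by positivity) ?_)
    · rw [show 4 * x * e ^ 3 + e ^ 4 = e ^ 3 * (4 * x + e) by ring, abs_mul, abs_pow, mul_comm 5]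
      refine mul_le_mul_of_nonneg_left ((abs_add_le _ _).trans ?_) (by positivity)
      rw [abs_mul, abs_of_nonneg (by norm_num : (0 : ℝ) ≤ 4)]
      linarith
    · exact pow_le_pow_of_le_one hl0.le hl (by norm_num)
  have h2 : |s ^ 3 / (u ^ 3 * (u - s))| ≤ 54 * |e| ^ 3 / l ^ 4 := by
    rw [abs_div, abs_of_pos (mul_pos (pow_pos hu0 3) hd0), abs_pow]
    refine (div_le_div₀ (by positivity) (pow_le_pow_left₀ (abs_nonneg s) hs 3) (by positivity)
      (mul_le_mul (pow_le_pow_left₀ hl0.le hu 3) hden (by positivity) (by positivity))).trans (le_of_eq ?_)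
    field_simp
    ring
  exact (add_le_add h1 h2).trans_eq (by ring)

/-- third order remainder of `artanh` -/
lemma artanh_taylor {x e l : ℝ} (hx : |x| ≤ 1) (hl0 : 0 < l) (hl : l ≤ 1) (hu : l ≤ 1 - x ^ 2)
    (he : 6 * |e| ≤ l) :
    |Real.artanh (x + e) - Real.artanh x - e / (1 - x ^ 2) - x * e ^ 2 / (1 - x ^ 2) ^ 2| ≤
      19 * |e| ^ 3 / l ^ 4 := by
  set u := 1 - x ^ 2 with hu'
  have hu0 : 0 < u := hl0.trans_le hu
  have hd : ∀ s ∈ Metric.closedBall (0 : ℝ) |e|, HasDerivWithinAt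
      (fun s => Real.artanh (x + s) - s / u - x * s ^ 2 / u ^ 2)
      (1 / (1 - (x + s) ^ 2) - 1 / u - x * (2 * s) / u ^ 2) (Metric.closedBall (0 : ℝ) |e|) s := fun s hs => by
    rw [Metric.mem_closedBall, Real.dist_eq, sub_zero] at hs
    obtain ⟨-, hden, -⟩ := den_bound hx hl hu (e := s) (by linarith)
    have hin : |x + s| < 1 := (sq_lt_one_iff_abs_lt_one _).1 (by linarith)
    have h1 := (hasDerivAt_artanh hin).comp s ((hasDerivAt_id s).const_add x)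
    refine (((h1.sub ((hasDerivAt_id s).div_const u)).sub
      ((((hasDerivAt_id s).pow 2).const_mul x).div_const (u ^ 2))).congr_deriv ?_).hasDerivWithinAt
    simp
  have hbd : ∀ s ∈ Metric.closedBall (0 : ℝ) |e|,
      ‖1 / (1 - (x + s) ^ 2) - 1 / u - x * (2 * s) / u ^ 2‖ ≤ 19 * |e| ^ 2 / l ^ 4 := fun s hs => by
    rw [Metric.mem_closedBall, Real.dist_eq, sub_zero] at hs
    obtain ⟨hb, hden, hsplit⟩ := den_bound hx hl hu (e := s) (by linarith)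
    rw [hsplit, ← hu'] at hden ⊢
    set q := 2 * x * s + s ^ 2 with hq
    have hd0 : 0 < u - q := (half_pos hl0).trans_le hden
    have key : 1 / (u - q) - 1 / u - x * (2 * s) / u ^ 2 = s ^ 2 / u ^ 2 + q ^ 2 / (u ^ 2 * (u - q)) := by
      have g : 1 / (u - q) = 1 / u + q / u ^ 2 + q ^ 2 / (u ^ 2 * (u - q)) := by
        field_simp
        ring
      rw [g, hq]
      ring
    rw [key, Real.norm_eq_abs, abs_of_nonneg (by positivity)]
    have hs2 : s ^ 2 ≤ |e| ^ 2 := by rw [← sq_abs s]; exact pow_le_pow_left₀ (abs_nonneg s) hs 2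
    have h1 : s ^ 2 / u ^ 2 ≤ |e| ^ 2 / l ^ 4 :=
      div_le_div₀ (by positivity) hs2 (by positivity)
        ((pow_le_pow_of_le_one hl0.le hl (by norm_num)).trans (pow_le_pow_left₀ hl0.le hu 2))
    have h2 : q ^ 2 / (u ^ 2 * (u - q)) ≤ 18 * |e| ^ 2 / l ^ 4 := by
      refine (div_le_div₀ (a := q ^ 2) (c := 9 * |e| ^ 2) (d := l ^ 2 * (l / 2)) (by positivity) ?_ (by positivity)
        (mul_le_mul (pow_le_pow_left₀ hl0.le hu 2) hden (by positivity) (by positivity))).trans ?_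
      · rw [← sq_abs q, show 9 * |e| ^ 2 = (3 * |e|) ^ 2 by ring]
        exact pow_le_pow_left₀ (abs_nonneg q) (by linarith) 2
      · rw [show 9 * |e| ^ 2 / (l ^ 2 * (l / 2)) = 18 * |e| ^ 2 / l ^ 3 by field_simp; ring]
        exact div_le_div_of_nonneg_left (by positivity) (by positivity) (pow_le_pow_of_le_one hl0.le hl (by norm_num))
    exact (add_le_add h1 h2).trans_eq (by ring)
  have key := (convex_closedBall (0 : ℝ) |e|).norm_image_sub_le_of_norm_hasDerivWithin_le hd hbd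
    (Metric.mem_closedBall_self (abs_nonneg e))
    (by rw [Metric.mem_closedBall, Real.dist_eq, sub_zero] : e ∈ Metric.closedBall (0 : ℝ) |e|)
  simp only [Real.norm_eq_abs, sub_zero, add_zero, zero_div, zero_pow two_ne_zero, mul_zero] at key
  refine le_trans (le_of_eq ?_) (key.trans_eq (by ring))
  congr 1
  ring

/-- what the bounds use about one point and one displacement -/
structure Step (β Λ t h : ℝ) (J : Matrix (Fin n) (Fin n) ℝ) (m d : Fin n → ℝ) (l : ℝ) : Prop where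
  lpos : 0 < l
  lle : l ≤ 1
  cube_le : ∀ i, |m i| < 1
  gap : ∀ i, l ≤ 1 - m i ^ 2
  hh : 0 ≤ h
  small : 6 * (h + nrm d) ≤ l
  ha : |aCoef β t| ≤ 1
  ha' : |aCoef' β t| ≤ 2
  hb : |β ^ 2| ≤ 1
  op : ‖J‖ ≤ Λ

variable {β Λ t h l : ℝ} {J : Matrix (Fin n) (Fin n) ℝ} {m d : Fin n → ℝ}

lemma Step.make {η₁ : ℝ} (hβ0 : 0 ≤ β) (hβ1 : β < 1) (ht : 0 ≤ t) (hh : 0 ≤ h) (hth : t + h ≤ 1)
    (hl0 : 0 < l) (hl : l ≤ 1) (hm : ∀ i, |m i| < 1) (hg : ∀ i, l ≤ 1 - m i ^ 2) (hJ : ‖J‖ ≤ Λ)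
    (hη₁ : 6 ≤ η₁) (hK : η₁ * (n + 1 : ℝ) ^ 4 * (h + nrm d) ≤ l ^ 4) :
    Step β Λ t h J m d l ∧ η₁ * (h + nrm d) ≤ l ^ 4 := by
  have hb : |β| ≤ 1 := by rw [abs_of_nonneg hβ0]; exact hβ1.le
  obtain ⟨-, ha, ha'⟩ := PsiLip.coef_bounds (β := β) (s := t) hb ⟨ht, by linarith⟩
  have hε : 0 ≤ h + nrm d := add_nonneg hh (nrm_nonneg d)
  have h2 : η₁ * (h + nrm d) ≤ l ^ 4 := by
    refine le_trans (mul_le_mul_of_nonneg_right (le_mul_of_one_le_right (by linarith) ?_) hε) hK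
    exact one_le_pow₀ (by linarith [Nat.cast_nonneg (α := ℝ) n])
  refine ⟨⟨hl0, hl, hm, hg, hh, ?_, ha, ha', ?_, hJ⟩, h2⟩
  · calc 6 * (h + nrm d) ≤ η₁ * (h + nrm d) := mul_le_mul_of_nonneg_right hη₁ hε
      _ ≤ l ^ 4 := h2
      _ ≤ l := pow_le_of_le_one hl0.le hl (by norm_num)
  · rw [abs_pow]; exact pow_le_one₀ (abs_nonneg β) hb

lemma Step.coord (hS : Step β Λ t h J m d l) (i : Fin n) : 6 * |d i| ≤ l ∧ |m i + d i| < 1 := by
  have h1 : 6 * |d i| ≤ l := le_trans (by linarith [Drift.abs_le_nrm d i, hS.hh]) hS.small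
  refine ⟨h1, (sq_lt_one_iff_abs_lt_one _).1 ?_⟩
  linarith [(den_bound (hS.cube_le i).le hS.lle (hS.gap i) h1).2.1, hS.lpos]

lemma Step.le_one (hS : Step β Λ t h J m d l) : h ≤ 1 ∧ nrm d ≤ 1 := by
  have := nrm_nonneg d; have := hS.hh; have := hS.small; have := hS.lle
  constructor <;> linarith

lemma Step.coef (hS : Step β Λ t h J m d l) :
    |aCoef' β t * h + β ^ 2 * h ^ 2| ≤ 3 * h ∧ |β ^ 2 * h ^ 2| ≤ h ^ 2 := by
  have h1 : |β ^ 2 * h ^ 2| ≤ h ^ 2 := by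
    rw [abs_mul, abs_of_nonneg (sq_nonneg h)]
    exact mul_le_of_le_one_left (sq_nonneg h) hS.hb
  refine ⟨(abs_add_le _ _).trans ?_, h1⟩
  rw [abs_mul, abs_of_nonneg hS.hh]
  have h2 : h ^ 2 ≤ h := pow_le_of_le_one hS.hh hS.le_one.1 two_ne_zero
  linarith [mul_le_mul_of_nonneg_right hS.ha' hS.hh]

lemma nrm_m_le (hm : ∀ i, |m i| < 1) : nrm m ≤ Real.sqrt n :=
  Real.sqrt_le_sqrt ((Finset.sum_le_sum fun i _ => (sq_le_one_iff_abs_le_one _).2 (hm i).le).trans (by simp))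

lemma qv_mem (hm : ∀ i, |m i| < 1) : |1 - qv m| ≤ 1 := by
  have h1 : 0 ≤ qv m := div_nonneg (Finset.sum_nonneg fun i _ => sq_nonneg _) (Nat.cast_nonneg n)
  have h2 : qv m ≤ 1 := div_le_one_of_le₀
    ((Finset.sum_le_sum fun i _ => (sq_le_one_iff_abs_le_one _).2 (hm i).le).trans (by simp))
    (Nat.cast_nonneg n)
  exact abs_le.2 ⟨by linarith, by linarith⟩

lemma sqrt_div_le : Real.sqrt n / n ≤ 1 := by
  rcases Nat.eq_zero_or_pos n with rfl | hn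
  · simp
  have h1 : (1 : ℝ) ≤ Real.sqrt n := Real.one_le_sqrt.2 (by exact_mod_cast hn)
  rw [div_le_one (Nat.cast_pos.2 hn)]
  calc Real.sqrt n ≤ Real.sqrt n * Real.sqrt n := le_mul_of_one_le_right (Real.sqrt_nonneg _) h1
    _ = n := Real.mul_self_sqrt (Nat.cast_nonneg n)

lemma div_n_mul_le {a : ℝ} (ha : 0 ≤ a) : a / (n : ℝ) * n ≤ a := by
  rcases Nat.eq_zero_or_pos n with rfl | hn
  · simpa using ha
  · exact (div_mul_cancel₀ a (Nat.cast_pos.2 hn).ne').le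

lemma inv_n_le : 1 / (n : ℝ) ≤ 1 := by
  rcases Nat.eq_zero_or_pos n with rfl | hn
  · simp
  · rw [div_le_one (Nat.cast_pos.2 hn)]; exact_mod_cast hn

lemma sq_d (d : Fin n → ℝ) : d ⬝ᵥ d = nrm d ^ 2 := by
  rw [nrm, Real.sq_sqrt (Finset.sum_nonneg fun i _ => sq_nonneg _)]
  exact Finset.sum_congr rfl fun i _ => by ring

/-- the increment of the overlap -/
lemma overlap_le (hm : nrm m ≤ Real.sqrt n) (hd : nrm d ≤ 1) :
    |m ⬝ᵥ d| / n ≤ nrm d ∧ nrm m * nrm d / n ≤ nrm d ∧ nrm d ^ 2 / n ≤ nrm d := by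
  have h0 := nrm_nonneg d
  have h2 : nrm m * nrm d / n ≤ nrm d := by
    calc nrm m * nrm d / n ≤ Real.sqrt n * nrm d / n := by gcongr
      _ = Real.sqrt n / n * nrm d := by ring
      _ ≤ _ := mul_le_of_le_one_left h0 sqrt_div_le
  refine ⟨le_trans (div_le_div_of_nonneg_right (Drift.abs_dot_le_nrm le_rfl le_rfl) (Nat.cast_nonneg n)) h2, h2, ?_⟩
  calc nrm d ^ 2 / n = nrm d ^ 2 * (1 / n) := by ring
    _ ≤ nrm d ^ 2 := mul_le_of_le_one_right (sq_nonneg _) inv_n_le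
    _ ≤ _ := pow_le_of_le_one h0 hd two_ne_zero

lemma norm_smul_one_le {r b : ℝ} (hr : |r| ≤ b) : ‖r • (1 : Matrix (Fin n) (Fin n) ℝ)‖ ≤ b := by
  rw [norm_smul, Real.norm_eq_abs]
  exact (mul_le_of_le_one_right (abs_nonneg r) PsiLip.norm_one_le).trans hr

lemma norm_smul_vec_le {r b : ℝ} {u v : Fin n → ℝ} (h : |r| * (nrm u * nrm v) ≤ b) :
    ‖r • vecMulVec u v‖ ≤ b := by
  rw [norm_smul, Real.norm_eq_abs]
  exact (mul_le_mul_of_nonneg_left (Drift.norm_vecMulVec_le u v) (abs_nonneg r)).trans h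

lemma abs_two_div (a : ℝ) : |2 * a / (n : ℝ)| = 2 * |a| / n := by
  rw [abs_div, abs_mul, abs_two, Nat.abs_cast]

lemma Step.norm_tMat (hS : Step β Λ t h J m d l) : ‖Drift.tMat β t J m‖ ≤ Λ + 6 := by
  have h1 : |aCoef' β t * (1 - qv m)| ≤ 2 := by
    rw [abs_mul]
    exact (mul_le_mul hS.ha' (qv_mem hS.cube_le) (abs_nonneg _) two_pos.le).trans_eq (mul_one 2)
  have h2 : |2 * aCoef' β t / (n : ℝ)| * (nrm m * nrm m) ≤ 4 := by
    rw [abs_two_div]
    calc 2 * |aCoef' β t| / n * (nrm m * nrm m) ≤ 4 / n * (Real.sqrt n * Real.sqrt n) := by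
          have hn := nrm_m_le hS.cube_le
          have := nrm_nonneg m
          gcongr
          linarith [hS.ha']
      _ = 4 / n * n := by rw [Real.mul_self_sqrt (Nat.cast_nonneg n)]
      _ ≤ 4 := div_n_mul_le (by norm_num)
  refine (norm_sub_le _ _).trans ((add_le_add ((norm_add_le _ _).trans
    (add_le_add (norm_smul_one_le h1) hS.op)) (norm_smul_vec_le h2)).trans_eq (by ring))

lemma Step.norm_lMat (hS : Step β Λ t h J m d l) : ‖Drift.lMat β t m d‖ ≤ 8 * nrm d / l ^ 2 := by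
  have hl := hS.lpos
  have h0 := nrm_nonneg d
  have hdiag : ‖diagonal (fun j => Drift.cvec m j * d j)‖ ≤ 2 * nrm d / l ^ 2 :=
    Drift.norm_diag_le (by positivity) fun j => by
      rw [abs_mul, Drift.cvec, abs_div, abs_mul, abs_two, abs_pow,
        abs_of_pos (hl.trans_le (hS.gap j)), div_mul_eq_mul_div]
      refine div_le_div₀ (by positivity) (mul_le_mul (mul_le_of_le_one_right two_pos.le (hS.cube_le j).le)
        (Drift.abs_le_nrm d j) (abs_nonneg _) two_pos.le) (by positivity) (pow_le_pow_left₀ hl.le (hS.gap j) 2)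
  obtain ⟨o1, o2, -⟩ := overlap_le (nrm_m_le hS.cube_le) hS.le_one.2
  have hk : |2 * aCoef β t / (n : ℝ)| ≤ 2 / n := by
    rw [abs_two_div]
    exact div_le_div_of_nonneg_right (mul_le_of_le_one_right two_pos.le hS.ha) (Nat.cast_nonneg n)
  have hv : ∀ u v : Fin n → ℝ, nrm u * nrm v = nrm m * nrm d → ‖vecMulVec u v‖ ≤ nrm m * nrm d :=
    fun u v e => (Drift.norm_vecMulVec_le u v).trans_eq e
  refine (norm_sub_le _ _).trans ((add_le_add hdiag (le_trans ?_ (le_refl (6 * nrm d)))).trans ?_)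
  · rw [norm_smul, Real.norm_eq_abs]
    refine (mul_le_mul hk ((norm_add_le _ _).trans (add_le_add ((norm_add_le _ _).trans
      (add_le_add (norm_smul_one_le le_rfl) (hv m d rfl))) (hv d m (mul_comm _ _)))) (norm_nonneg _)
      (by positivity)).trans ?_
    calc 2 / (n : ℝ) * (|m ⬝ᵥ d| + nrm m * nrm d + nrm m * nrm d)
        = 2 * (|m ⬝ᵥ d| / n) + 4 * (nrm m * nrm d / n) := by ring
      _ ≤ _ := by linarith
  · have h3 : 6 * nrm d ≤ 6 * nrm d / l ^ 2 := le_div_self (by positivity) (by positivity)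
      (pow_le_one₀ hl.le hS.lle)
    linarith [show 2 * nrm d / l ^ 2 + 6 * nrm d / l ^ 2 = 8 * nrm d / l ^ 2 by ring]

lemma Step.norm_qLin (hS : Step β Λ t h J m d l) :
    ‖Drift.qLin β t m (vecMulVec d d)‖ ≤ 8 * nrm d ^ 2 / l ^ 3 := by
  have hl := hS.lpos
  have hdiag : ‖diagonal (fun j => (1 / (1 - m j ^ 2) ^ 2 + 4 * m j ^ 2 / (1 - m j ^ 2) ^ 3) *
      vecMulVec d d j j)‖ ≤ 5 * nrm d ^ 2 / l ^ 3 := Drift.norm_diag_le (by positivity) fun j => by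
    have hu := hl.trans_le (hS.gap j)
    have hdd : d j * d j ≤ nrm d ^ 2 := by
      rw [← sq, ← sq_abs (d j)]
      exact pow_le_pow_left₀ (abs_nonneg _) (Drift.abs_le_nrm d j) 2
    have h1 : 1 / (1 - m j ^ 2) ^ 2 ≤ 1 / l ^ 3 := div_le_div₀ zero_le_one le_rfl (by positivity)
      ((pow_le_pow_of_le_one hl.le hS.lle (by norm_num)).trans (pow_le_pow_left₀ hl.le (hS.gap j) 2))
    have h2 : 4 * m j ^ 2 / (1 - m j ^ 2) ^ 3 ≤ 4 / l ^ 3 := div_le_div₀ (by norm_num)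
      (mul_le_of_le_one_right (by norm_num) ((sq_le_one_iff_abs_le_one _).2 (hS.cube_le j).le))
      (by positivity) (pow_le_pow_left₀ hl.le (hS.gap j) 3)
    rw [vecMulVec_apply, abs_mul, abs_mul_self, abs_of_nonneg (by positivity)]
    exact (mul_le_mul ((add_le_add h1 h2).trans_eq (by ring)) hdd (mul_self_nonneg _) (by positivity)).trans_eq
      (by rw [mul_comm]; ring : 5 / l ^ 3 * nrm d ^ 2 = 5 * nrm d ^ 2 / l ^ 3)
  have htr : |aCoef β t * trace (vecMulVec d d) / (n : ℝ)| ≤ nrm d ^ 2 := by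
    rw [trace_vecMulVec, sq_d, abs_div, Nat.abs_cast, abs_mul, abs_of_nonneg (sq_nonneg (nrm d))]
    calc |aCoef β t| * nrm d ^ 2 / n = |aCoef β t| * (1 / n) * nrm d ^ 2 := by ring
      _ ≤ _ := mul_le_of_le_one_left (sq_nonneg _) (mul_le_one₀ hS.ha (by positivity) inv_n_le)
  have hvv : |2 * aCoef β t / (n : ℝ)| * (nrm d * nrm d) ≤ 2 * nrm d ^ 2 := by
    rw [abs_two_div]
    calc 2 * |aCoef β t| / n * (nrm d * nrm d) = |aCoef β t| * (1 / n) * (2 * nrm d ^ 2) := by ring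
      _ ≤ _ := mul_le_of_le_one_left (by positivity) (mul_le_one₀ hS.ha (by positivity) inv_n_le)
  refine (norm_sub_le _ _).trans ((add_le_add ((norm_sub_le _ _).trans
    (add_le_add hdiag (norm_smul_one_le htr))) (norm_smul_vec_le hvv)).trans ?_)
  have h3 : 3 * nrm d ^ 2 ≤ 3 * nrm d ^ 2 / l ^ 3 := le_div_self (by positivity) (by positivity)
    (pow_le_one₀ hl.le hS.lle)
  linarith [show 5 * nrm d ^ 2 / l ^ 3 + 3 * nrm d ^ 2 / l ^ 3 = 8 * nrm d ^ 2 / l ^ 3 by ring]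

/-- the third order part of the variation of the Jacobian -/
noncomputable def rho (β t h : ℝ) (J : Matrix (Fin n) (Fin n) ℝ) (m d : Fin n → ℝ) :
    Matrix (Fin n) (Fin n) ℝ :=
  kHat β (t + h) J (m + d) - kHat β t J m
    - (h • Drift.tMat β t J m + Drift.lMat β t m d + Drift.qLin β t m (vecMulVec d d))

lemma qv_add (m d : Fin n → ℝ) : qv (m + d) = qv m + (2 * (m ⬝ᵥ d) + d ⬝ᵥ d) / n := by
  rw [qv, qv, dotProduct, dotProduct, Finset.mul_sum, ← Finset.sum_add_distrib, ← add_div,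
    ← Finset.sum_add_distrib]
  refine congrArg (· / (n : ℝ)) (Finset.sum_congr rfl fun i _ => ?_)
  rw [Pi.add_apply]
  ring

lemma aCoef_add (β t h : ℝ) : aCoef β (t + h) = aCoef β t + (aCoef' β t * h + β ^ 2 * h ^ 2) := by
  simp only [aCoef, aCoef']; ring

lemma rho_eq (β t h : ℝ) (J : Matrix (Fin n) (Fin n) ℝ) (m d : Fin n → ℝ) :
    rho β t h J m d =
      diagonal (fun i => 1 / (1 - (m i + d i) ^ 2) - 1 / (1 - m i ^ 2) - 2 * m i / (1 - m i ^ 2) ^ 2 * d i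
        - (1 / (1 - m i ^ 2) ^ 2 + 4 * m i ^ 2 / (1 - m i ^ 2) ^ 3) * (d i * d i))
      + (β ^ 2 * h ^ 2 * (1 - qv m)
          - (aCoef' β t * h + β ^ 2 * h ^ 2) * ((2 * (m ⬝ᵥ d) + d ⬝ᵥ d) / n)) • (1 : Matrix (Fin n) (Fin n) ℝ)
      - (2 * (β ^ 2 * h ^ 2) / n) • vecMulVec m m
      - (2 * (aCoef' β t * h + β ^ 2 * h ^ 2) / n) • (vecMulVec m d + vecMulVec d m + vecMulVec d d) := by
  ext i j
  have hq := qv_add m d
  rcases eq_or_ne i j with rfl | hij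
  · simp only [rho, kHat, vMat, Drift.tMat, Drift.lMat, Drift.qLin, Drift.cvec, aCoef_add, hq,
      trace_vecMulVec, Matrix.add_apply, Matrix.sub_apply, Matrix.smul_apply, smul_eq_mul,
      Matrix.diagonal_apply_eq, Matrix.one_apply_eq, vecMulVec_apply, Pi.add_apply]
    ring
  · simp only [rho, kHat, vMat, Drift.tMat, Drift.lMat, Drift.qLin, aCoef_add, hq,
      Matrix.add_apply, Matrix.sub_apply, Matrix.smul_apply, smul_eq_mul,
      Matrix.diagonal_apply_ne _ hij, Matrix.one_apply_ne hij, vecMulVec_apply, Pi.add_apply]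
    ring

lemma Step.norm_rho (hS : Step β Λ t h J m d l) :
    ‖rho β t h J m d‖ ≤ 59 * cube h (nrm d) / l ^ 4 := by
  set δ := nrm d
  have hδ : 0 ≤ δ := nrm_nonneg d
  have hl := hS.lpos
  have hh := hS.hh
  obtain ⟨c1, c2⟩ := hS.coef
  have hm := nrm_m_le hS.cube_le
  obtain ⟨o1, o2, o3⟩ := overlap_le hm hS.le_one.2
  have hdiag : ‖diagonal (fun i => 1 / (1 - (m i + d i) ^ 2) - 1 / (1 - m i ^ 2)
      - 2 * m i / (1 - m i ^ 2) ^ 2 * d i
      - (1 / (1 - m i ^ 2) ^ 2 + 4 * m i ^ 2 / (1 - m i ^ 2) ^ 3) * (d i * d i))‖ ≤ 59 * δ ^ 3 / l ^ 4 :=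
    Drift.norm_diag_le (by positivity) fun i =>
      (inv_taylor (hS.cube_le i).le hl hS.lle (hS.gap i) (hS.coord i).1).trans
        (by gcongr; exact Drift.abs_le_nrm d i)
  have hov : |(2 * (m ⬝ᵥ d) + d ⬝ᵥ d) / (n : ℝ)| ≤ 3 * δ := by
    rw [abs_div, Nat.abs_cast, sq_d]
    refine (div_le_div_of_nonneg_right (abs_add_le _ _) (Nat.cast_nonneg n)).trans ?_
    rw [abs_mul, abs_two, abs_of_nonneg (sq_nonneg δ), add_div, mul_div_assoc]
    linarith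
  have hone : |β ^ 2 * h ^ 2 * (1 - qv m)
      - (aCoef' β t * h + β ^ 2 * h ^ 2) * ((2 * (m ⬝ᵥ d) + d ⬝ᵥ d) / n)| ≤ h ^ 2 + 9 * (h * δ) := by
    refine (abs_sub _ _).trans (add_le_add ?_ ?_)
    · rw [abs_mul]
      exact (mul_le_mul c2 (qv_mem hS.cube_le) (abs_nonneg _) (sq_nonneg h)).trans_eq (mul_one _)
    · rw [abs_mul]
      exact (mul_le_mul c1 hov (abs_nonneg _) (by positivity)).trans_eq (by ring)
  have hmm : |2 * (β ^ 2 * h ^ 2) / (n : ℝ)| * (nrm m * nrm m) ≤ 2 * h ^ 2 := by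
    rw [abs_two_div]
    calc 2 * |β ^ 2 * h ^ 2| / n * (nrm m * nrm m) ≤ 2 * h ^ 2 / n * (Real.sqrt n * Real.sqrt n) := by
          have := nrm_nonneg m
          gcongr
      _ = 2 * h ^ 2 / n * n := by rw [Real.mul_self_sqrt (Nat.cast_nonneg n)]
      _ ≤ _ := div_n_mul_le (by positivity)
  have hcross : ‖(2 * (aCoef' β t * h + β ^ 2 * h ^ 2) / (n : ℝ)) •
      (vecMulVec m d + vecMulVec d m + vecMulVec d d)‖ ≤ 18 * (h * δ) := by
    rw [norm_smul, Real.norm_eq_abs, abs_two_div]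
    refine (mul_le_mul (div_le_div_of_nonneg_right (mul_le_mul_of_nonneg_left c1 two_pos.le) (Nat.cast_nonneg n))
      ((norm_add_le _ _).trans (add_le_add ((norm_add_le _ _).trans
        (add_le_add (Drift.norm_vecMulVec_le m d) (Drift.norm_vecMulVec_le d m))) (Drift.norm_vecMulVec_le d d)))
      (norm_nonneg _) (by positivity)).trans ?_
    calc 2 * (3 * h) / (n : ℝ) * (nrm m * δ + δ * nrm m + δ * δ)
        = 6 * h * (2 * (nrm m * δ / n) + δ ^ 2 / n) := by ring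
      _ ≤ 6 * h * (3 * δ) := mul_le_mul_of_nonneg_left (by linarith) (by positivity)
      _ = _ := by ring
  rw [rho_eq]
  refine (norm_sub_le _ _).trans ((add_le_add ((norm_sub_le _ _).trans (add_le_add ((norm_add_le _ _).trans
    (add_le_add hdiag (norm_smul_one_le hone))) (norm_smul_vec_le hmm))) hcross).trans ?_)
  have h3 : 59 * (h * δ + h ^ 2) ≤ 59 * (h * δ + h ^ 2) / l ^ 4 :=
    le_div_self (by positivity) (by positivity) (pow_le_one₀ hl.le hS.lle)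
  have e : 59 * δ ^ 3 / l ^ 4 + 59 * (h * δ + h ^ 2) / l ^ 4 = 59 * cube h δ / l ^ 4 := by
    unfold cube; ring
  nlinarith [mul_nonneg hh hδ]

lemma up_le (hl0 : 0 < l) (hl : l ≤ 1) {k : ℕ} {a : ℝ} (hk : k ≤ 4) (ha : 0 ≤ a) :
    a / l ^ k ≤ a / l ^ 4 :=
  div_le_div_of_nonneg_left ha (by positivity) (pow_le_pow_of_le_one hl0.le hl hk)

lemma Step.norm_smul_tMat (hS : Step β Λ t h J m d l) :
    ‖h • Drift.tMat β t J m‖ ≤ h * (Λ + 6) / l ^ 4 := by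
  have hl := hS.lpos
  have hΛ : 0 ≤ Λ := (norm_nonneg J).trans hS.op
  rw [norm_smul, Real.norm_eq_abs, abs_of_nonneg hS.hh]
  exact (mul_le_mul_of_nonneg_left hS.norm_tMat hS.hh).trans
    (le_div_self (mul_nonneg hS.hh (by linarith)) (pow_pos hl 4) (pow_le_one₀ hl.le hS.lle))

lemma Step.delta_bounds (hS : Step β Λ t h J m d l) :
    ‖Drift.lMat β t m d‖ ≤ (Λ + 130) / l ^ 4 * nrm d ∧
    ‖kHat β (t + h) J (m + d) - kHat β t J m - Drift.lMat β t m d‖ ≤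
      (Λ + 130) / l ^ 4 * (h + nrm d ^ 2) ∧
    ‖kHat β (t + h) J (m + d) - kHat β t J m‖ ≤ (Λ + 130) / l ^ 4 * (h + nrm d) := by
  set δ := nrm d
  have hδ : 0 ≤ δ := nrm_nonneg d
  have hh := hS.hh
  obtain ⟨hh1, hd1⟩ := hS.le_one
  have hl0 := hS.lpos
  have hl := hS.lle
  have hΛ : 0 ≤ Λ := (norm_nonneg J).trans hS.op
  have hl4 : (0 : ℝ) ≤ l ^ 4 := by positivity
  have q1 : δ ^ 3 ≤ δ ^ 2 := pow_le_pow_of_le_one hδ hd1 (by norm_num)
  have q2 : h * δ ≤ h := mul_le_of_le_one_right hh hd1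
  have q3 : h ^ 2 ≤ h := pow_le_of_le_one hh hh1 two_ne_zero
  have q4 : δ ^ 2 ≤ δ := pow_le_of_le_one hδ hd1 two_ne_zero
  have q5 : 0 ≤ Λ * h := mul_nonneg hΛ hh
  have q6 : 0 ≤ Λ * δ ^ 2 := mul_nonneg hΛ (sq_nonneg δ)
  have q7 : 0 ≤ Λ * δ := mul_nonneg hΛ hδ
  have q8 : 0 ≤ δ ^ 2 := sq_nonneg δ
  set T := h • Drift.tMat β t J m
  set L := Drift.lMat β t m d
  set Q := Drift.qLin β t m (vecMulVec d d)
  set ρ := rho β t h J m d
  have e : kHat β (t + h) J (m + d) - kHat β t J m = T + Q + ρ + L := by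
    simp only [T, L, Q, ρ, rho]; abel
  have hL : ‖L‖ ≤ 8 * δ / l ^ 4 := hS.norm_lMat.trans (up_le hl0 hl (by norm_num) (by positivity))
  have hM : ‖T + Q + ρ‖ ≤ h * (Λ + 6) / l ^ 4 + 8 * δ ^ 2 / l ^ 4 + 59 * cube h δ / l ^ 4 :=
    (norm_add_le _ _).trans (add_le_add ((norm_add_le _ _).trans (add_le_add hS.norm_smul_tMat
      (hS.norm_qLin.trans (up_le hl0 hl (by norm_num) (by positivity))))) hS.norm_rho)
  rw [e, add_sub_cancel_right]
  refine ⟨?_, ?_, ?_⟩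
  · refine hL.trans ?_
    rw [div_mul_eq_mul_div]
    exact div_le_div_of_nonneg_right (by linarith) hl4
  · refine hM.trans ?_
    rw [← add_div, ← add_div, div_mul_eq_mul_div]
    refine div_le_div_of_nonneg_right ?_ hl4
    simp only [cube]
    linarith
  · refine ((norm_add_le _ _).trans (add_le_add hM hL)).trans ?_
    rw [← add_div, ← add_div, ← add_div, div_mul_eq_mul_div]
    refine div_le_div_of_nonneg_right ?_ hl4
    simp only [cube]
    linarith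

/-- the third order resolvent identity, in norm -/
lemma resolvent_bound {R R₁ Δ L ρ : Matrix (Fin n) (Fin n) ℝ} {a x y z w : ℝ}
    (h₁ : R₁ = R - R * Δ * R₁) (hR : ‖R‖ ≤ a) (hR₁ : ‖R₁‖ ≤ 2 * a) (hΔ : ‖Δ‖ ≤ x) (hL : ‖L‖ ≤ y)
    (hM : ‖Δ - L‖ ≤ z) (hρ : ‖ρ‖ ≤ w) :
    ‖R₁ - R + R * (Δ - ρ) * R - R * L * R * L * R‖ ≤
      a ^ 2 * w + a ^ 3 * (z * x + y * z) + 2 * a ^ 4 * x ^ 3 := by
  have h₃ : R₁ = R - R * Δ * R + R * Δ * R * Δ * R - R * Δ * R * Δ * R * Δ * R₁ :=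
    calc R₁ = R - R * Δ * R₁ := h₁
      _ = R - R * Δ * (R - R * Δ * R₁) := congrArg (fun Z => R - R * Δ * Z) h₁
      _ = R - R * Δ * (R - R * Δ * (R - R * Δ * R₁)) :=
        congrArg (fun Z => R - R * Δ * (R - R * Δ * Z)) h₁
      _ = _ := by noncomm_ring
  have key : R₁ - R + R * (Δ - ρ) * R - R * L * R * L * R =
      -(R * ρ * R) + (R * (Δ - L) * R * Δ * R + R * L * R * (Δ - L) * R)
        - R * Δ * R * Δ * R * Δ * R₁ := by
    nth_rw 1 [h₃]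
    noncomm_ring
  have ha : 0 ≤ a := (norm_nonneg R).trans hR
  have m3 : ∀ {X : Matrix (Fin n) (Fin n) ℝ} {u : ℝ}, ‖X‖ ≤ u → ‖R * X * R‖ ≤ a * u * a :=
    fun hX => (norm_mul_le _ _).trans (mul_le_mul ((norm_mul_le _ _).trans (mul_le_mul hR hX (norm_nonneg _) ha))
      hR (norm_nonneg _) (mul_nonneg ha ((norm_nonneg _).trans hX)))
  have m5 : ∀ {X Y : Matrix (Fin n) (Fin n) ℝ} {u v : ℝ}, ‖X‖ ≤ u → ‖Y‖ ≤ v →
      ‖R * X * R * Y * R‖ ≤ a * u * a * v * a := fun {X Y u v} hX hY => by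
    have hu : 0 ≤ u := (norm_nonneg X).trans hX
    have hv : 0 ≤ v := (norm_nonneg Y).trans hY
    exact (norm_mul_le _ _).trans (mul_le_mul ((norm_mul_le _ _).trans (mul_le_mul (m3 hX) hY (norm_nonneg _)
      (by positivity))) hR (norm_nonneg _) (by positivity))
  have hx : 0 ≤ x := (norm_nonneg Δ).trans hΔ
  have m7 : ‖R * Δ * R * Δ * R * Δ * R₁‖ ≤ a * x * a * x * a * x * (2 * a) :=
    (norm_mul_le _ _).trans (mul_le_mul ((norm_mul_le _ _).trans (mul_le_mul (m5 hΔ hΔ) hΔ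
      (norm_nonneg _) (by positivity))) hR₁ (norm_nonneg _) (by positivity))
  rw [key]
  exact (norm_sub_le _ _).trans ((add_le_add ((norm_add_le _ _).trans (add_le_add
    ((le_of_eq (norm_neg _)).trans (m3 hρ))
    ((norm_add_le _ _).trans (add_le_add (m5 hM hΔ) (m5 hL hM))))) m7).trans_eq (by ring))

/-- the powers of the sizes are of third order -/
lemma expand_scalar {C η δ : ℝ} (hC : 100 ≤ C) (hη : 0 < η) (hη1 : η ≤ 1) (hl0 : 0 < l) (hl : l ≤ 1)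
    (hh : 0 ≤ h) (hh1 : h ≤ 1) (hδ : 0 ≤ δ) (hd1 : δ ≤ 1) {N : ℝ} (hN : 1 ≤ N) :
    (1 / η) ^ 2 * (59 * cube h δ / l ^ 4) + (1 / η) ^ 3 * (C / l ^ 4 * (h + δ ^ 2) * (C / l ^ 4 * (h + δ))
      + C / l ^ 4 * δ * (C / l ^ 4 * (h + δ ^ 2))) + 2 * (1 / η) ^ 4 * (C / l ^ 4 * (h + δ)) ^ 3 ≤
      20 * C ^ 3 / η ^ 4 * N / l ^ 12 * cube h δ := by
  have a1 : h ^ 3 ≤ h ^ 2 := pow_le_pow_of_le_one hh hh1 (by norm_num)
  have a2 : h ^ 2 * δ ≤ h * δ := mul_le_mul_of_nonneg_right (pow_le_of_le_one hh hh1 two_ne_zero) hδ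
  have a3 : h * δ ^ 2 ≤ h * δ := mul_le_mul_of_nonneg_left (pow_le_of_le_one hδ hd1 two_ne_zero) hh
  have b1 := pow_nonneg hδ 3
  have b2 := sq_nonneg h
  have b3 := mul_nonneg hh hδ
  have hE := cube_nonneg hh hδ
  have h2 : (h + δ ^ 2) * (h + δ) + δ * (h + δ ^ 2) ≤ 3 * cube h δ := by
    simp only [cube]; linarith
  have h3 : (h + δ) ^ 3 ≤ 6 * cube h δ := by
    simp only [cube]; linarith
  have c12 : (1 / η) ^ 4 * C ^ 3 / l ^ 12 * (16 * cube h δ) ≤ 20 * C ^ 3 / η ^ 4 * N / l ^ 12 * cube h δ := by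
    have : 0 ≤ C ^ 3 / η ^ 4 / l ^ 12 * cube h δ := by positivity
    calc (1 / η) ^ 4 * C ^ 3 / l ^ 12 * (16 * cube h δ) = C ^ 3 / η ^ 4 / l ^ 12 * cube h δ * 16 := by ring
      _ ≤ C ^ 3 / η ^ 4 / l ^ 12 * cube h δ * (20 * N) := mul_le_mul_of_nonneg_left (by linarith) this
      _ = _ := by ring
  refine le_trans ?_ c12
  have hη' : 1 ≤ 1 / η := one_le_one_div hη hη1
  have hl' : ∀ {k : ℕ}, k ≤ 12 → 1 / l ^ k ≤ 1 / l ^ 12 := fun hk =>
    div_le_div_of_nonneg_left zero_le_one (by positivity) (pow_le_pow_of_le_one hl0.le hl hk)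
  have e1 : (1 / η) ^ 2 * (59 * cube h δ / l ^ 4) ≤ (1 / η) ^ 4 * C ^ 3 / l ^ 12 * cube h δ := by
    calc (1 / η) ^ 2 * (59 * cube h δ / l ^ 4) = (1 / η) ^ 2 * 59 * (1 / l ^ 4) * cube h δ := by ring
      _ ≤ (1 / η) ^ 4 * C ^ 3 * (1 / l ^ 12) * cube h δ := by
        refine mul_le_mul_of_nonneg_right (mul_le_mul (mul_le_mul (pow_le_pow_right₀ hη' (by norm_num))
          (le_trans (by linarith) (le_self_pow₀ (by linarith : 1 ≤ C) (by norm_num))) (by norm_num) (by positivity))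
          (hl' (by norm_num)) (by positivity) (by positivity)) hE
      _ = _ := by ring
  have e2 : (1 / η) ^ 3 * (C / l ^ 4 * (h + δ ^ 2) * (C / l ^ 4 * (h + δ))
      + C / l ^ 4 * δ * (C / l ^ 4 * (h + δ ^ 2))) ≤ (1 / η) ^ 4 * C ^ 3 / l ^ 12 * (3 * cube h δ) := by
    calc (1 / η) ^ 3 * (C / l ^ 4 * (h + δ ^ 2) * (C / l ^ 4 * (h + δ))
          + C / l ^ 4 * δ * (C / l ^ 4 * (h + δ ^ 2)))
        = (1 / η) ^ 3 * C ^ 2 * (1 / l ^ 8) * ((h + δ ^ 2) * (h + δ) + δ * (h + δ ^ 2)) := by ring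
      _ ≤ (1 / η) ^ 4 * C ^ 3 * (1 / l ^ 12) * (3 * cube h δ) :=
        mul_le_mul (mul_le_mul (mul_le_mul (pow_le_pow_right₀ hη' (by norm_num))
          (pow_le_pow_right₀ (by linarith) (by norm_num)) (by positivity) (by positivity))
          (hl' (by norm_num)) (by positivity) (by positivity)) h2 (by positivity) (by positivity)
      _ = _ := by ring
  have e3 : 2 * (1 / η) ^ 4 * (C / l ^ 4 * (h + δ)) ^ 3 ≤ (1 / η) ^ 4 * C ^ 3 / l ^ 12 * (12 * cube h δ) := by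
    calc 2 * (1 / η) ^ 4 * (C / l ^ 4 * (h + δ)) ^ 3
        = (1 / η) ^ 4 * C ^ 3 / l ^ 12 * (2 * (h + δ) ^ 3) := by ring
      _ ≤ _ := mul_le_mul_of_nonneg_left (by linarith) (by positivity)
  linarith

lemma kHat_mulVec (β t : ℝ) (J : Matrix (Fin n) (Fin n) ℝ) (m d : Fin n → ℝ) (i : Fin n) :
    (kHat β t J m *ᵥ d) i = d i / (1 - m i ^ 2) + aCoef β t * (1 - qv m) * d i
      - (1 - t) * (J *ᵥ d) i - 2 * aCoef β t / n * (m i * (m ⬝ᵥ d)) := by
  simp only [kHat, vMat, Matrix.add_mulVec, Matrix.sub_mulVec, Matrix.smul_mulVec, Pi.add_apply,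
    Pi.sub_apply, Pi.smul_apply, smul_eq_mul, Matrix.one_mulVec, Matrix.mulVec_diagonal,
    Matrix.vecMulVec_mulVec, MulOpposite.smul_eq_mul_unop, MulOpposite.unop_op]
  ring

lemma resM_expand_eq (β t h : ℝ) (J : Matrix (Fin n) (Fin n) ℝ) (y d' m d : Fin n → ℝ) (i : Fin n) :
    resM β (t + h) J (y + d') (m + d) i - resM β t J y m i
        - ((kHat β t J m *ᵥ d) i + h * (aCoef' β t * (1 - qv m) * m i + (J *ᵥ m) i) - d' i
          + (m i * d i ^ 2 / (1 - m i ^ 2) ^ 2 - aCoef β t * (d ⬝ᵥ d) / n * m i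
            - 2 * aCoef β t / n * (m ⬝ᵥ d) * d i)) =
      (Real.artanh (m i + d i) - Real.artanh (m i) - d i / (1 - m i ^ 2) - m i * d i ^ 2 / (1 - m i ^ 2) ^ 2)
      - aCoef β t * ((d ⬝ᵥ d) / n * d i) + β ^ 2 * h ^ 2 * ((1 - qv (m + d)) * (m i + d i))
      + aCoef' β t * h * ((1 - qv m) * d i - (2 * (m ⬝ᵥ d) + d ⬝ᵥ d) / n * (m i + d i))
      + h * (J *ᵥ d) i := by
  have e1 : ∑ j, J i j * m j = (J *ᵥ m) i := rfl
  have e2 : ∑ j, J i j * (m + d) j = (J *ᵥ m) i + (J *ᵥ d) i := by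
    simp [Matrix.mulVec, dotProduct, mul_add, Finset.sum_add_distrib]
  simp only [resM, e1, e2, kHat_mulVec, aCoef_add, qv_add]
  simp only [Pi.add_apply]
  ring

end Expand

open Expand in
/-- Second-order expansion of the inverse of the TAP Jacobian. -/
theorem expandR : ExpandR := by
  intro β Λ η hβ0 hβ1 hΛ hη hη1
  set C := Λ + 130 with hC'
  have hC : 100 ≤ C := by linarith
  refine ⟨20 * C ^ 3 / η ^ 4, by positivity, ?_⟩
  intro n c J B hctl t h ht hh hth m d l hl0 hl hm hg hK hco R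
  have hη4 : η ^ 4 ≤ η := pow_le_of_le_one hη.le hη1 (by norm_num)
  have hC3 : C ≤ C ^ 3 := le_self_pow₀ (by linarith) (by norm_num)
  have hbig : 2 * C / η ≤ 20 * C ^ 3 / η ^ 4 :=
    div_le_div₀ (by positivity) (by linarith) (by positivity) hη4
  have h6 : 6 ≤ 20 * C ^ 3 / η ^ 4 := by
    refine le_trans ?_ hbig
    rw [le_div_iff₀ hη]
    linarith
  obtain ⟨hS, hε4⟩ := Step.make (β := β) (m := m) (J := J) (Λ := Λ) hβ0 hβ1 ht hh hth hl0 hl hm hg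
    (by linarith [hctl.op, abs_nonneg c]) h6 hK
  obtain ⟨hL, hM, hΔ⟩ := hS.delta_bounds
  rw [← hC'] at hL hM hΔ
  have hδ : 0 ≤ nrm d := nrm_nonneg d
  have hsmall : C / l ^ 4 * (h + nrm d) ≤ η / 2 := by
    have h1 : 2 * C / η * (h + nrm d) ≤ l ^ 4 :=
      (mul_le_mul_of_nonneg_right hbig (by positivity)).trans hε4
    rw [div_mul_eq_mul_div, div_le_iff₀ hη] at h1
    rw [div_mul_eq_mul_div, div_le_iff₀ (pow_pos hl0 4)]
    linarith
  have hco₁ : ∀ v : Fin n → ℝ, η / 2 * ∑ i, v i ^ 2 ≤ v ⬝ᵥ kHat β (t + h) J (m + d) *ᵥ v := fun v => by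
    have h0 := OpNorm.coercive_of_sub hco (OpNorm.opLe_iff_norm_le.2 (hΔ.trans hsmall)) v
    rw [sub_half] at h0
    exact h0
  refine ⟨fun i => (hS.coord i).2, hco₁, ?_⟩
  have h₁ : (kHat β (t + h) J (m + d))⁻¹ =
      R - R * (kHat β (t + h) J (m + d) - kHat β t J m) * (kHat β (t + h) J (m + d))⁻¹ := by
    rw [← OpNorm.inv_sub_inv_eq (OpNorm.isUnit_det_of_coercive hη hco)
      (OpNorm.isUnit_det_of_coercive (half_pos hη) hco₁)]
    abel
  have e : kHat β (t + h) J (m + d) - kHat β t J m - rho β t h J m d =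
      h • Drift.tMat β t J m + Drift.lMat β t m d + Drift.qLin β t m (vecMulVec d d) := by
    simp only [rho]; abel
  have hb := resolvent_bound (a := 1 / η) h₁
    (OpNorm.opLe_iff_norm_le.1 (OpNorm.opLe_inv_of_coercive hη hco))
    ((OpNorm.opLe_iff_norm_le.1 (OpNorm.opLe_inv_of_coercive (half_pos hη) hco₁)).trans_eq
      (by field_simp)) hΔ hL hM hS.norm_rho
  rw [e] at hb
  exact hb.trans (expand_scalar hC hη hη1 hl0 hl hh hS.le_one.1 hδ hS.le_one.2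
    (one_le_pow₀ (by linarith [Nat.cast_nonneg (α := ℝ) n])))

open Expand in
/-- Second-order expansion of the TAP residual. -/
theorem expandRes : ExpandRes := by
  intro β Λ hβ0 hβ1 hΛ
  refine ⟨Λ + 30, by linarith, ?_⟩
  intro n c J B hctl t h ht hh hth y d' m d l hl0 hl hm hg hK i
  obtain ⟨hS, -⟩ := Step.make (β := β) (m := m) (J := J) (Λ := Λ) hβ0 hβ1 ht hh hth hl0 hl hm hg
    (by linarith [hctl.op, abs_nonneg c]) (by linarith) hK
  set δ := nrm d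
  have hδ : 0 ≤ δ := nrm_nonneg d
  obtain ⟨c1, c2⟩ := hS.coef
  obtain ⟨o1, o2, o3⟩ := overlap_le (nrm_m_le hS.cube_le) hS.le_one.2
  have hdi : |d i| ≤ δ := Drift.abs_le_nrm d i
  have hJd : |(J *ᵥ d) i| ≤ Λ * δ := (Drift.abs_le_nrm _ i).trans (Drift.nrm_mulVec_le hS.op le_rfl)
  have hmd : |m i + d i| ≤ 1 := (hS.coord i).2.le
  have hq' : |1 - qv (m + d)| ≤ 1 := qv_mem fun j => (hS.coord j).2
  rw [resM_expand_eq]
  have b1 := artanh_taylor (hS.cube_le i).le hl0 hl (hS.gap i) (hS.coord i).1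
  have b2 : |aCoef β t * ((d ⬝ᵥ d) / n * d i)| ≤ δ ^ 3 := by
    rw [abs_mul, abs_mul, abs_div, Nat.abs_cast, sq_d, abs_of_nonneg (sq_nonneg δ)]
    calc |aCoef β t| * (δ ^ 2 / n * |d i|) = |aCoef β t| * (1 / n) * (δ ^ 2 * |d i|) := by ring
      _ ≤ δ ^ 2 * |d i| := mul_le_of_le_one_left (by positivity) (mul_le_one₀ hS.ha (by positivity) inv_n_le)
      _ ≤ δ ^ 2 * δ := mul_le_mul_of_nonneg_left hdi (sq_nonneg δ)
      _ = _ := by ring
  have b3 : |β ^ 2 * h ^ 2 * ((1 - qv (m + d)) * (m i + d i))| ≤ h ^ 2 := by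
    rw [abs_mul]
    refine (mul_le_mul c2 ?_ (abs_nonneg _) (sq_nonneg h)).trans_eq (mul_one _)
    rw [abs_mul]
    exact mul_le_one₀ hq' (abs_nonneg _) hmd
  have b4 : |aCoef' β t * h * ((1 - qv m) * d i - (2 * (m ⬝ᵥ d) + d ⬝ᵥ d) / n * (m i + d i))| ≤
      8 * (h * δ) := by
    rw [abs_mul, abs_mul, abs_of_nonneg hh]
    refine (mul_le_mul (mul_le_mul_of_nonneg_right hS.ha' hh) (le_trans (abs_sub _ _) (add_le_add
      (b := δ) (d := 3 * δ) ?_ ?_)) (abs_nonneg _) (by positivity)).trans_eq (by ring)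
    · rw [abs_mul]; exact (mul_le_of_le_one_left (abs_nonneg _) (qv_mem hS.cube_le)).trans hdi
    · rw [abs_mul, abs_div, Nat.abs_cast, sq_d]
      refine le_trans (mul_le_of_le_one_right (by positivity) hmd) ?_
      refine (div_le_div_of_nonneg_right (abs_add_le _ _) (Nat.cast_nonneg n)).trans ?_
      rw [abs_mul, abs_two, abs_of_nonneg (sq_nonneg δ), add_div, mul_div_assoc]
      linarith
  have b5 : |h * (J *ᵥ d) i| ≤ Λ * (h * δ) := by
    rw [abs_mul, abs_of_nonneg hh]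
    exact (mul_le_mul_of_nonneg_left hJd hh).trans_eq (by ring)
  refine (abs_add_le _ _).trans ((add_le_add ((abs_add_le _ _).trans (add_le_add ((abs_add_le _ _).trans
    (add_le_add ((abs_sub _ _).trans (add_le_add b1 b2)) b3)) b4)) b5).trans ?_)
  show _ ≤ _ * cube h δ
  have hd3 : |d i| ^ 3 ≤ δ ^ 3 := pow_le_pow_left₀ (abs_nonneg _) hdi 3
  have hn4 : (1 : ℝ) ≤ ((n : ℝ) + 1) ^ 4 := one_le_pow₀ (by linarith [Nat.cast_nonneg (α := ℝ) n])
  have h3 : δ ^ 3 + h ^ 2 + 8 * (h * δ) + Λ * (h * δ) ≤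
      (δ ^ 3 + h ^ 2 + 8 * (h * δ) + Λ * (h * δ)) / l ^ 4 :=
    le_div_self (by positivity) (by positivity) (pow_le_one₀ hl0.le hl)
  have h4 : 19 * |d i| ^ 3 / l ^ 4 ≤ 19 * δ ^ 3 / l ^ 4 := by gcongr
  have h5 : (Λ + 30) * 1 / l ^ 4 * cube h δ ≤ (Λ + 30) * ((n : ℝ) + 1) ^ 4 / l ^ 4 * cube h δ := by
    have := cube_nonneg hh hδ
    gcongr
  refine le_trans ?_ h5
  calc 19 * |d i| ^ 3 / l ^ 4 + δ ^ 3 + h ^ 2 + 8 * (h * δ) + Λ * (h * δ)
      ≤ 19 * δ ^ 3 / l ^ 4 + (δ ^ 3 + h ^ 2 + 8 * (h * δ) + Λ * (h * δ)) / l ^ 4 := by linarith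
    _ = (19 * δ ^ 3 + (δ ^ 3 + h ^ 2 + 8 * (h * δ) + Λ * (h * δ))) / l ^ 4 := by ring
    _ ≤ (Λ + 30) * cube h δ / l ^ 4 := by
      refine div_le_div_of_nonneg_right ?_ (by positivity)
      simp only [cube]
      nlinarith [pow_nonneg hδ 3, mul_nonneg hh hδ, sq_nonneg h, mul_nonneg hΛ.le (pow_nonneg hδ 3),
        mul_nonneg hΛ.le (sq_nonneg h)]
    _ = _ := by ring

end Vale.Agent.P150.PartB
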