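import Vale.Agent.P150.Fast.PartB.Spec
import Vale.Agent.P150.Fast.OpNormBridge

/-!
# P150, Part B: a weak Poincaré inequality bounds the normalised covariance

For `j ≠ k`, `C_jk = Cov(t_j, t_k) + E[(1 - t_k²) dd_k t_j]` with `t_j` the conditional means; the
discrete derivative of `t_j` is `(J_jk + O(J_jk²))(1 - t_j²)`, and `E(1 - t_j²)² ≤ K D_j²` follows
from a variance bound for the field `h_j` under the tilts by `h_j`.
-/

open Matrix Vale.Agent.P150.Fast
open scoped Matrix.Norms.L2Operator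

namespace Vale.Agent.P150.PartB.FB

variable {n : ℕ}

/-! ### Scalar facts -/

lemma sech_bounds (a : ℝ) :
    Real.exp (-(2 * |a|)) ≤ 1 - Real.tanh a ^ 2 ∧ 1 - Real.tanh a ^ 2 ≤ 4 * Real.exp (-(2 * |a|)) := by
  have hc := Real.cosh_pos a
  have e : 1 - Real.tanh a ^ 2 = 1 / Real.cosh a ^ 2 := by
    rw [Real.tanh_eq_sinh_div_cosh]; field_simp; linarith [Real.cosh_sq_sub_sinh_sq a]
  have h1 : Real.cosh a ≤ Real.exp |a| := by
    rw [← Real.cosh_abs, Real.cosh_eq]
    linarith [Real.exp_le_exp.2 (show -|a| ≤ |a| by linarith [abs_nonneg a])]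
  have h2 : Real.exp |a| ≤ 2 * Real.cosh a := by
    rw [← Real.cosh_abs, Real.cosh_eq]; linarith [Real.exp_pos (-|a|)]
  have e2 : Real.exp (-(2 * |a|)) = 1 / Real.exp |a| ^ 2 := by
    rw [Real.exp_neg, ← Real.exp_nat_mul, one_div]; norm_num
  rw [e, e2]
  constructor
  · exact one_div_le_one_div_of_le (pow_pos hc 2) (pow_le_pow_left₀ hc.le h1 2)
  · rw [mul_one_div, div_le_div_iff₀ (pow_pos hc 2) (by positivity)]
    nlinarith [pow_le_pow_left₀ (Real.exp_pos |a|).le h2 2]

/-- second order expansion of a discrete derivative of `tanh` -/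
lemma tanh_step (Λ a u : ℝ) (hu : |u| ≤ Λ) :
    |(Real.tanh a - Real.tanh (a - 2 * u)) / 2 - u * (1 - Real.tanh a ^ 2)| ≤
      (4 * Real.exp (4 * Λ) + 4 * Λ) * u ^ 2 * (1 - Real.tanh a ^ 2) := by
  set τ := Real.tanh (2 * u)
  set T := Real.tanh a
  have hΛ : 0 ≤ Λ := (abs_nonneg u).trans hu
  have hσ : 0 < 1 - T ^ 2 := by nlinarith [abs_lt.1 (Ising.tanh_abs_lt a)]
  have hT : |T| ≤ 1 := (Ising.tanh_abs_lt a).le
  have hτ1 : |τ| < 1 := Ising.tanh_abs_lt _
  have hτ : |τ| ≤ 2 * |u| := by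
    refine (Ising.abs_tanh_le _).trans_eq ?_; rw [abs_mul, abs_two]
  have hgap : Real.exp (-(4 * Λ)) / 2 ≤ 1 - |τ| := by
    have h := (sech_bounds (2 * u)).1
    have h2 : Real.exp (-(4 * Λ)) ≤ Real.exp (-(2 * |2 * u|)) :=
      Real.exp_le_exp.2 (by rw [abs_mul, abs_two]; linarith)
    nlinarith [abs_nonneg τ, sq_abs τ]
  have hTτ : |T * τ| ≤ |τ| := by
    rw [abs_mul]; exact mul_le_of_le_one_left (abs_nonneg _) hT
  have hd : 0 < 1 - T * τ := by linarith [le_abs_self (T * τ)]
  have e : (Real.tanh a - Real.tanh (a - 2 * u)) / 2 - u * (1 - T ^ 2) =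
      (1 - T ^ 2) * ((τ - 2 * u) / 2 + τ * (T * τ) / (2 * (1 - T * τ))) := by
    rw [sub_eq_add_neg a (2 * u), Ising.tanh_add', Real.tanh_neg, show Real.tanh a = T from rfl,
      show Real.tanh (2 * u) = τ from rfl]
    rw [show 1 + T * -τ = 1 - T * τ by ring]
    field_simp [hd.ne']
    ring
  rw [e, abs_mul, abs_of_pos hσ, mul_comm]
  refine mul_le_mul_of_nonneg_right ?_ hσ.le
  refine (abs_add_le _ _).trans ?_
  have h1 : |(τ - 2 * u) / 2| ≤ 4 * Λ * u ^ 2 := by
    rw [abs_div, abs_two, div_le_iff₀ two_pos]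
    refine (Ising.abs_tanh_sub_le _).trans ?_
    rw [abs_mul, abs_two]
    nlinarith [mul_le_mul_of_nonneg_right hu (sq_nonneg u), sq_abs u]
  have h2 : |τ * (T * τ) / (2 * (1 - T * τ))| ≤ 4 * Real.exp (4 * Λ) * u ^ 2 := by
    rw [abs_div, abs_mul, abs_of_pos (by linarith : 0 < 2 * (1 - T * τ)), div_le_iff₀ (by linarith)]
    have hE : Real.exp (4 * Λ) * Real.exp (-(4 * Λ)) = 1 := by rw [← Real.exp_add]; simp
    have hlow : Real.exp (-(4 * Λ)) / 2 ≤ 1 - T * τ := by linarith [le_abs_self (T * τ)]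
    calc |τ| * |T * τ| ≤ 2 * |u| * (2 * |u|) :=
          mul_le_mul hτ (hTτ.trans hτ) (abs_nonneg _) (by positivity)
      _ = 4 * Real.exp (4 * Λ) * u ^ 2 * (2 * (Real.exp (-(4 * Λ)) / 2)) := by
          rw [show 2 * |u| * (2 * |u|) = 4 * |u| ^ 2 by ring, sq_abs]
          linear_combination (-4 * u ^ 2) * hE
      _ ≤ _ := mul_le_mul_of_nonneg_left (by linarith) (by positivity)
  linarith

/-! ### Averages -/

variable (J : Fin n → Fin n → ℝ) (b : Fin n → ℝ)

lemma avg_add (f g : Cfg n → ℝ) : Ising.avg J b (fun x => f x + g x) = Ising.avg J b f + Ising.avg J b g := by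
  simp [Ising.avg, mul_add, Finset.sum_add_distrib]

lemma avg_mul_left (c : ℝ) (f : Cfg n → ℝ) : Ising.avg J b (fun x => c * f x) = c * Ising.avg J b f := by
  simp [Ising.avg, Finset.mul_sum, mul_left_comm]

lemma avg_const (c : ℝ) : Ising.avg J b (fun _ => c) = c := by
  simp [Ising.avg, ← Finset.sum_mul, Ising.wt_sum]

lemma avg_mono {f g : Cfg n → ℝ} (h : ∀ x, f x ≤ g x) : Ising.avg J b f ≤ Ising.avg J b g :=
  Finset.sum_le_sum fun x _ => mul_le_mul_of_nonneg_left (h x) (Ising.wt_pos J b x).le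

lemma avg_sum {ι : Type*} (S : Finset ι) (f : ι → Cfg n → ℝ) :
    Ising.avg J b (fun x => ∑ i ∈ S, f i x) = ∑ i ∈ S, Ising.avg J b (f i) := by
  simp only [Ising.avg, Finset.mul_sum]; exact Finset.sum_comm

lemma avg_sub (f g : Cfg n → ℝ) : Ising.avg J b (fun x => f x - g x) = Ising.avg J b f - Ising.avg J b g := by
  simp [Ising.avg, mul_sub, Finset.sum_sub_distrib]

lemma exp_avg_le (f : Cfg n → ℝ) :
    Real.exp (Ising.avg J b f) ≤ Ising.avg J b (fun x => Real.exp (f x)) := by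
  set μ := Ising.avg J b f
  calc Real.exp μ = Ising.avg J b (fun x => Real.exp μ * ((1 - μ) + f x)) := by
        rw [avg_mul_left, avg_add, avg_const]; ring
    _ ≤ _ := avg_mono J b fun x => by
        have h := Real.add_one_le_exp (f x - μ)
        rw [show Real.exp (f x) = Real.exp μ * Real.exp (f x - μ) by rw [← Real.exp_add]; ring_nf]
        exact mul_le_mul_of_nonneg_left (by linarith) (Real.exp_pos μ).le

lemma sq_avg_mul_le (f g : Cfg n → ℝ) :
    Ising.avg J b (fun x => f x * g x) ^ 2 ≤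
      Ising.avg J b (fun x => f x ^ 2) * Ising.avg J b (fun x => g x ^ 2) := by
  have hw := fun x => (Ising.wt_pos J b x).le
  exact Finset.sum_sq_le_sum_mul_sum_of_sq_le_mul Finset.univ
    (fun x _ => mul_nonneg (hw x) (sq_nonneg _)) (fun x _ => mul_nonneg (hw x) (sq_nonneg _))
    fun x _ => le_of_eq (by ring)

/-- centring -/
lemma avg_centred (f g : Cfg n → ℝ) :
    Ising.avg J b (fun x => (f x - Ising.avg J b f) * (g x - Ising.avg J b g)) =
      Ising.avg J b (fun x => f x * g x) - Ising.avg J b f * Ising.avg J b g := by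
  set μ := Ising.avg J b f
  set ν := Ising.avg J b g
  simp only [show ∀ x, (f x - μ) * (g x - ν) = f x * g x - ν * f x - μ * g x + μ * ν from fun x => by ring,
    avg_add, avg_sub, avg_mul_left, avg_const]
  ring

lemma varW_eq (f : Cfg n → ℝ) :
    varW J b f = Ising.avg J b (fun x => f x ^ 2) - Ising.avg J b f ^ 2 := rfl

lemma varW_nonneg (f : Cfg n → ℝ) : 0 ≤ varW J b f := by
  have h : varW J b f = Ising.avg J b (fun x => (f x - Ising.avg J b f) * (f x - Ising.avg J b f)) := by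
    rw [avg_centred, varW_eq]; simp only [← sq]
  rw [h]
  exact Finset.sum_nonneg fun x _ => mul_nonneg (Ising.wt_pos J b x).le (mul_self_nonneg _)

lemma abs_cov_le (f g : Cfg n → ℝ) :
    |Ising.avg J b (fun x => f x * g x) - Ising.avg J b f * Ising.avg J b g| ≤
      Real.sqrt (varW J b f) * Real.sqrt (varW J b g) := by
  have e : ∀ f : Cfg n → ℝ, varW J b f = Ising.avg J b (fun x => (f x - Ising.avg J b f) ^ 2) := fun f => by
    simp only [sq, avg_centred, varW_eq]
  rw [← avg_centred, ← Real.sqrt_mul (varW_nonneg J b f), e f, e g]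
  exact Real.abs_le_sqrt (sq_avg_mul_le J b _ _)

/-! ### The tilt by a field -/

/-- the field of a tilt by `h_j` is the Ising measure at a shifted external field -/
lemma wt_tilt (j : Fin n) (l : ℝ) (x : Cfg n) :
    Ising.wt J (b + fun i => l * J j i) x =
      Ising.wt J b x * Real.exp (l * Ising.fld J b j x) /
        Ising.avg J b (fun z => Real.exp (l * Ising.fld J b j z)) := by
  have e : ∀ z : Cfg n, Real.exp (Ising.qE J (b + fun i => l * J j i) z) =
      Real.exp (Ising.qE J b z) * Real.exp (l * Ising.fld J b j z) * Real.exp (-(l * b j)) := fun z => by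
    rw [← Real.exp_add, ← Real.exp_add]
    congr 1
    simp only [Ising.qE, Ising.fld, Pi.add_apply, add_mul, Finset.sum_add_distrib, mul_assoc, ← Finset.mul_sum]
    ring
  have hS : 0 < ∑ z : Cfg n, Real.exp (Ising.qE J b z) :=
    Finset.sum_pos (fun _ _ => Real.exp_pos _) Finset.univ_nonempty
  have hT : 0 < ∑ z : Cfg n, Real.exp (Ising.qE J b z) * Real.exp (l * Ising.fld J b j z) :=
    Finset.sum_pos (fun _ _ => by positivity) Finset.univ_nonempty
  rw [Ising.avg]
  simp only [Ising.wt, e, ← Finset.sum_mul, div_mul_eq_mul_div, ← Finset.sum_div]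
  field_simp

/-- mean value twice: a bound on the variance under tilts bounds the exponential moment -/
lemma mgf_le (h : Cfg n → ℝ) {V : ℝ} (hV : ∀ l : ℝ, |l| ≤ 4 →
      Ising.avg J b (fun x => Real.exp (l * h x) * h x ^ 2) / Ising.avg J b (fun x => Real.exp (l * h x)) -
        (Ising.avg J b (fun x => Real.exp (l * h x) * h x) /
          Ising.avg J b (fun x => Real.exp (l * h x))) ^ 2 ≤ V)
    (hV0 : 0 ≤ V) :
    Ising.avg J b (fun x => Real.exp (4 * h x)) ≤ Real.exp (4 * Ising.avg J b h + 16 * V) := by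
  set Z := fun l : ℝ => Ising.avg J b (fun x => Real.exp (l * h x))
  set Z1 := fun l : ℝ => Ising.avg J b (fun x => Real.exp (l * h x) * h x)
  set Z2 := fun l : ℝ => Ising.avg J b (fun x => Real.exp (l * h x) * h x ^ 2)
  have hZ : ∀ l, 0 < Z l := fun l => Finset.sum_pos
    (fun x _ => mul_pos (Ising.wt_pos J b x) (Real.exp_pos _)) Finset.univ_nonempty
  have d0 : ∀ l, HasDerivAt Z (Z1 l) l := fun l =>
    HasDerivAt.fun_sum fun x _ => ((hasDerivAt_mul_const (h x)).exp.const_mul (Ising.wt J b x))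
  have d1 : ∀ l, HasDerivAt Z1 (Z2 l) l := fun l => by
    refine HasDerivAt.fun_sum fun x _ => ?_
    exact (((hasDerivAt_mul_const (h x)).exp.mul_const (h x)).const_mul (Ising.wt J b x)).congr_deriv
      (by ring)
  have dlog : ∀ l, HasDerivAt (fun t => Real.log (Z t)) (Z1 l / Z l) l := fun l => (d0 l).log (hZ l).ne'
  have dq : ∀ l, HasDerivAt (fun t => Z1 t / Z t) (Z2 l / Z l - (Z1 l / Z l) ^ 2) l := fun l => by
    refine ((d1 l).fun_div (d0 l) (hZ l).ne').congr_deriv ?_
    field_simp [(hZ l).ne']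
  obtain ⟨ξ, hξ, eξ⟩ := exists_hasDerivAt_eq_slope (fun t => Real.log (Z t)) (fun l => Z1 l / Z l)
    (by norm_num : (0 : ℝ) < 4) (fun l _ => (dlog l).continuousAt.continuousWithinAt) (fun l _ => dlog l)
  obtain ⟨η, hη, eη⟩ := exists_hasDerivAt_eq_slope (fun t => Z1 t / Z t)
    (fun l => Z2 l / Z l - (Z1 l / Z l) ^ 2) hξ.1
    (fun l _ => (dq l).continuousAt.continuousWithinAt) (fun l _ => dq l)
  have h0 : Z 0 = 1 := by simp [Z, avg_const]
  have h10 : Z1 0 = Ising.avg J b h := by simp [Z1]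
  simp only [h0, h10, Real.log_one, sub_zero, div_one] at eξ eη
  have hb := hV η (abs_le.2 ⟨by linarith [hη.1], by linarith [hη.2, hξ.2]⟩)
  change Z2 η / Z η - (Z1 η / Z η) ^ 2 ≤ V at hb
  rw [eη, div_le_iff₀ hξ.1] at hb
  rw [eq_div_iff (by norm_num)] at eξ
  show Z 4 ≤ _
  rw [← Real.exp_log (hZ 4)]
  refine Real.exp_le_exp.2 ?_
  nlinarith [hξ.2, hξ.1]

/-! ### The sites -/

variable {J b}

variable {Λ : ℝ}

lemma op_J (hJ : OpNorm.OpLe (Matrix.of J) Λ) (i j : Fin n) : |J i j| ≤ Λ := hJ.entry i j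

lemma abs_fld_le (hJ : OpNorm.OpLe (Matrix.of J) Λ) {Y : ℝ} (hy : ∀ i, |b i| ≤ Y) (i : Fin n) (x : Cfg n) :
    |Ising.fld J b i x| ≤ Y + Λ * Real.sqrt n := by
  rw [Ising.fld, add_comm Y]
  refine (abs_add_le _ _).trans (add_le_add ?_ (hy i))
  refine (OpNorm.abs_dot_le (Matrix.of J i) (fun j => spin (x j))).trans
    (mul_le_mul ?_ ?_ (Real.sqrt_nonneg _) hJ.1)
  · exact (Real.sqrt_le_sqrt (hJ.row i)).trans_eq (Real.sqrt_sq hJ.1)
  · refine Real.sqrt_le_sqrt (le_of_eq ?_)
    simp [OpNorm.nsq, spin]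

lemma dd_fld (i k : Fin n) (x : Cfg n) : Ising.dd k (Ising.fld J b i) x = J i k := by
  simp only [Ising.dd, Ising.fld_update, spin, if_true, Bool.false_eq_true, if_false]; ring

lemma dd_mag (hJ : OpNorm.OpLe (Matrix.of J) Λ) (j k : Fin n) (x : Cfg n) :
    |Ising.dd k (Ising.mag J b j) x - J j k * (1 - Ising.mag J b j x ^ 2)| ≤
      (4 * Real.exp (4 * Λ) + 4 * Λ) * J j k ^ 2 * (1 - Ising.mag J b j x ^ 2) := by
  have hq := op_J hJ j k
  simp only [Ising.dd, Ising.mag, Ising.fld_update, spin]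
  cases x k with
  | true =>
    have := tanh_step Λ (Ising.fld J b j x) (J j k) hq
    convert this using 3; simp; ring_nf
  | false =>
    have := tanh_step Λ (Ising.fld J b j x) (-J j k) (by rwa [abs_neg])
    rw [abs_sub_comm, ← abs_neg, neg_sub] at this
    rw [abs_sub_comm]
    convert this using 1
    · congr 1; simp; ring_nf
    · ring

lemma dd_mag_self (hd : ∀ i, J i i = 0) (j : Fin n) (x : Cfg n) : Ising.dd j (Ising.mag J b j) x = 0 := by
  simp [Ising.dd, Ising.mag_update b hd]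

/-- the second order covariance identity -/
lemma moment_split (hs : ∀ i j, J i j = J j i) (hd : ∀ i, J i i = 0) {j k : Fin n} (hjk : j ≠ k) :
    Ising.avg J b (fun x => spin (x j) * spin (x k)) =
      Ising.avg J b (fun x => Ising.mag J b j x * Ising.mag J b k x) +
        Ising.avg J b (fun x => (1 - Ising.mag J b k x ^ 2) * Ising.dd k (Ising.mag J b j) x) := by
  have hproj : ∀ (i : Fin n) (x : Cfg n), Ising.proj J b i (fun z => spin (z i)) x = spin (x i) - Ising.mag J b i x := by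
    intro i x; simp [Ising.proj, Ising.dd, spin]
  have h1 := Ising.site_mul b hs hd j (fun x => spin (x k)) (fun z => spin (z j))
  have h2 := Ising.site_mul b hs hd k (Ising.mag J b j) (fun z => spin (z k))
  have z1 : ∀ x : Cfg n, Ising.dd j (fun z => spin (z k)) x = 0 := fun x => by
    simp [Ising.dd, Function.update_of_ne (Ne.symm hjk)]
  have o2 : ∀ (i : Fin n) (x : Cfg n), Ising.dd i (fun z => spin (z i)) x = 1 := fun i x => by
    simp [Ising.dd, spin]
  simp only [hproj, z1, o2, mul_one, mul_zero, Finset.sum_const_zero, mul_sub,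
    Finset.sum_sub_distrib] at h1 h2
  simp only [Ising.avg]
  have e : ∀ x : Cfg n, spin (x k) * Ising.mag J b j x = Ising.mag J b j x * spin (x k) := fun x => mul_comm _ _
  simp only [e] at h1
  rw [show (∑ x, Ising.wt J b x * (spin (x j) * spin (x k))) = ∑ x, Ising.wt J b x * (spin (x k) * spin (x j))
    from Finset.sum_congr rfl fun x _ => by ring]
  linarith

lemma mean_mag (hs : ∀ i j, J i j = J j i) (hd : ∀ i, J i i = 0) (j : Fin n) :
    Ising.avg J b (fun x => spin (x j)) = Ising.avg J b (Ising.mag J b j) := by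
  have h := Ising.site_mul b hs hd j (fun _ => 1) (fun z => spin (z j))
  simp only [Ising.proj, Ising.dd, spin, if_true, Function.update_self, Bool.false_eq_true, if_false,
    sub_self, zero_div, mul_zero, Finset.sum_const_zero, one_mul,
    show ((1 : ℝ) - -1) / 2 = 1 by norm_num, mul_one, mul_sub, Finset.sum_sub_distrib] at h
  simp only [Ising.avg, spin]
  linarith

/-! ### Variance bounds -/

lemma dir_le (f : Cfg n → ℝ) :
    Ising.dir J b f ≤ Ising.avg J b (fun x => ∑ i, Ising.dd i f x ^ 2) := by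
  rw [avg_sum, Ising.dir]
  exact Finset.sum_le_sum fun i _ => Finset.sum_le_sum fun x _ => mul_le_mul_of_nonneg_left
    (mul_le_of_le_one_left (sq_nonneg _) (Ising.mag_sq J b i x).2) (Ising.wt_pos J b x).le

lemma avg_tilt (j : Fin n) (l : ℝ) (g : Cfg n → ℝ) :
    Ising.avg J (b + fun i => l * J j i) g =
      Ising.avg J b (fun x => Real.exp (l * Ising.fld J b j x) * g x) /
        Ising.avg J b (fun x => Real.exp (l * Ising.fld J b j x)) := by
  conv_lhs => rw [Ising.avg]
  conv_rhs => arg 1; rw [Ising.avg]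
  rw [Finset.sum_div]
  exact Finset.sum_congr rfl fun x _ => by rw [wt_tilt]; ring

variable {P e Y : ℝ}

/-- under every tilt by `h_j` with slope at most `4` the variance of `h_j` is bounded -/
lemma var_tilt (hJ : OpNorm.OpLe (Matrix.of J) Λ) (hP : 0 ≤ P) (hy : ∀ i, |b i| ≤ Y)
    (heM : e * (Y + Λ * Real.sqrt n) ^ 2 ≤ 1) (j : Fin n)
    (hWP : ∀ w : Fin n → ℝ, nrm w ≤ 4 * Λ → WP (Matrix.of J) (b + w) P e) {l : ℝ} (hl : |l| ≤ 4) :
    Ising.avg J b (fun x => Real.exp (l * Ising.fld J b j x) * Ising.fld J b j x ^ 2) /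
        Ising.avg J b (fun x => Real.exp (l * Ising.fld J b j x)) -
      (Ising.avg J b (fun x => Real.exp (l * Ising.fld J b j x) * Ising.fld J b j x) /
        Ising.avg J b (fun x => Real.exp (l * Ising.fld J b j x))) ^ 2 ≤ P * Λ ^ 2 + 1 := by
  have hw : nrm (fun i => l * J j i) ≤ 4 * Λ := by
    refine (Real.sqrt_le_sqrt (?_ : _ ≤ (4 * Λ) ^ 2)).trans_eq (Real.sqrt_sq (mul_nonneg (by norm_num) hJ.1))
    simp only [mul_pow, ← Finset.mul_sum]
    have hl2 : l ^ 2 ≤ 4 ^ 2 := sq_le_sq' (abs_le.1 hl).1 (abs_le.1 hl).2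
    exact mul_le_mul hl2 (hJ.row j) (Finset.sum_nonneg fun i _ => sq_nonneg _) (by norm_num)
  have h := hWP _ hw (Ising.fld J b j) (Y + Λ * Real.sqrt n) (abs_fld_le hJ hy j)
  rw [← avg_tilt, ← avg_tilt]
  refine le_trans h (add_le_add (mul_le_mul_of_nonneg_left ?_ hP) heM)
  refine (dir_le (J := J) (Ising.fld J b j)).trans ((avg_mono J _ fun x => ?_).trans_eq (avg_const J _ _))
  simp only [dd_fld]
  exact hJ.row j

/-- `E (1 - t²)² ≤ K (E (1 - t²))²` for `t = tanh h` with bounded variance under tilts -/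
lemma sech_moment (hJ : OpNorm.OpLe (Matrix.of J) Λ) (hP : 0 ≤ P) (hy : ∀ i, |b i| ≤ Y)
    (heM : e * (Y + Λ * Real.sqrt n) ^ 2 ≤ 1) (j : Fin n)
    (hWP : ∀ w : Fin n → ℝ, nrm w ≤ 4 * Λ → WP (Matrix.of J) (b + w) P e) :
    Ising.avg J b (fun x => (1 - Ising.mag J b j x ^ 2) ^ 2) ≤
      16 * Real.exp (18 * (P * Λ ^ 2 + 1) + 2) * Ising.avg J b (fun x => 1 - Ising.mag J b j x ^ 2) ^ 2 := by
  set V := P * Λ ^ 2 + 1
  set h := Ising.fld J b j
  set μ := Ising.avg J b h
  have hV : 0 ≤ V := by positivity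
  have hvar := fun {l : ℝ} (hl : |l| ≤ 4) => var_tilt hJ hP hy heM j hWP hl
  have habs : Ising.avg J b (fun x => |h x|) ≤ |μ| + (V + 1) / 2 := by
    have h0 := hvar (l := 0) (by norm_num)
    simp only [zero_mul, Real.exp_zero, one_mul, avg_const, div_one] at h0
    change Ising.avg J b (fun x => h x ^ 2) - μ ^ 2 ≤ V at h0
    have h1 : Ising.avg J b (fun x => (h x - μ) ^ 2) ≤ V := by
      simp only [sq] at h0 ⊢; rwa [avg_centred]
    refine (avg_mono J b (g := fun x => |μ| + (((h x - μ) ^ 2 + 1) / 2)) fun x => ?_).trans ?_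
    · nlinarith [abs_sub_abs_le_abs_sub (h x) μ, sq_abs (h x - μ), sq_nonneg (|h x - μ| - 1)]
    · rw [avg_add, avg_const]
      simp only [div_eq_inv_mul, avg_mul_left, avg_add, avg_const]
      linarith
  have hlow : Real.exp (-(2 * |μ|) - (V + 1)) ≤ Ising.avg J b (fun x => 1 - Ising.mag J b j x ^ 2) := by
    refine le_trans ?_ ((exp_avg_le J b fun x => (-2 : ℝ) * |h x|).trans
      (avg_mono J b fun x => by rw [neg_mul]; exact (sech_bounds (h x)).1))
    rw [avg_mul_left]
    exact Real.exp_le_exp.2 (by linarith)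
  have hup : Ising.avg J b (fun x => (1 - Ising.mag J b j x ^ 2) ^ 2) ≤
      16 * Real.exp (-(4 * |μ|) + 16 * V) := by
    have hsq : ∀ (g : Cfg n → ℝ), (∀ x, g x ≤ |h x|) → ∀ x,
        (1 - Ising.mag J b j x ^ 2) ^ 2 ≤ 16 * Real.exp (4 * (-g x)) := fun g hg x => by
      refine (pow_le_pow_left₀ (Ising.mag_sq J b j x).1 (sech_bounds (h x)).2 2).trans ?_
      rw [mul_pow, ← Real.exp_nat_mul, show (4 : ℝ) ^ 2 = 16 by norm_num]
      refine mul_le_mul_of_nonneg_left (Real.exp_le_exp.2 ?_) (by norm_num)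
      push_cast; linarith [hg x]
    rcases le_total 0 μ with hμ | hμ
    · refine (avg_mono J b (hsq h fun x => le_abs_self _)).trans ?_
      rw [avg_mul_left]
      refine mul_le_mul_of_nonneg_left ((mgf_le J b (fun x => -h x) (V := V) (fun l hl => ?_) hV).trans ?_)
        (by norm_num)
      · have h' := hvar (l := -l) (by rwa [abs_neg])
        have e1 : Ising.avg J b (fun x => Real.exp (l * -h x)) = Ising.avg J b (fun x => Real.exp (-l * h x)) := by
          simp
        have e2 : Ising.avg J b (fun x => Real.exp (l * -h x) * (-h x) ^ 2) =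
            Ising.avg J b (fun x => Real.exp (-l * h x) * h x ^ 2) := by simp
        have e3 : Ising.avg J b (fun x => Real.exp (l * -h x) * -h x) =
            -Ising.avg J b (fun x => Real.exp (-l * h x) * h x) := by
          simp [Ising.avg, Finset.sum_neg_distrib]
        rw [e1, e2, e3, neg_div, neg_sq]
        exact h'
      · rw [show Ising.avg J b (fun x => -h x) = -μ by simp [Ising.avg, μ, Finset.sum_neg_distrib],
          abs_of_nonneg hμ]
        exact le_of_eq (by ring_nf)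
    · refine (avg_mono J b (hsq (fun x => -h x) fun x => neg_le_abs _)).trans ?_
      simp only [neg_neg]
      rw [avg_mul_left, abs_of_nonpos hμ]
      refine mul_le_mul_of_nonneg_left ((mgf_le J b h (fun l hl => hvar hl) hV).trans
        (le_of_eq (congrArg Real.exp ?_))) (by norm_num)
      show 4 * μ + 16 * V = _
      ring
  refine hup.trans (le_trans ?_ (mul_le_mul_of_nonneg_left
    (pow_le_pow_left₀ (Real.exp_pos _).le hlow 2) (by positivity)))
  rw [← Real.exp_nat_mul, mul_assoc, ← Real.exp_add]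
  refine mul_le_mul_of_nonneg_left (Real.exp_le_exp.2 (le_of_eq ?_)) (by norm_num)
  push_cast; ring

/-- the discrete gradient of `∑ p_j t_j` -/
lemma grad_le (hJ : OpNorm.OpLe (Matrix.of J) Λ) (p : Fin n → ℝ) (x : Cfg n) :
    ∑ k, (∑ j, p j * Ising.dd k (Ising.mag J b j) x) ^ 2 ≤
      2 * (Λ ^ 2 + (4 * Real.exp (4 * Λ) + 4 * Λ) ^ 2 * Λ ^ 4) *
        ∑ j, (p j * (1 - Ising.mag J b j x ^ 2)) ^ 2 := by
  set C := 4 * Real.exp (4 * Λ) + 4 * Λ
  have hC : 0 ≤ C := by have := hJ.1; positivity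
  set α : Fin n → ℝ := fun j => p j * (1 - Ising.mag J b j x ^ 2)
  have h1 := (hJ.transpose).2 α
  have h2 := ((hJ.hadamard hJ).transpose).2 (fun j => |α j|)
  have h3 : ∀ k, (∑ j, p j * Ising.dd k (Ising.mag J b j) x) ^ 2 ≤
      2 * ((Matrix.of J)ᵀ *ᵥ α) k ^ 2 + 2 * C ^ 2 * ((Matrix.of J ⊙ Matrix.of J)ᵀ *ᵥ fun j => |α j|) k ^ 2 := by
    intro k
    have hd : |(∑ j, p j * Ising.dd k (Ising.mag J b j) x) - ((Matrix.of J)ᵀ *ᵥ α) k| ≤
        C * ((Matrix.of J ⊙ Matrix.of J)ᵀ *ᵥ fun j => |α j|) k := by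
      simp only [Matrix.mulVec, dotProduct, Matrix.transpose_apply, Matrix.hadamard_apply, Matrix.of_apply,
        Finset.mul_sum, ← Finset.sum_sub_distrib]
      refine (Finset.abs_sum_le_sum_abs _ _).trans (Finset.sum_le_sum fun j _ => ?_)
      simp only [α]
      rw [show p j * Ising.dd k (Ising.mag J b j) x - J j k * (p j * (1 - Ising.mag J b j x ^ 2)) =
          p j * (Ising.dd k (Ising.mag J b j) x - J j k * (1 - Ising.mag J b j x ^ 2)) by ring,
        abs_mul, abs_mul (p j) (1 - _), abs_of_nonneg (Ising.mag_sq J b j x).1]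
      exact (mul_le_mul_of_nonneg_left (dd_mag hJ j k x) (abs_nonneg _)).trans_eq (by ring)
    have := sq_le_sq' (abs_le.1 hd).1 (abs_le.1 hd).2
    nlinarith [sq_nonneg ((∑ j, p j * Ising.dd k (Ising.mag J b j) x) - 2 * ((Matrix.of J)ᵀ *ᵥ α) k)]
  have e : OpNorm.nsq (fun j => |α j|) = OpNorm.nsq α := by simp [OpNorm.nsq, sq_abs]
  rw [e] at h2
  refine (Finset.sum_le_sum fun k _ => h3 k).trans ?_
  rw [Finset.sum_add_distrib, ← Finset.mul_sum, ← Finset.mul_sum]
  have h2' := mul_le_mul_of_nonneg_left h2 (by positivity : 0 ≤ 2 * C ^ 2)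
  simp only [OpNorm.nsq] at h1 h2'
  refine (add_le_add (mul_le_mul_of_nonneg_left h1 two_pos.le) h2').trans_eq ?_
  ring

end Vale.Agent.P150.PartB.FB

namespace Vale.Agent.P150.PartB

open FB in
/-- A weak Poincaré inequality at the fields near `y` bounds the normalised covariance. -/
theorem fBound : FBound := by
  intro Λ P hΛ hP
  set C3 := 2 * (Λ ^ 2 + (4 * Real.exp (4 * Λ) + 4 * Λ) ^ 2 * Λ ^ 4)
  set Kσ := 16 * Real.exp (18 * (P * Λ ^ 2 + 1) + 2)
  set V1 := P * (C3 * Kσ) + 1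
  have hC3 : 0 ≤ C3 := by positivity
  have hV1 : 0 ≤ V1 := by positivity
  refine ⟨max (4 * Λ + 4) (2 * V1 + Real.sqrt C3 * Kσ), lt_max_of_lt_left (by linarith),
    fun n c J B hC s hs0 hs1 y Y e hy he heK hWP => ?_⟩
  set K := max (4 * Λ + 4) (2 * V1 + Real.sqrt C3 * Kσ)
  have hK4 : 4 * Λ + 4 ≤ K := le_max_left _ _
  have hK0 : 0 ≤ K := le_trans (by linarith) hK4
  rcases Nat.eq_zero_or_pos n with hn | hn
  · subst hn
    rw [Subsingleton.elim (fMat J s y) 0, norm_zero]; exact hK0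
  have hY : 0 ≤ Y := (abs_nonneg _).trans (hy ⟨0, hn⟩)
  set G : Fin n → Fin n → ℝ := fun i j => (1 - s) * J i j
  have hG : Matrix.of G = (1 - s) • J := by ext i j; simp [G]
  have hJ : OpNorm.OpLe (Matrix.of G) Λ := by
    refine OpNorm.opLe_iff_norm_le.2 ?_
    rw [hG, norm_smul, Real.norm_eq_abs]
    refine (mul_le_of_le_one_left (norm_nonneg J) (abs_le.2 ⟨by linarith, by linarith⟩)).trans ?_
    linarith [hC.op, abs_nonneg c]
  have hs : ∀ i j, G i j = G j i := fun i j => by simp only [G, hC.symm i j]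
  have hd : ∀ i, G i i = 0 := fun i => by simp only [G, hC.diag i, mul_zero]
  have hW : ∀ w : Fin n → ℝ, nrm w ≤ 4 * Λ → WP (Matrix.of G) (y + w) P e := fun w hw =>
    hG ▸ hWP w (hw.trans (by linarith))
  set r := Real.sqrt n
  have hr : 0 ≤ r := Real.sqrt_nonneg _
  have hrn : r ^ 2 = n := Real.sq_sqrt (Nat.cast_nonneg n)
  have hexp : e * ((n : ℝ) * Real.exp (4 * (Y + Λ * r))) ≤ 1 ∧ e * (Y + Λ * r) ^ 2 ≤ 1 := by
    have h1 : (n : ℝ) ≤ Real.exp (2 * r) := by
      rw [← hrn, two_mul, Real.exp_add, sq]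
      have := Real.add_one_le_exp r
      exact mul_le_mul (by linarith) (by linarith) hr (Real.exp_pos _).le
    have h2 : (Y + Λ * r) ^ 2 ≤ Real.exp (4 * (Y + Λ * r)) := by
      have h0 : 0 ≤ Y + Λ * r := by positivity
      have := Real.add_one_le_exp (2 * (Y + Λ * r))
      rw [show 4 * (Y + Λ * r) = 2 * (Y + Λ * r) + 2 * (Y + Λ * r) by ring, Real.exp_add, sq]
      exact mul_le_mul (by linarith) (by linarith) h0 (Real.exp_pos _).le
    have h4 : 2 * r + 4 * (Y + Λ * r) ≤ K * (Y + r + 1) := by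
      nlinarith [mul_le_mul_of_nonneg_right hK4 (by positivity : (0:ℝ) ≤ Y + r + 1)]
    constructor
    · refine (mul_le_mul_of_nonneg_left (le_trans ?_ (Real.exp_le_exp.2 h4)) he).trans heK
      rw [Real.exp_add]; exact mul_le_mul_of_nonneg_right h1 (Real.exp_pos _).le
    · refine (mul_le_mul_of_nonneg_left (h2.trans (Real.exp_le_exp.2 (le_trans ?_ h4))) he).trans heK
      linarith
  set σ : Fin n → Cfg n → ℝ := fun j x => 1 - Ising.mag G y j x ^ 2
  set m : Fin n → ℝ := fun j => mean J s y j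
  set D : Fin n → ℝ := fun j => 1 - m j ^ 2
  have hm : ∀ j, m j = Ising.avg G y (Ising.mag G y j) := fun j => mean_mag hs hd j
  have hσ0 : ∀ j x, Real.exp (-(2 * (Y + Λ * r))) ≤ σ j x := fun j x =>
    (Real.exp_le_exp.2 (by linarith [abs_fld_le hJ hy j x])).trans (sech_bounds (Ising.fld G y j x)).1
  have hDσ : ∀ j, Ising.avg G y (σ j) ≤ D j := fun j => by
    have := varW_nonneg G y (Ising.mag G y j)
    rw [varW_eq] at this
    simp only [σ, D, hm j, avg_sub, avg_const]
    linarith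
  have hD0 : ∀ j, Real.exp (-(2 * (Y + Λ * r))) ≤ D j := fun j =>
    ((avg_const G y _).symm.le.trans (avg_mono G y (hσ0 j))).trans (hDσ j)
  have hDne : ∀ j, D j ≠ 0 := fun j => ((Real.exp_pos _).trans_le (hD0 j)).ne'
  have hmom : ∀ p : Fin n → ℝ, Ising.avg G y (fun x => ∑ j, (p j * σ j x) ^ 2) ≤
      Kσ * OpNorm.nsq (fun j => p j * D j) := fun p => by
    rw [avg_sum, OpNorm.nsq, Finset.mul_sum]
    refine Finset.sum_le_sum fun j _ => ?_
    simp only [mul_pow, avg_mul_left]
    rw [mul_left_comm]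
    refine mul_le_mul_of_nonneg_left ((sech_moment hJ hP.le hy hexp.2 j hW).trans ?_) (sq_nonneg _)
    exact mul_le_mul_of_nonneg_left (pow_le_pow_left₀
      (Finset.sum_nonneg fun x _ => mul_nonneg (Ising.wt_pos G y x).le (Ising.mag_sq G y j x).1) (hDσ j) 2)
      (by positivity)
  have hdd : ∀ (p : Fin n → ℝ) (k : Fin n) (x : Cfg n),
      Ising.dd k (fun z => ∑ j, p j * Ising.mag G y j z) x = ∑ j, p j * Ising.dd k (Ising.mag G y j) x :=
    fun p k x => by
      simp only [Ising.dd, ← Finset.sum_sub_distrib, Finset.sum_div]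
      exact Finset.sum_congr rfl fun j _ => by ring
  have hvar : ∀ p : Fin n → ℝ, varW G y (fun x => ∑ j, p j * Ising.mag G y j x) ≤
      V1 * OpNorm.nsq (fun j => p j * D j) := by
    intro p
    have h0 : nrm (0 : Fin n → ℝ) ≤ 4 * Λ := by simp [nrm]; linarith
    have h := hW 0 h0 (fun x => ∑ j, p j * Ising.mag G y j x) (∑ j, |p j|) fun x =>
      (Finset.abs_sum_le_sum_abs _ _).trans (Finset.sum_le_sum fun j _ => by
        rw [abs_mul]; exact mul_le_of_le_one_right (abs_nonneg _) (Ising.tanh_abs_lt _).le)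
    rw [add_zero] at h
    refine le_trans h (le_of_le_of_eq (add_le_add (mul_le_mul_of_nonneg_left ?_ hP.le) ?_)
      (show P * (C3 * (Kσ * OpNorm.nsq fun j => p j * D j)) + 1 * OpNorm.nsq (fun j => p j * D j) =
        V1 * OpNorm.nsq (fun j => p j * D j) by simp only [V1]; ring))
    · refine (dir_le (J := G) _).trans ((avg_mono G y fun x => ?_).trans
        ((avg_mul_left G y C3 _).le.trans (mul_le_mul_of_nonneg_left (hmom p) hC3)))
      simp only [hdd]
      exact grad_le hJ p x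
    · have h1 : (∑ j, |p j|) ^ 2 ≤ n * ∑ j, p j ^ 2 := by
        simpa [sq_abs] using sq_sum_le_card_mul_sum_sq (s := (Finset.univ : Finset (Fin n))) (f := fun j => |p j|)
      have h2 : ∑ j, p j ^ 2 ≤ Real.exp (4 * (Y + Λ * r)) * OpNorm.nsq (fun j => p j * D j) := by
        rw [OpNorm.nsq, Finset.mul_sum]
        refine Finset.sum_le_sum fun j _ => ?_
        have h3 := pow_le_pow_left₀ (Real.exp_pos _).le (hD0 j) 2
        rw [← Real.exp_nat_mul, Nat.cast_ofNat, show (2 : ℝ) * -(2 * (Y + Λ * r)) = -(4 * (Y + Λ * r)) by ring,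
          Real.exp_neg, inv_le_iff_one_le_mul₀' (Real.exp_pos _)] at h3
        rw [mul_pow]
        nlinarith [mul_le_mul_of_nonneg_left h3 (sq_nonneg (p j))]
      refine (mul_le_mul_of_nonneg_left
        (h1.trans (mul_le_mul_of_nonneg_left h2 (Nat.cast_nonneg n))) he).trans ?_
      calc e * ((n : ℝ) * (Real.exp (4 * (Y + Λ * r)) * OpNorm.nsq fun j => p j * D j))
          = e * ((n : ℝ) * Real.exp (4 * (Y + Λ * r))) * OpNorm.nsq (fun j => p j * D j) := by ring
        _ ≤ _ := mul_le_mul_of_nonneg_right hexp.1 (OpNorm.nsq_nonneg _)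
  refine OpNorm.opLe_iff_norm_le.1 (OpNorm.opLe_of_bilin hK0 fun v w => ?_)
  set p : Fin n → ℝ := fun j => v j / D j
  set q : Fin n → ℝ := fun j => w j / D j
  have hpD : (fun j => p j * D j) = v := funext fun j => div_mul_cancel₀ _ (hDne j)
  have hqD : (fun j => q j * D j) = w := funext fun j => div_mul_cancel₀ _ (hDne j)
  set t : Fin n → Cfg n → ℝ := fun j => Ising.mag G y j
  set cv : Fin n → Fin n → ℝ := fun j k => Ising.avg G y (fun x => t j x * t k x) - m j * m k
  set gk : Fin n → Fin n → ℝ := fun j k => Ising.avg G y (fun x => σ k x * Ising.dd k (t j) x)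
  have hgkk : ∀ k, gk k k = 0 := fun k => by
    simp only [gk, t, dd_mag_self hd, mul_zero, avg_const]
  have hF : v ⬝ᵥ (fMat J s y *ᵥ w) =
      (∑ j, ∑ k, p j * q k * cv j k) + (∑ j, ∑ k, p j * q k * gk j k) - ∑ j, p j * q j * cv j j := by
    simp only [dotProduct, Matrix.mulVec, Finset.mul_sum, ← Finset.sum_add_distrib]
    rw [← Finset.sum_sub_distrib]
    refine Finset.sum_congr rfl fun j _ => ?_
    rw [eq_sub_iff_add_eq, ← eq_sub_iff_add_eq', ← Finset.sum_sub_distrib,
      Finset.sum_eq_single j ?_ (by simp)]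
    · simp [fMat, hgkk]
    · intro k _ hk
      have e1 : cov J s y j k = cv j k + gk j k := by
        have h := moment_split hs hd (b := y) (j := j) (k := k) (Ne.symm hk)
        simp only [cv, gk, t, σ]
        show Ising.avg G y (fun x => spin (x j) * spin (x k)) - m j * m k = _
        linarith
      simp only [fMat, Matrix.of_apply, if_neg (Ne.symm hk), e1, p, q]
      show p j * q k * cv j k + p j * q k * gk j k - v j * ((cv j k + gk j k) / (D j * D k) * w k) = 0
      simp only [p, q]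
      field_simp
      ring
  set f : Cfg n → ℝ := fun x => ∑ j, p j * t j x
  set g : Cfg n → ℝ := fun x => ∑ k, q k * t k x
  have hT1 : |∑ j, ∑ k, p j * q k * cv j k| ≤
      V1 * Real.sqrt (OpNorm.nsq v) * Real.sqrt (OpNorm.nsq w) := by
    have hmf : Ising.avg G y f = ∑ j, p j * m j := by simp only [f, avg_sum, avg_mul_left, hm, t]
    have hmg : Ising.avg G y g = ∑ k, q k * m k := by simp only [g, avg_sum, avg_mul_left, hm, t]
    have e1 : ∑ j, ∑ k, p j * q k * cv j k =
        Ising.avg G y (fun x => f x * g x) - Ising.avg G y f * Ising.avg G y g := by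
      rw [hmf, hmg]
      simp only [f, g, cv, Finset.sum_mul_sum, avg_sum, ← Finset.sum_sub_distrib]
      refine Finset.sum_congr rfl fun j _ => Finset.sum_congr rfl fun k _ => ?_
      simp only [show ∀ x, p j * t j x * (q k * t k x) = p j * q k * (t j x * t k x) from fun x => by ring,
        avg_mul_left]
      ring
    rw [e1]
    refine (abs_cov_le G y f g).trans ?_
    have ha := hvar p
    have hb := hvar q
    rw [hpD] at ha; rw [hqD] at hb
    refine (mul_le_mul (Real.sqrt_le_sqrt ha) (Real.sqrt_le_sqrt hb) (Real.sqrt_nonneg _)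
      (Real.sqrt_nonneg _)).trans_eq ?_
    rw [Real.sqrt_mul hV1, Real.sqrt_mul hV1, mul_mul_mul_comm, Real.mul_self_sqrt hV1, mul_assoc]
  have hT2 : |∑ j, ∑ k, p j * q k * gk j k| ≤
      Real.sqrt C3 * Kσ * Real.sqrt (OpNorm.nsq v) * Real.sqrt (OpNorm.nsq w) := by
    set A : Cfg n → ℝ := fun x => Real.sqrt (∑ k, (∑ j, p j * Ising.dd k (t j) x) ^ 2)
    set Bq : Cfg n → ℝ := fun x => Real.sqrt (∑ k, (q k * σ k x) ^ 2)
    have e1 : ∑ j, ∑ k, p j * q k * gk j k =
        Ising.avg G y (fun x => ∑ k, (∑ j, p j * Ising.dd k (t j) x) * (q k * σ k x)) := by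
      simp only [gk, avg_sum, Finset.sum_mul]
      rw [Finset.sum_comm]
      refine Finset.sum_congr rfl fun k _ => Finset.sum_congr rfl fun j _ => ?_
      rw [← avg_mul_left]
      exact congrArg _ (funext fun x => by ring)
    rw [e1]
    have h1 : |Ising.avg G y (fun x => ∑ k, (∑ j, p j * Ising.dd k (t j) x) * (q k * σ k x))| ≤
        Ising.avg G y (fun x => A x * Bq x) := by
      refine (Finset.abs_sum_le_sum_abs _ _).trans (Finset.sum_le_sum fun x _ => ?_)
      rw [abs_mul, abs_of_pos (Ising.wt_pos G y x)]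
      exact mul_le_mul_of_nonneg_left (OpNorm.abs_dot_le _ _) (Ising.wt_pos G y x).le
    refine h1.trans ((Real.le_sqrt_of_sq_le (sq_avg_mul_le G y A Bq)).trans ?_)
    have hA : Ising.avg G y (fun x => A x ^ 2) ≤ C3 * (Kσ * OpNorm.nsq v) := by
      simp only [A, Real.sq_sqrt (Finset.sum_nonneg fun k _ => sq_nonneg _)]
      refine (avg_mono G y fun x => grad_le hJ p x).trans ((avg_mul_left G y C3 _).le.trans ?_)
      exact mul_le_mul_of_nonneg_left ((hmom p).trans_eq (by rw [hpD])) hC3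
    have hB : Ising.avg G y (fun x => Bq x ^ 2) ≤ Kσ * OpNorm.nsq w := by
      simp only [Bq, Real.sq_sqrt (Finset.sum_nonneg fun k _ => sq_nonneg _)]
      exact (hmom q).trans_eq (by rw [hqD])
    refine (Real.sqrt_le_sqrt (mul_le_mul hA hB
      (Finset.sum_nonneg fun x _ => mul_nonneg (Ising.wt_pos G y x).le (sq_nonneg _))
      (mul_nonneg hC3 (mul_nonneg (by positivity) (OpNorm.nsq_nonneg v))))).trans_eq ?_
    rw [show C3 * (Kσ * OpNorm.nsq v) * (Kσ * OpNorm.nsq w) =
      C3 * Kσ ^ 2 * OpNorm.nsq v * OpNorm.nsq w by ring,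
      Real.sqrt_mul (mul_nonneg (by positivity) (OpNorm.nsq_nonneg v)), Real.sqrt_mul (by positivity),
      Real.sqrt_mul hC3, Real.sqrt_sq (by positivity)]
  have hT3 : |∑ j, p j * q j * cv j j| ≤ V1 * Real.sqrt (OpNorm.nsq v) * Real.sqrt (OpNorm.nsq w) := by
    have hj : ∀ j, |p j * q j * cv j j| ≤ V1 * (|v j| * |w j|) := fun j => by
      have h := hvar (Pi.single j 1)
      have e1 : (fun x => ∑ i, (Pi.single j (1 : ℝ) : Fin n → ℝ) i * Ising.mag G y i x) = t j := by
        funext x; simp [Pi.single_apply, t]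
      have e2 : OpNorm.nsq (fun i => (Pi.single j (1 : ℝ) : Fin n → ℝ) i * D i) = D j ^ 2 := by
        simp [OpNorm.nsq, Pi.single_apply]
      rw [e1, e2, varW_eq] at h
      have hcv : cv j j = Ising.avg G y (fun x => t j x ^ 2) - Ising.avg G y (t j) ^ 2 := by
        simp only [cv, t, hm]; simp only [← sq]
      have h0 := varW_nonneg G y (t j)
      rw [varW_eq, ← hcv] at h0
      rw [← hcv] at h
      rw [abs_mul, abs_mul, abs_of_nonneg h0]
      calc |p j| * |q j| * cv j j ≤ |p j| * |q j| * (V1 * D j ^ 2) :=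
            mul_le_mul_of_nonneg_left h (mul_nonneg (abs_nonneg _) (abs_nonneg _))
        _ = V1 * (|p j * D j| * |q j * D j|) := by
            rw [abs_mul, abs_mul, ← sq_abs (D j)]; ring
        _ = _ := by rw [congrFun hpD j, congrFun hqD j]
    refine (Finset.abs_sum_le_sum_abs _ _).trans ((Finset.sum_le_sum fun j _ => hj j).trans ?_)
    rw [← Finset.mul_sum, mul_assoc]
    refine mul_le_mul_of_nonneg_left ((Real.sum_mul_le_sqrt_mul_sqrt _ _ _).trans_eq ?_) hV1
    simp [OpNorm.nsq, sq_abs]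
  rw [hF]
  refine ((abs_sub _ _).trans (add_le_add ((abs_add_le _ _).trans (add_le_add hT1 hT2)) hT3)).trans ?_
  calc _ = (2 * V1 + Real.sqrt C3 * Kσ) * Real.sqrt (OpNorm.nsq v) * Real.sqrt (OpNorm.nsq w) := by ring
    _ ≤ _ := mul_le_mul_of_nonneg_right (mul_le_mul_of_nonneg_right (le_max_right _ _) (Real.sqrt_nonneg _))
        (Real.sqrt_nonneg _)

end Vale.Agent.P150.PartB
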