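import Vale.Agent.P150.Fast.PartB.Coarse
import Vale.Agent.P150.Fast.PartB.Spec
import Vale.Agent.P150.Fast.OpNormBridge
import Vale.Agent.P150.Fast.Channel
import Vale.Agent.P150.Fast.PoincareC1

/-!
# P150, Part B: the kernel of the channel

Bayes identity, the translated form, linearity, the martingale property and the facts of
`KernelFacts`.
-/

open MeasureTheory ProbabilityTheory Matrix
open scoped Matrix.Norms.L2Operator

namespace Vale.Agent.P150.PartB

variable {n : ℕ} {Λ c : ℝ} {J B : Matrix (Fin n) (Fin n) ℝ}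

lemma sig_sq (hJ : Ctl Λ c J B) (x : Cfg n) :
    ∑ k, sig B x k ^ 2 = (∑ i, ∑ j, J i j * (spin (x i) * spin (x j))) + c * n := by
  have h : ∑ k, sig B x k ^ 2 = svec x ⬝ᵥ (B * Bᵀ) *ᵥ svec x := by
    rw [← Matrix.mulVec_mulVec, Matrix.dotProduct_mulVec, ← Matrix.mulVec_transpose]
    exact Finset.sum_congr rfl fun k _ => pow_two _
  rw [h, hJ.factor, Matrix.add_mulVec, dotProduct_add, Matrix.smul_mulVec, Matrix.one_mulVec,
    dotProduct_smul, smul_eq_mul]
  congr 1
  · simp only [dotProduct, Matrix.mulVec, svec, Finset.mul_sum]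
    exact Finset.sum_congr rfl fun i _ => Finset.sum_congr rfl fun j _ => by ring
  · congr 1
    simp [dotProduct, svec, spin_mul_self]

/-- the field of the channel -/
lemma sig_dot (x : Cfg n) (z : Fin n → ℝ) : dot (sig B x) z = ∑ i, (B *ᵥ z) i * spin (x i) := by
  simp only [dot, sig, Matrix.mulVec, dotProduct, Matrix.transpose_apply, svec, Finset.sum_mul]
  rw [Finset.sum_comm]
  exact Finset.sum_congr rfl fun i _ => Finset.sum_congr rfl fun k _ => by ring

lemma ker_eq (hJ : Ctl Λ c J B) (θ : ℝ) (z : Fin n → ℝ) (x : Cfg n) :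
    ker (sig B) θ z x = Real.exp (∑ i, (θ * (B *ᵥ z) i) * spin (x i)
      - θ ^ 2 / 2 * ((∑ i, ∑ j, J i j * (spin (x i) * spin (x j))) + c * n)) := by
  rw [ker, sig_sq hJ, sig_dot, Finset.mul_sum]
  simp only [mul_assoc]

lemma qE_smul (a : ℝ) (b : Fin n → ℝ) (x : Cfg n) : Ising.qE (a • J) b x =
    (∑ i, ∑ j, a * J i j * (spin (x i) * spin (x j))) / 2 + ∑ i, b i * spin (x i) := rfl

lemma sum_wt (K : Matrix (Fin n) (Fin n) ℝ) (y : Fin n → ℝ) : ∑ x, Ising.wt K y x = 1 :=
  Ising.wt_sum _ _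

lemma qE_step (s θ : ℝ) (y z : Fin n → ℝ) (x : Cfg n) :
    Ising.qE ((1 - (s + θ ^ 2)) • J) (y + θ • B *ᵥ z) x = Ising.qE ((1 - s) • J) y x +
      (∑ i, (θ * (B *ᵥ z) i) * spin (x i)
        - θ ^ 2 / 2 * ∑ i, ∑ j, J i j * (spin (x i) * spin (x j))) := by
  rw [show Ising.qE ((1 - (s + θ ^ 2)) • J) (y + θ • B *ᵥ z) x = _ from qE_smul _ _ _,
    show Ising.qE ((1 - s) • J) y x = _ from qE_smul _ _ _]
  simp only [Pi.add_apply, Pi.smul_apply, smul_eq_mul, add_mul,
    Finset.sum_add_distrib, mul_assoc, ← Finset.mul_sum]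
  ring

/-- Bayes: the likelihood times the prior is the mixture times the posterior one step later. -/
lemma post_eq (hJ : Ctl Λ c J B) (s θ : ℝ) (y z : Fin n → ℝ) (x : Cfg n) :
    Ising.wt ((1 - s) • J) y x * ker (sig B) θ z x =
      mix (Ising.wt ((1 - s) • J) y) (sig B) θ z *
        Ising.wt ((1 - (s + θ ^ 2)) • J) (y + θ • B *ᵥ z) x := by
  set E := fun x : Cfg n => Real.exp (∑ i, (θ * (B *ᵥ z) i) * spin (x i)
        - θ ^ 2 / 2 * ∑ i, ∑ j, J i j * (spin (x i) * spin (x j))) with hE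
  have hk : ∀ x, ker (sig B) θ z x = E x * Real.exp (-(θ ^ 2 / 2 * (c * n))) := fun x => by
    rw [ker_eq hJ, hE, ← Real.exp_add]; ring_nf
  have hw : ∀ x, Real.exp (Ising.qE ((1 - (s + θ ^ 2)) • J) (y + θ • B *ᵥ z) x) =
      Real.exp (Ising.qE ((1 - s) • J) y x) * E x := fun x => by
    rw [qE_step, Real.exp_add]
  simp only [mix, Ising.wt, hk, hw, div_mul_eq_mul_div, ← Finset.sum_div]
  have hZ : (0 : ℝ) < ∑ x, Real.exp (Ising.qE ((1 - s) • J) y x) :=
    Finset.sum_pos (fun x _ => Real.exp_pos _) Finset.univ_nonempty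
  have hS : (0 : ℝ) < ∑ x, Real.exp (Ising.qE ((1 - s) • J) y x) * E x :=
    Finset.sum_pos (fun x _ => mul_pos (Real.exp_pos _) (Real.exp_pos _)) Finset.univ_nonempty
  simp only [← mul_assoc, ← Finset.sum_mul]
  field_simp

variable (J B) in
lemma mix_pos' (s θ : ℝ) (y z : Fin n → ℝ) : 0 < mix (Ising.wt ((1 - s) • J) y) (sig B) θ z :=
  mix_pos (fun x => Ising.wt_pos _ _ x) _ θ z

/-- The posterior average one step later, as a ratio of mixtures. -/
lemma avg_step (hJ : Ctl Λ c J B) (s θ : ℝ) (y z : Fin n → ℝ) (f : Cfg n → ℝ) :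
    mix (Ising.wt ((1 - s) • J) y) (sig B) θ z *
        Ising.avg ((1 - (s + θ ^ 2)) • J) (y + θ • B *ᵥ z) f =
      mix (fun x => Ising.wt ((1 - s) • J) y x * f x) (sig B) θ z := by
  simp only [Ising.avg, Finset.mul_sum, ← mul_assoc, ← post_eq hJ]
  simp only [mix]
  exact Finset.sum_congr rfl fun x _ => mul_right_comm _ _ _

lemma continuous_step (θ : ℝ) (y : Fin n → ℝ) : Continuous fun z => y + θ • B *ᵥ z :=
  continuous_const.add ((Continuous.matrix_mulVec continuous_const continuous_id).const_smul θ)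

lemma sig_bound (x : Cfg n) (k : Fin n) : |sig B x k| ≤ ∑ y, ∑ k, |sig B y k| :=
  (Finset.single_le_sum (f := fun k => |sig B x k|) (fun _ _ => abs_nonneg _) (Finset.mem_univ k)).trans
    (Finset.single_le_sum (f := fun y => ∑ k, |sig B y k|)
      (fun _ _ => Finset.sum_nonneg fun _ _ => abs_nonneg _) (Finset.mem_univ x))

lemma integrable_mix (w : Cfg n → ℝ) (θ : ℝ) : Integrable (fun z => mix w (sig B) θ z) (gauss (Fin n)) :=
  integrable_of_bound (continuous_mix _ _ _) fun z => abs_mix_le sig_bound w θ z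

variable (J B) in
lemma integrable_kern (s θ : ℝ) (y : Fin n → ℝ) {F : (Fin n → ℝ) → ℝ} {M : ℝ} (hF : Measurable F)
    (hM : ∀ Y, |F Y| ≤ M) :
    Integrable (fun z => mix (Ising.wt ((1 - s) • J) y) (sig B) θ z * F (y + θ • B *ᵥ z))
      (gauss (Fin n)) :=
  (integrable_mix _ θ).mul_bdd (hF.comp (continuous_step θ y).measurable).aestronglyMeasurable
    (Filter.Eventually.of_forall fun z => hM _)

variable (J B) in
lemma kern_const (s θ : ℝ) (y : Fin n → ℝ) (a : ℝ) : kern J B s θ y (fun _ => a) = a := by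
  rw [kern, integral_mul_const, integral_mix, sum_wt, one_mul]

variable (J B) in
lemma kern_add (s θ : ℝ) (y : Fin n → ℝ) {F G : (Fin n → ℝ) → ℝ} {M M' : ℝ} (hF : Measurable F)
    (hM : ∀ Y, |F Y| ≤ M) (hG : Measurable G) (hM' : ∀ Y, |G Y| ≤ M') :
    kern J B s θ y (fun Y => F Y + G Y) = kern J B s θ y F + kern J B s θ y G := by
  simp only [kern, mul_add]
  exact integral_add (integrable_kern J B s θ y hF hM) (integrable_kern J B s θ y hG hM')

variable (J B) in
lemma kern_smul (s θ : ℝ) (y : Fin n → ℝ) (a : ℝ) (F : (Fin n → ℝ) → ℝ) :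
    kern J B s θ y (fun Y => a * F Y) = a * kern J B s θ y F := by
  simp only [kern, mul_left_comm _ a, integral_const_mul]

variable (J B) in
lemma kern_mono (s θ : ℝ) (y : Fin n → ℝ) {F G : (Fin n → ℝ) → ℝ} {M M' : ℝ} (hF : Measurable F)
    (hM : ∀ Y, |F Y| ≤ M) (hG : Measurable G) (hM' : ∀ Y, |G Y| ≤ M') (h : ∀ Y, F Y ≤ G Y) :
    kern J B s θ y F ≤ kern J B s θ y G :=
  integral_mono (integrable_kern J B s θ y hF hM) (integrable_kern J B s θ y hG hM')
    fun z => mul_le_mul_of_nonneg_left (h _) (mix_pos' J B s θ y z).le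

variable (J B) in
lemma kern_affine (s θ : ℝ) (y : Fin n → ℝ) (a b : ℝ) {F : (Fin n → ℝ) → ℝ} {M : ℝ}
    (hF : Measurable F) (hM : ∀ Y, |F Y| ≤ M) :
    kern J B s θ y (fun Y => a + b * F Y) = a + b * kern J B s θ y F := by
  rw [kern_add J B s θ y (M := |a|) (M' := |b| * M) measurable_const (fun _ => le_rfl)
    (hF.const_mul b) (fun Y => by rw [abs_mul]; exact mul_le_mul_of_nonneg_left (hM Y) (abs_nonneg b)),
    kern_const, kern_smul]

variable (J B) in
lemma kern_zero (s : ℝ) (y : Fin n → ℝ) (F : (Fin n → ℝ) → ℝ) : kern J B s 0 y F = F y := by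
  have h : ∀ z, mix (Ising.wt ((1 - s) • J) y) (sig B) 0 z = 1 := fun z => by
    simp [mix, ker, sum_wt]
  simp [kern, h]

lemma measurable_avg (K : Matrix (Fin n) (Fin n) ℝ) (f : Cfg n → ℝ) :
    Measurable fun Y => Ising.avg K Y f := by
  refine Continuous.measurable ?_
  unfold Ising.avg Ising.wt Ising.qE
  refine continuous_finsetSum _ fun x _ => Continuous.mul (Continuous.div ?_ ?_ fun Y => ?_) continuous_const
  · fun_prop
  · fun_prop
  · exact (Finset.sum_pos (fun x _ => Real.exp_pos _) Finset.univ_nonempty).ne'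

lemma abs_avg_le (K : Matrix (Fin n) (Fin n) ℝ) (Y : Fin n → ℝ) {f : Cfg n → ℝ} {M : ℝ}
    (hf : ∀ x, |f x| ≤ M) : |Ising.avg K Y f| ≤ M :=
  calc |Ising.avg K Y f| ≤ ∑ x, |Ising.wt K Y x * f x| := Finset.abs_sum_le_sum_abs _ _
    _ ≤ ∑ x, Ising.wt K Y x * M := Finset.sum_le_sum fun x _ => by
        rw [abs_mul, abs_of_pos (show 0 < Ising.wt K Y x from Ising.wt_pos _ _ x)]
        exact mul_le_mul_of_nonneg_left (hf x) (Ising.wt_pos _ _ x).le
    _ = M := by rw [← Finset.sum_mul, sum_wt, one_mul]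

/-- The posterior average is a martingale along the channel. -/
lemma kern_avg (hJ : Ctl Λ c J B) (s θ : ℝ) (y : Fin n → ℝ) (f : Cfg n → ℝ) :
    kern J B s θ y (fun Y => Ising.avg ((1 - (s + θ ^ 2)) • J) Y f) =
      Ising.avg ((1 - s) • J) y f := by
  simp only [kern, avg_step hJ, integral_mix]
  rfl

/-- The kernel is the mixture of the translated Gaussians. -/
lemma kern_translated (hJ : Ctl Λ c J B) (s θ : ℝ) (y : Fin n → ℝ) {F : (Fin n → ℝ) → ℝ} {M : ℝ}
    (hF : Measurable F) (hM : ∀ Y, |F Y| ≤ M) :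
    kern J B s θ y F = ∑ x, Ising.wt ((1 - s) • J) y x *
      ∫ g, F (y + (θ ^ 2) • (J + c • 1) *ᵥ svec x + θ • B *ᵥ g) ∂gauss (Fin n) := by
  simp only [kern, mix, Finset.sum_mul, mul_assoc]
  rw [integral_finsetSum]
  · refine Finset.sum_congr rfl fun x _ => ?_
    rw [integral_const_mul]
    congr 1
    have h := Channel.translate (κ := Fin n) (θ • sig B x) (fun z => F (y + θ • B *ᵥ z))
    have e1 : ∀ g, y + θ • B *ᵥ (g + θ • sig B x) =
        y + (θ ^ 2) • (J + c • 1) *ᵥ svec x + θ • B *ᵥ g := fun g => by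
      rw [← hJ.factor, Matrix.mulVec_add, Matrix.mulVec_smul, sig, Matrix.mulVec_mulVec, smul_add,
        smul_smul, sq]
      abel
    simp only [e1] at h
    rw [h]
    refine integral_congr_ae (Filter.Eventually.of_forall fun z => ?_)
    simp only [ker, Channel.nsq, dot, Pi.smul_apply, smul_eq_mul, mul_pow, mul_assoc, ← Finset.mul_sum]
    ring_nf
  · intro x _
    refine Integrable.const_mul ?_ _
    have h := integrable_mix (n := n) (B := B) (Pi.single x 1) θ
    have e : (fun z => mix (Pi.single x 1) (sig B) θ z) = fun z => ker (sig B) θ z x := by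
      funext z; simp [mix, Pi.single_apply]
    rw [e] at h
    exact h.mul_bdd (hF.comp (continuous_step θ y).measurable).aestronglyMeasurable
      (Filter.Eventually.of_forall fun z => hM _)

end Vale.Agent.P150.PartB
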