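import Vale.Agent.P150.Fast.PartB.GaussMix
import Vale.Agent.P150.Fast.PartB.Kernel

/-!
# P150, Part B: moments of the posterior mean over one short step

`MomentFacts`: the mean is a martingale, its second moments are `θ² C A C` and its third moment is
of order `θ³`. The mixture density `M` is only expanded where it is at least `1/2`; elsewhere
`|1 - M| ≥ 1/2`, so third moments of `1 - M` pay for everything.
-/

open MeasureTheory ProbabilityTheory Matrix
open scoped Matrix.Norms.L2Operator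

namespace Vale.Agent.P150.PartB

variable {n : ℕ} {Λ c : ℝ} {J B : Matrix (Fin n) (Fin n) ℝ}

namespace Moments

/-- centred spin -/
noncomputable def gc (J : Matrix (Fin n) (Fin n) ℝ) (s : ℝ) (y : Fin n → ℝ) (i : Fin n)
    (x : Cfg n) : ℝ := spin (x i) - mean J s y i

/-- the weights at the start -/
noncomputable abbrev w0 (J : Matrix (Fin n) (Fin n) ℝ) (s : ℝ) (y : Fin n → ℝ) : Cfg n → ℝ :=
  Ising.wt ((1 - s) • J) y

lemma abs_spin_le (b : Bool) : |spin b| ≤ 1 := by cases b <;> simp [spin]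

lemma abs_gc_le (s : ℝ) (y : Fin n → ℝ) (i : Fin n) (x : Cfg n) : |gc J s y i x| ≤ 2 := by
  have h : |mean J s y i| ≤ 1 := abs_avg_le _ _ fun x => abs_spin_le (x i)
  exact (abs_sub _ _).trans (by linarith [abs_spin_le (x i)])

lemma sum_gc (s : ℝ) (y : Fin n → ℝ) (i : Fin n) : ∑ x, w0 J s y x * gc J s y i x = 0 := by
  simp only [gc, mul_sub, Finset.sum_sub_distrib, ← Finset.sum_mul]
  rw [show ∑ x, w0 J s y x = 1 from sum_wt _ _, one_mul]
  exact sub_eq_zero.2 rfl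

lemma diff_eq (s θ : ℝ) (y Y : Fin n → ℝ) (i : Fin n) :
    mean J (s + θ ^ 2) Y i - mean J s y i =
      Ising.avg ((1 - (s + θ ^ 2)) • J) Y (gc J s y i) := by
  simp only [gc, Ising.avg, mul_sub, Finset.sum_sub_distrib, ← Finset.sum_mul]
  refine congrArg₂ (· - ·) rfl ?_
  exact ((congrArg (fun a : ℝ => a * mean J s y i) (sum_wt _ Y)).trans (one_mul _)).symm

/-- the numerator of the posterior mean -/
lemma num_eq (hJ : Ctl Λ c J B) (s θ : ℝ) (y z : Fin n → ℝ) (i : Fin n) :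
    mix (w0 J s y) (sig B) θ z * (mean J (s + θ ^ 2) (y + θ • B *ᵥ z) i - mean J s y i) =
      GMix.dev (w0 J s y) (gc J s y i) (sig B) θ z := by
  rw [diff_eq, avg_step hJ]
  simp only [GMix.dev, mul_sub, mul_one, Finset.sum_sub_distrib, sum_gc, sub_zero]
  rfl

lemma den_eq (s θ : ℝ) (y z : Fin n → ℝ) :
    mix (w0 J s y) (sig B) θ z = 1 + GMix.dev (w0 J s y) (fun _ => 1) (sig B) θ z := by
  simp only [GMix.dev, mul_one, mul_sub, Finset.sum_sub_distrib]
  rw [show ∑ x, w0 J s y x = 1 from sum_wt _ _]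
  simp [mix]

lemma sig_sq_le (hJ : Ctl Λ c J B) (hΛ : 0 < Λ) (x : Cfg n) : ∑ k, sig B x k ^ 2 ≤ Λ * n := by
  have h : ∑ k, sig B x k ^ 2 = svec x ⬝ᵥ (B * Bᵀ) *ᵥ svec x := by
    rw [← Matrix.mulVec_mulVec, Matrix.dotProduct_mulVec, ← Matrix.mulVec_transpose]
    exact Finset.sum_congr rfl fun k _ => pow_two _
  rw [h, hJ.factor]
  have hA : ‖J + c • (1 : Matrix (Fin n) (Fin n) ℝ)‖ ≤ Λ := by
    refine (norm_add_le _ _).trans (le_trans ?_ hJ.op)
    have h1 : ‖(1 : Matrix (Fin n) (Fin n) ℝ)‖ ≤ 1 :=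
      Fast.OpNorm.opLe_iff_norm_le.1 ⟨zero_le_one, fun w => by simp⟩
    rw [norm_smul, Real.norm_eq_abs]
    linarith [mul_le_mul_of_nonneg_left h1 (abs_nonneg c)]
  have h2 := (Fast.OpNorm.opLe_iff_norm_le.2 hA).2 (svec x)
  simp only [Fast.OpNorm.nsq] at h2
  set v := (J + c • (1 : Matrix (Fin n) (Fin n) ℝ)) *ᵥ svec x
  have hn : ∑ i, svec x i ^ 2 = (n : ℝ) := by simp [svec, sq, spin_mul_self]
  have h3 : ∀ i, svec x i * v i ≤ (Λ * svec x i ^ 2 + v i ^ 2 / Λ) / 2 := fun i => by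
    have : 0 ≤ (Λ * svec x i - v i) ^ 2 / Λ := by positivity
    field_simp at this ⊢
    linarith
  calc svec x ⬝ᵥ v ≤ ∑ i, (Λ * svec x i ^ 2 + v i ^ 2 / Λ) / 2 := Finset.sum_le_sum fun i _ => h3 i
    _ = (Λ * n + (∑ i, v i ^ 2) / Λ) / 2 := by
        rw [← Finset.sum_div, Finset.sum_add_distrib, ← Finset.mul_sum, ← Finset.sum_div, hn]
    _ ≤ (Λ * n + Λ * n) / 2 := by
        rw [hn] at h2
        have : (∑ i, v i ^ 2) / Λ ≤ Λ * n := by rw [div_le_iff₀ hΛ]; linarith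
        linarith
    _ = Λ * n := by ring

lemma abs_dot_sig_le (hJ : Ctl Λ c J B) (hΛ : 0 < Λ) (x x' : Cfg n) :
    |dot (sig B x) (sig B x')| ≤ Λ * n := by
  refine (Finset.abs_sum_le_sum_abs _ _).trans ?_
  calc ∑ k, |sig B x k * sig B x' k| ≤ ∑ k, (sig B x k ^ 2 + sig B x' k ^ 2) / 2 :=
        Finset.sum_le_sum fun k _ => by
          rw [abs_le]; constructor <;>
            linarith [sq_nonneg (sig B x k + sig B x' k), sq_nonneg (sig B x k - sig B x' k)]
    _ = ((∑ k, sig B x k ^ 2) + ∑ k, sig B x' k ^ 2) / 2 := by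
        rw [← Finset.sum_div, Finset.sum_add_distrib]
    _ ≤ Λ * n := by linarith [sig_sq_le hJ hΛ x, sig_sq_le hJ hΛ x']

/-- the first order term -/
lemma main_eq (hJ : Ctl Λ c J B) (s : ℝ) (y : Fin n → ℝ) (i j : Fin n) :
    ∑ x, ∑ x', w0 J s y x * gc J s y i x * (w0 J s y x' * gc J s y j x') *
        dot (sig B x) (sig B x') =
      (cov J s y * (J + c • 1) * cov J s y) i j := by
  have hC : ∀ i l, ∑ x, w0 J s y x * gc J s y i x * spin (x l) = cov J s y i l := fun i l => by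
    have e : ∀ x, w0 J s y x * gc J s y i x * spin (x l) =
        w0 J s y x * (spin (x i) * spin (x l)) - mean J s y i * (w0 J s y x * spin (x l)) :=
      fun x => by rw [gc]; ring
    simp only [e, Finset.sum_sub_distrib, ← Finset.mul_sum]
    rfl
  have hw : ∀ i k, ∑ x, w0 J s y x * gc J s y i x * sig B x k = (cov J s y * B) i k := fun i k => by
    simp only [sig, Matrix.mulVec, dotProduct, Matrix.transpose_apply, svec, Matrix.mul_apply,
      Finset.mul_sum, ← hC, Finset.sum_mul]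
    rw [Finset.sum_comm]
    exact Finset.sum_congr rfl fun l _ => Finset.sum_congr rfl fun x _ => by ring
  have hsymm : (cov J s y)ᵀ = cov J s y := by
    refine Matrix.ext fun a b => ?_
    simp only [Matrix.transpose_apply, cov, Matrix.of_apply, mul_comm (spin _) (spin _),
      mul_comm (mean J s y b) (mean J s y a)]
  calc ∑ x, ∑ x', w0 J s y x * gc J s y i x * (w0 J s y x' * gc J s y j x') *
        dot (sig B x) (sig B x') = ∑ k, (cov J s y * B) i k * (cov J s y * B) j k := by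
        simp only [dot, ← hw, Finset.sum_mul_sum]
        simp only [Finset.mul_sum]
        rw [Finset.sum_comm (γ := Fin n)]
        refine Finset.sum_congr rfl fun x _ => ?_
        rw [Finset.sum_comm]
        exact Finset.sum_congr rfl fun k _ => Finset.sum_congr rfl fun x' _ => by ring
    _ = ((cov J s y * B) * (cov J s y * B)ᵀ) i j := rfl
    _ = _ := by rw [Matrix.transpose_mul, hsymm, ← Matrix.mul_assoc, Matrix.mul_assoc (cov J s y) B,
          hJ.factor]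

lemma prod_three_le (a b e : ℝ) : |a * b * e| ≤ |a| ^ 3 + |b| ^ 3 + |e| ^ 3 := by
  rw [abs_mul, abs_mul]
  set p := max |a| (max |b| |e|)
  have hp : 0 ≤ p := (abs_nonneg a).trans (le_max_left _ _)
  have h : |a| * |b| * |e| ≤ p ^ 3 := by
    rw [show p ^ 3 = p * p * p by ring]
    exact mul_le_mul (mul_le_mul (le_max_left _ _) ((le_max_left _ _).trans (le_max_right _ _))
      (abs_nonneg _) hp) ((le_max_right _ _).trans (le_max_right _ _)) (abs_nonneg _) (by positivity)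
  refine h.trans ?_
  have := pow_nonneg (abs_nonneg a) 3
  have := pow_nonneg (abs_nonneg b) 3
  have := pow_nonneg (abs_nonneg e) 3
  rcases max_choice |a| (max |b| |e|) with h1 | h1 <;> simp only [p, h1]
  · linarith
  · rcases max_choice |b| |e| with h2 | h2 <;> rw [h2] <;> linarith

lemma split_two {M e a b : ℝ} (hM : 0 < M) (hMe : M = 1 + e) (ha : |a| ≤ 2) (hb : |b| ≤ 2) :
    |M * (a * b) - (M * a) * (M * b)| ≤
      2 * (|M * a| ^ 3 + |M * b| ^ 3 + |e| ^ 3) + 16 * |e| ^ 3 := by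
  have he : M * (a * b) - M * a * (M * b) = -(M * a * b * e) := by
    subst hMe; ring
  rw [he, abs_neg]
  have h0 : 0 ≤ |M * a| ^ 3 + |M * b| ^ 3 + |e| ^ 3 := by positivity
  rcases le_total (1 / 2) M with h | h
  · have h1 : |M * a * b * e| ≤ 2 * |M * a * (M * b) * e| := by
      rw [show M * a * (M * b) * e = M * (M * a * b * e) by ring, abs_mul M (M * a * b * e),
        abs_of_pos hM]
      nlinarith [abs_nonneg (M * a * b * e)]
    linarith [prod_three_le (M * a) (M * b) e, pow_nonneg (abs_nonneg e) 3]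
  · have he2 : 1 / 2 ≤ |e| := by
      rw [abs_of_nonpos (by linarith)]; linarith
    have h1 : |M * a * b * e| ≤ 1 / 2 * 2 * 2 * |e| := by
      rw [abs_mul, abs_mul, abs_mul, abs_of_pos hM]
      gcongr
    have h4 : (1 : ℝ) ≤ 4 * |e| ^ 2 := by nlinarith
    have h5 := mul_le_mul_of_nonneg_left h4 (abs_nonneg e)
    have h6 : |e| * (4 * |e| ^ 2) = 4 * |e| ^ 3 := by ring
    linarith [abs_nonneg e]

lemma split_three {M e a : ℝ} (hM : 0 < M) (hMe : M = 1 + e) (ha : |a| ≤ 2) :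
    M * |a| ^ 3 ≤ 4 * |M * a| ^ 3 + 32 * |e| ^ 3 := by
  rw [abs_mul, abs_of_pos hM]
  rcases le_total (1 / 2) M with h | h
  · have h1 : (1 : ℝ) ≤ 4 * M ^ 2 := by nlinarith
    have h2 := mul_le_mul_of_nonneg_left h1 (mul_nonneg hM.le (pow_nonneg (abs_nonneg a) 3))
    have h3 : M * |a| ^ 3 * (4 * M ^ 2) = 4 * (M * |a|) ^ 3 := by ring
    linarith [pow_nonneg (abs_nonneg e) 3]
  · have he2 : 1 / 2 ≤ |e| := by
      rw [abs_of_nonpos (by linarith)]; linarith
    have h1 : M * |a| ^ 3 ≤ 1 / 2 * 2 ^ 3 := by gcongr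
    have h2 : (1 / 2 : ℝ) ^ 3 ≤ |e| ^ 3 := by gcongr
    have h3 : 0 ≤ 4 * (M * |a|) ^ 3 := by positivity
    norm_num at h1 h2
    linarith

lemma nrm_cube_le (d : Fin n → ℝ) : nrm d ^ 3 ≤ 2 * n * ∑ i, |d i| ^ 3 := by
  set T := nrm d with hT
  have hT0 : 0 ≤ T := Real.sqrt_nonneg _
  have hT2 : T ^ 2 = ∑ i, d i ^ 2 := Real.sq_sqrt (Finset.sum_nonneg fun i _ => sq_nonneg _)
  have hTle : T ≤ ∑ i, |d i| := by
    refine (sq_le_sq₀ hT0 (Finset.sum_nonneg fun i _ => abs_nonneg _)).1 ?_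
    rw [hT2]
    simp only [← sq_abs (d _)]
    exact Finset.sum_sq_le_sq_sum_of_nonneg fun i _ => abs_nonneg _
  calc T ^ 3 = T * ∑ i, d i ^ 2 := by rw [← hT2]; ring
    _ ≤ (∑ j, |d j|) * ∑ i, |d i| ^ 2 := by
        simp only [sq_abs]
        exact mul_le_mul_of_nonneg_right hTle (Finset.sum_nonneg fun i _ => sq_nonneg _)
    _ ≤ ∑ j, ∑ i, (|d j| ^ 3 + |d i| ^ 3) := by
        rw [Finset.sum_mul_sum]
        refine Finset.sum_le_sum fun j _ => Finset.sum_le_sum fun i _ => ?_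
        rcases le_total |d i| |d j| with h | h
        · have h1 := mul_le_mul_of_nonneg_left (pow_le_pow_left₀ (abs_nonneg _) h 2) (abs_nonneg (d j))
          have := pow_nonneg (abs_nonneg (d i)) 3
          linarith [show |d j| * |d j| ^ 2 = |d j| ^ 3 by ring]
        · have h1 := mul_le_mul_of_nonneg_right h (pow_nonneg (abs_nonneg (d i)) 2)
          have := pow_nonneg (abs_nonneg (d j)) 3
          linarith [show |d i| * |d i| ^ 2 = |d i| ^ 3 by ring]
    _ = 2 * n * ∑ i, |d i| ^ 3 := by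
        simp [Finset.sum_add_distrib, Finset.mul_sum]
        rw [← Finset.sum_add_distrib]
        exact Finset.sum_congr rfl fun i _ => by ring

/-- the constant of the third moments -/
noncomputable def K0 (Λ : ℝ) : ℝ :=
  100 * Real.exp (6 * Λ) * 2 ^ 4 * Λ ^ 2 + Real.exp Λ * 2 ^ 2 * Λ

lemma dev_bound (hJ : Ctl Λ c J B) (hΛ : 0 < Λ) (s θ : ℝ) (y : Fin n → ℝ) (hθ : 0 ≤ θ)
    (hn : θ ^ 2 * n ≤ 1) {g : Cfg n → ℝ} (hg : ∀ x, |g x| ≤ 2) :
    ∫ z, |GMix.dev (w0 J s y) g (sig B) θ z| ^ 3 ∂gauss (Fin n) ≤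
      K0 Λ * ((n : ℝ) + 1) ^ 2 * θ ^ 3 := by
  have hU : θ ^ 2 * (Λ * n) ≤ Λ := by
    calc θ ^ 2 * (Λ * n) = Λ * (θ ^ 2 * n) := by ring
      _ ≤ Λ * 1 := mul_le_mul_of_nonneg_left hn hΛ.le
      _ = Λ := mul_one Λ
  refine (GMix.dev_cube (fun x => (Ising.wt_pos _ _ x).le) (sum_wt _ _) hg (sig B) hθ
    (fun x => sig_sq_le hJ hΛ x) (by positivity) hU).trans ?_
  rw [mul_comm _ (θ ^ 3)]
  refine mul_le_mul_of_nonneg_left ?_ (pow_nonneg hθ 3)
  rw [K0, add_mul]
  have h1 : (n : ℝ) ≤ ((n : ℝ) + 1) ^ 2 := by nlinarith [sq_nonneg (n : ℝ)]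
  have h2 : (n : ℝ) ^ 2 ≤ ((n : ℝ) + 1) ^ 2 := by nlinarith [(n.cast_nonneg : (0:ℝ) ≤ n)]
  rw [show (Λ * (n : ℝ)) ^ 2 = Λ ^ 2 * (n : ℝ) ^ 2 by ring]
  simp only [← mul_assoc]
  exact add_le_add (mul_le_mul_of_nonneg_left h2 (by positivity))
    (mul_le_mul_of_nonneg_left h1 (by positivity))

/-- second moments -/
lemma second (hJ : Ctl Λ c J B) (hΛ : 0 < Λ) (s θ : ℝ) (y : Fin n → ℝ) (hθ : 0 ≤ θ)
    (hn : θ ^ 2 * n ≤ 1) (i j : Fin n) :
    |kern J B s θ y (fun Y => (mean J (s + θ ^ 2) Y i - mean J s y i) *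
        (mean J (s + θ ^ 2) Y j - mean J s y j)) -
      θ ^ 2 * (cov J s y * (J + c • 1) * cov J s y) i j| ≤
      (22 * K0 Λ + 4 * Λ ^ 2 * Real.exp Λ) * ((n : ℝ) + 1) ^ 4 * θ ^ 3 := by
  set μ := w0 J s y
  set dY : Fin n → (Fin n → ℝ) → ℝ := fun k Y => mean J (s + θ ^ 2) Y k - mean J s y k with hdY
  have hd : ∀ k, Measurable (dY k) ∧ ∀ Y, |dY k Y| ≤ 2 := fun k => by
    have e : dY k = fun Y => Ising.avg ((1 - (s + θ ^ 2)) • J) Y (gc J s y k) :=
      funext fun Y => diff_eq s θ y Y k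
    rw [e]
    exact ⟨measurable_avg _ _, fun Y => abs_avg_le _ Y (abs_gc_le s y k)⟩
  set N : Fin n → (Fin n → ℝ) → ℝ := fun k => GMix.dev μ (gc J s y k) (sig B) θ with hN
  set E := GMix.dev μ (fun _ => 1) (sig B) θ with hE
  have hprod : ∀ Y, |dY i Y * dY j Y| ≤ 4 := fun Y => by
    rw [abs_mul]
    linarith [mul_le_mul ((hd i).2 Y) ((hd j).2 Y) (abs_nonneg _) zero_le_two]
  have iK : Integrable (fun z => mix (Ising.wt ((1 - s) • J) y) (sig B) θ z *
      (dY i (y + θ • B *ᵥ z) * dY j (y + θ • B *ᵥ z))) (gauss (Fin n)) :=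
    integrable_kern J B s θ y (F := fun Y => dY i Y * dY j Y) ((hd i).1.mul (hd j).1) hprod
  have iN : Integrable (fun z => N i z * N j z) (gauss (Fin n)) :=
    ((GMix.adm_dev _ _ _ _).mul (GMix.adm_dev _ _ _ _)).integrable
  have hpt : ∀ z, |mix μ (sig B) θ z * (dY i (y + θ • B *ᵥ z) * dY j (y + θ • B *ᵥ z)) -
      N i z * N j z| ≤ 2 * (|N i z| ^ 3 + |N j z| ^ 3 + |E z| ^ 3) + 16 * |E z| ^ 3 := fun z => by
    have := split_two (mix_pos' J B s θ y z) (den_eq s θ y z) ((hd i).2 (y + θ • B *ᵥ z))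
      ((hd j).2 (y + θ • B *ᵥ z))
    simp only [dY, num_eq hJ] at this
    exact this
  have i3 : ∀ g, Integrable (fun z => |GMix.dev μ g (sig B) θ z| ^ 3) (gauss (Fin n)) := fun g =>
    ((GMix.adm_dev _ _ _ _).abs.pow 3).integrable
  have hg1 : ∀ x : Cfg n, |(1 : ℝ)| ≤ 2 := fun _ => by norm_num
  set T3 := K0 Λ * ((n : ℝ) + 1) ^ 2 * θ ^ 3 with hT3
  have hR : |kern J B s θ y (fun Y => dY i Y * dY j Y) - ∫ z, N i z * N j z ∂gauss (Fin n)| ≤
      22 * T3 := by
    rw [kern, ← integral_sub iK iN]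
    have iij : Integrable (fun z => |N i z| ^ 3 + |N j z| ^ 3) (gauss (Fin n)) :=
      (i3 _).fun_add (i3 _)
    have iS : Integrable (fun z => |N i z| ^ 3 + |N j z| ^ 3 + |E z| ^ 3) (gauss (Fin n)) :=
      iij.fun_add (i3 _)
    refine abs_integral_le_integral_abs.trans ((integral_mono (iK.sub' iN).abs
      ((iS.const_mul 2).fun_add ((i3 _).const_mul 16)) hpt).trans ?_)
    rw [integral_add (iS.const_mul 2) ((i3 _).const_mul 16), integral_const_mul, integral_const_mul,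
      integral_add iij (i3 _), integral_add (i3 _) (i3 _)]
    have a1 := dev_bound hJ hΛ s θ y hθ hn (abs_gc_le (J := J) s y i)
    have a2 := dev_bound hJ hΛ s θ y hθ hn (abs_gc_le (J := J) s y j)
    have a3 := dev_bound hJ hΛ s θ y hθ hn (g := fun _ => (1 : ℝ)) hg1
    linarith
  have hNN : ∫ z, N i z * N j z ∂gauss (Fin n) =
      ∑ x, ∑ x', μ x * gc J s y i x * (μ x' * gc J s y j x') *
        (Real.exp (θ ^ 2 * dot (sig B x) (sig B x')) - 1) := by
    have ik : ∀ x x', Integrable (fun z => ker (sig B) θ z x * ker (sig B) θ z x')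
        (gauss (Fin n)) := fun x x' =>
      ((GMix.adm_ker _ _ x).mul (GMix.adm_ker _ _ x')).integrable
    have i1 : ∀ x, Integrable (fun z => ker (sig B) θ z x) (gauss (Fin n)) := fun x =>
      (GMix.adm_ker _ _ x).integrable
    have k1 : ∀ x, ∫ z, ker (sig B) θ z x ∂gauss (Fin n) = 1 := fun x => by
      have := GMix.integral_ker_pow (sig B) θ x 1
      simpa using this
    have kk : ∀ x x', ∫ z, (ker (sig B) θ z x - 1) * (ker (sig B) θ z x' - 1) ∂gauss (Fin n) =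
        Real.exp (θ ^ 2 * dot (sig B x) (sig B x')) - 1 := fun x x' => by
      have e : ∀ z, (ker (sig B) θ z x - 1) * (ker (sig B) θ z x' - 1) =
          (ker (sig B) θ z x * ker (sig B) θ z x' - ker (sig B) θ z x) +
            (1 - ker (sig B) θ z x') := fun z => by ring
      simp only [e]
      rw [integral_add ((ik x x').sub' (i1 x)) ((integrable_const _).sub' (i1 x')),
        integral_sub (ik x x') (i1 x), integral_sub (integrable_const _) (i1 x'),
        GMix.integral_ker_ker, k1, k1]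
      simp
    have e : ∀ z, N i z * N j z = ∑ x, ∑ x', μ x * gc J s y i x * (μ x' * gc J s y j x') *
        ((ker (sig B) θ z x - 1) * (ker (sig B) θ z x' - 1)) := fun z => by
      simp only [N, GMix.dev, Finset.sum_mul_sum]
      exact Finset.sum_congr rfl fun x _ => Finset.sum_congr rfl fun x' _ => by ring
    have iterm : ∀ x x', Integrable (fun z => μ x * gc J s y i x * (μ x' * gc J s y j x') *
        ((ker (sig B) θ z x - 1) * (ker (sig B) θ z x' - 1))) (gauss (Fin n)) := fun x x' =>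
      ((((GMix.adm_ker _ _ x).sub (GMix.Adm.const 1)).mul
        ((GMix.adm_ker _ _ x').sub (GMix.Adm.const 1))).const_mul _).integrable
    simp only [e]
    rw [integral_finsetSum _ fun x _ => integrable_finsetSum _ fun x' _ => iterm x x']
    refine Finset.sum_congr rfl fun x _ => ?_
    rw [integral_finsetSum _ fun x' _ => iterm x x']
    exact Finset.sum_congr rfl fun x' _ => by rw [integral_const_mul, kk]
  have hM2 : |(∫ z, N i z * N j z ∂gauss (Fin n)) -
      θ ^ 2 * (cov J s y * (J + c • 1) * cov J s y) i j| ≤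
      4 * Λ ^ 2 * Real.exp Λ * ((n : ℝ) + 1) ^ 2 * θ ^ 3 := by
    rw [hNN, ← main_eq hJ s y i j, Finset.mul_sum, ← Finset.sum_sub_distrib]
    simp only [Finset.mul_sum, ← Finset.sum_sub_distrib]
    have hθn : θ ^ 4 * (n : ℝ) ^ 2 ≤ θ ^ 3 * ((n : ℝ) + 1) ^ 2 := by
      rcases Nat.eq_zero_or_pos n with h | h
      · subst h; simp; positivity
      · have h1 : (1 : ℝ) ≤ n := by exact_mod_cast h
        have h2 : θ ^ 2 ≤ 1 := by nlinarith [sq_nonneg θ]
        have h3 : θ ≤ 1 := by nlinarith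
        calc θ ^ 4 * (n : ℝ) ^ 2 = θ ^ 3 * (θ * (n : ℝ) ^ 2) := by ring
          _ ≤ θ ^ 3 * (1 * ((n : ℝ) + 1) ^ 2) := by gcongr; linarith
          _ = _ := by ring
    have hterm : ∀ x x', |μ x * gc J s y i x * (μ x' * gc J s y j x') *
        (Real.exp (θ ^ 2 * dot (sig B x) (sig B x')) - 1) -
          θ ^ 2 * (μ x * gc J s y i x * (μ x' * gc J s y j x') * dot (sig B x) (sig B x'))| ≤
        μ x * μ x' * (4 * Λ ^ 2 * Real.exp Λ * ((n : ℝ) + 1) ^ 2 * θ ^ 3) := fun x x' => by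
      set D := dot (sig B x) (sig B x') with hD
      have hD' : |θ ^ 2 * D| ≤ θ ^ 2 * (Λ * n) := by
        rw [abs_mul, abs_of_nonneg (sq_nonneg θ)]
        exact mul_le_mul_of_nonneg_left (abs_dot_sig_le hJ hΛ x x') (sq_nonneg θ)
      have hv : |θ ^ 2 * D| ≤ Λ := hD'.trans (by
        calc θ ^ 2 * (Λ * n) = Λ * (θ ^ 2 * n) := by ring
          _ ≤ Λ * 1 := mul_le_mul_of_nonneg_left hn hΛ.le
          _ = Λ := mul_one Λ)
      obtain ⟨t0, t1⟩ := GMix.exp_taylor_one hv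
      have t2 : (θ ^ 2 * D) ^ 2 ≤ (θ ^ 2 * (Λ * n)) ^ 2 := by
        rw [← sq_abs (θ ^ 2 * D)]; exact pow_le_pow_left₀ (abs_nonneg _) hD' 2
      have t3 : |Real.exp (θ ^ 2 * D) - 1 - θ ^ 2 * D| ≤
          Λ ^ 2 * Real.exp Λ * ((n : ℝ) + 1) ^ 2 * θ ^ 3 := by
        rw [abs_of_nonneg t0]
        refine t1.trans ((mul_le_mul_of_nonneg_right t2 (Real.exp_pos _).le).trans ?_)
        calc (θ ^ 2 * (Λ * n)) ^ 2 * Real.exp Λ = Λ ^ 2 * Real.exp Λ * (θ ^ 4 * (n : ℝ) ^ 2) := by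
              ring
          _ ≤ Λ ^ 2 * Real.exp Λ * (θ ^ 3 * ((n : ℝ) + 1) ^ 2) := by gcongr
          _ = _ := by ring
      rw [show μ x * gc J s y i x * (μ x' * gc J s y j x') * (Real.exp (θ ^ 2 * D) - 1) -
          θ ^ 2 * (μ x * gc J s y i x * (μ x' * gc J s y j x') * D) =
          μ x * μ x' * (gc J s y i x * gc J s y j x' * (Real.exp (θ ^ 2 * D) - 1 - θ ^ 2 * D)) by
        ring, abs_mul,
        abs_of_pos (mul_pos (Ising.wt_pos _ _ x) (Ising.wt_pos _ _ x') : 0 < μ x * μ x')]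
      refine mul_le_mul_of_nonneg_left ?_
        (mul_pos (Ising.wt_pos _ _ x) (Ising.wt_pos _ _ x')).le
      rw [abs_mul, abs_mul]
      calc _ ≤ 2 * 2 * (Λ ^ 2 * Real.exp Λ * ((n : ℝ) + 1) ^ 2 * θ ^ 3) :=
            mul_le_mul (mul_le_mul (abs_gc_le s y i x) (abs_gc_le s y j x') (abs_nonneg _)
              zero_le_two) t3 (abs_nonneg _) (by norm_num)
        _ = _ := by ring
    refine (Finset.abs_sum_le_sum_abs _ _).trans ((Finset.sum_le_sum fun x _ =>
      (Finset.abs_sum_le_sum_abs _ _).trans (Finset.sum_le_sum fun x' _ => hterm x x')).trans ?_)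
    simp only [← Finset.sum_mul, ← Finset.mul_sum]
    rw [show ∑ x, μ x = 1 from sum_wt _ _]
    simp
  have hK0 : 0 ≤ K0 Λ := by unfold K0; positivity
  have hpow : ((n : ℝ) + 1) ^ 2 ≤ ((n : ℝ) + 1) ^ 4 :=
    pow_le_pow_right₀ (le_add_of_nonneg_left (Nat.cast_nonneg n)) (by norm_num)
  calc _ ≤ 22 * T3 + 4 * Λ ^ 2 * Real.exp Λ * ((n : ℝ) + 1) ^ 2 * θ ^ 3 := by
        refine le_trans ?_ (add_le_add hR hM2)
        refine le_trans ?_ (abs_add_le _ _)
        rw [sub_add_sub_cancel]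
    _ = (22 * K0 Λ + 4 * Λ ^ 2 * Real.exp Λ) * ((n : ℝ) + 1) ^ 2 * θ ^ 3 := by rw [hT3]; ring
    _ ≤ _ := by gcongr

/-- third moment -/
lemma third (hJ : Ctl Λ c J B) (hΛ : 0 < Λ) (s θ : ℝ) (y : Fin n → ℝ) (hθ : 0 ≤ θ)
    (hn : θ ^ 2 * n ≤ 1) :
    kern J B s θ y (fun Y => nrm (fun i => mean J (s + θ ^ 2) Y i - mean J s y i) ^ 3) ≤
      72 * K0 Λ * ((n : ℝ) + 1) ^ 4 * θ ^ 3 := by
  set μ := w0 J s y
  set d : (Fin n → ℝ) → Fin n → ℝ := fun Y i => mean J (s + θ ^ 2) Y i - mean J s y i with hd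
  have hdm : ∀ i, Measurable fun Y => d Y i := fun i => (measurable_avg _ _).sub_const _
  have hdb : ∀ Y i, |d Y i| ≤ 2 := fun Y i => by
    show |mean J (s + θ ^ 2) Y i - mean J s y i| ≤ 2
    rw [diff_eq]; exact abs_avg_le _ Y (abs_gc_le s y i)
  set N : Fin n → (Fin n → ℝ) → ℝ := fun k => GMix.dev μ (gc J s y k) (sig B) θ with hN
  set E := GMix.dev μ (fun _ => 1) (sig B) θ with hE
  have hsum : ∀ Y, ∑ i, |d Y i| ^ 3 ≤ 8 * n := fun Y => by
    calc ∑ i, |d Y i| ^ 3 ≤ ∑ _i : Fin n, (2 : ℝ) ^ 3 :=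
          Finset.sum_le_sum fun i _ => pow_le_pow_left₀ (abs_nonneg _) (hdb Y i) 3
      _ = 8 * n := by simp; ring
  have hbd : ∀ Y, |nrm (d Y) ^ 3| ≤ 2 * n * (8 * n) := fun Y => by
    rw [abs_of_nonneg (pow_nonneg (show 0 ≤ nrm (d Y) from Real.sqrt_nonneg _) 3)]
    exact (nrm_cube_le _).trans (mul_le_mul_of_nonneg_left (hsum Y) (by positivity))
  have hm : Measurable fun Y => nrm (d Y) ^ 3 :=
    (Real.continuous_sqrt.measurable.comp
      (Finset.measurable_sum _ fun i _ => (hdm i).pow_const 2)).pow_const 3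
  have i3 : ∀ g, Integrable (fun z => |GMix.dev μ g (sig B) θ z| ^ 3) (gauss (Fin n)) := fun g =>
    ((GMix.adm_dev _ _ _ _).abs.pow 3).integrable
  have iterm : ∀ i, Integrable (fun z => 4 * |N i z| ^ 3 + 32 * |E z| ^ 3) (gauss (Fin n)) :=
    fun i => ((i3 _).const_mul 4).fun_add ((i3 _).const_mul 32)
  have hpt : ∀ z, mix μ (sig B) θ z * nrm (d (y + θ • B *ᵥ z)) ^ 3 ≤
      2 * n * ∑ i, (4 * |N i z| ^ 3 + 32 * |E z| ^ 3) := fun z => by
    have hM := mix_pos' J B s θ y z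
    refine (mul_le_mul_of_nonneg_left (nrm_cube_le _) hM.le).trans ?_
    rw [mul_left_comm, Finset.mul_sum (a := mix μ (sig B) θ z)]
    refine mul_le_mul_of_nonneg_left (Finset.sum_le_sum fun i _ => ?_) (by positivity)
    have := split_three hM (den_eq s θ y z) (hdb (y + θ • B *ᵥ z) i)
    simp only [d, num_eq hJ] at this
    exact this
  have hK0 : 0 ≤ K0 Λ := by unfold K0; positivity
  set T3 := K0 Λ * ((n : ℝ) + 1) ^ 2 * θ ^ 3 with hT3
  have hint : ∀ i, ∫ z, (4 * |N i z| ^ 3 + 32 * |E z| ^ 3) ∂gauss (Fin n) ≤ 36 * T3 := fun i => by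
    rw [integral_add ((i3 _).const_mul 4) ((i3 _).const_mul 32), integral_const_mul,
      integral_const_mul]
    have a1 := dev_bound hJ hΛ s θ y hθ hn (abs_gc_le (J := J) s y i)
    have a3 := dev_bound hJ hΛ s θ y hθ hn (g := fun _ => (1 : ℝ)) fun _ => by norm_num
    linarith
  refine (integral_mono (integrable_kern J B s θ y hm hbd)
    ((integrable_finsetSum _ fun i _ => iterm i).const_mul (2 * (n : ℝ))) hpt).trans ?_
  rw [integral_const_mul, integral_finsetSum _ fun i _ => iterm i]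
  calc 2 * (n : ℝ) * ∑ i, ∫ z, (4 * |N i z| ^ 3 + 32 * |E z| ^ 3) ∂gauss (Fin n) ≤
        2 * (n : ℝ) * ∑ _i : Fin n, 36 * T3 :=
        mul_le_mul_of_nonneg_left (Finset.sum_le_sum fun i _ => hint i) (by positivity)
    _ = 72 * K0 Λ * ((n : ℝ) ^ 2 * ((n : ℝ) + 1) ^ 2) * θ ^ 3 := by
        simp [hT3]; ring
    _ ≤ 72 * K0 Λ * ((n : ℝ) + 1) ^ 4 * θ ^ 3 := by
        have : (n : ℝ) ^ 2 * ((n : ℝ) + 1) ^ 2 ≤ ((n : ℝ) + 1) ^ 4 := by
          rw [show ((n : ℝ) + 1) ^ 4 = ((n : ℝ) + 1) ^ 2 * ((n : ℝ) + 1) ^ 2 by ring]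
          gcongr
          linarith
        gcongr

end Moments

open Moments in
/-- The moments of the posterior mean over one short step. -/
theorem momentFacts : MomentFacts := by
  intro Λ hΛ
  have hK0 : 0 ≤ K0 Λ := by unfold K0; positivity
  refine ⟨72 * K0 Λ + 4 * Λ ^ 2 * Real.exp Λ + 1, by positivity,
    fun n c J B hJ s θ y hθ hn => ⟨fun f => kern_avg hJ s θ y f, fun i => ?_, fun i j => ?_, ?_⟩⟩
  · simp only [diff_eq, kern_avg hJ]
    exact sum_gc s y i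
  · refine (second hJ hΛ s θ y hθ hn i j).trans ?_
    have : 0 ≤ 4 * Λ ^ 2 * Real.exp Λ := by positivity
    refine mul_le_mul_of_nonneg_right (mul_le_mul_of_nonneg_right ?_ (by positivity)) (by positivity)
    linarith
  · refine (third hJ hΛ s θ y hθ hn).trans ?_
    gcongr
    have : 0 ≤ 4 * Λ ^ 2 * Real.exp Λ := by positivity
    linarith

end Vale.Agent.P150.PartB
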