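import Vale.Agent.P150.Fast.PartB.StepSpec
import Vale.Agent.P150.Fast.PartB.Moments
import Vale.Agent.P150.Fast.PartB.Expand
import Vale.Agent.P150.Fast.PartB.FBound
import Vale.Agent.P150.Fast.PartB.KernelFacts

/-!
# P150, Part B: `DStep` and `ResStep`

One short step moves `D` by at most `O(θ²)` relatively and the residual by `θ² (resDrift + O(1))`.
The posterior mean moves by `d` with `E d = 0`, `E d dᵀ = θ² D p D`; the field by `Y - y`, with mean
`θ² A m`. The residual is expanded where both displacements are at most `δ`; elsewhere everything is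
at most a multiple of `u³ / δ³`, `u` the size of the displacement.
-/

open MeasureTheory ProbabilityTheory Matrix
open scoped Matrix.Norms.L2Operator

namespace Vale.Agent.P150.PartB

open Vale.Agent.P150.Fast

variable {n : ℕ} {Λ c : ℝ} {J B : Matrix (Fin n) (Fin n) ℝ}

namespace StepProof

/-- bounded measurable -/
def Bdd (F : (Fin n → ℝ) → ℝ) : Prop := Measurable F ∧ ∃ M, ∀ Y, |F Y| ≤ M

lemma Bdd.const (r : ℝ) : Bdd fun _ : Fin n → ℝ => r := ⟨measurable_const, |r|, fun _ => le_rfl⟩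

lemma Bdd.mul {F G : (Fin n → ℝ) → ℝ} (hF : Bdd F) (hG : Bdd G) : Bdd fun Y => F Y * G Y := by
  obtain ⟨hm, M, h⟩ := hF
  obtain ⟨hm', M', h'⟩ := hG
  exact ⟨hm.mul hm', M * M', fun Y => by
    rw [abs_mul]
    exact mul_le_mul (h Y) (h' Y) (abs_nonneg _) ((abs_nonneg _).trans (h Y))⟩

lemma Bdd.add {F G : (Fin n → ℝ) → ℝ} (hF : Bdd F) (hG : Bdd G) : Bdd fun Y => F Y + G Y := by
  obtain ⟨hm, M, h⟩ := hF
  obtain ⟨hm', M', h'⟩ := hG
  exact ⟨hm.add hm', M + M', fun Y => (abs_add_le _ _).trans (add_le_add (h Y) (h' Y))⟩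

lemma Bdd.const_mul {F : (Fin n → ℝ) → ℝ} (r : ℝ) (hF : Bdd F) : Bdd fun Y => r * F Y :=
  (Bdd.const r).mul hF

lemma Bdd.sub {F G : (Fin n → ℝ) → ℝ} (hF : Bdd F) (hG : Bdd G) : Bdd fun Y => F Y - G Y := by
  simpa [sub_eq_add_neg] using hF.add (hG.const_mul (-1))

lemma Bdd.pow {F : (Fin n → ℝ) → ℝ} (hF : Bdd F) (k : ℕ) : Bdd fun Y => F Y ^ k := by
  induction k with
  | zero => simpa using Bdd.const (n := n) 1
  | succ k ih => simpa [pow_succ] using ih.mul hF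

lemma Bdd.sum {ι : Type*} (S : Finset ι) {F : ι → (Fin n → ℝ) → ℝ} (hF : ∀ k, Bdd (F k)) :
    Bdd fun Y => ∑ k ∈ S, F k Y := by
  choose hm M h using hF
  exact ⟨Finset.measurable_sum _ fun k _ => hm k, ∑ k ∈ S, M k,
    fun Y => (Finset.abs_sum_le_sum_abs _ _).trans (Finset.sum_le_sum fun k _ => h k Y)⟩

lemma Bdd.integrable {F : (Fin n → ℝ) → ℝ} (hF : Bdd F) (s θ : ℝ) (y : Fin n → ℝ) :
    Integrable (fun z => mix (Ising.wt ((1 - s) • J) y) (sig B) θ z * F (y + θ • B *ᵥ z))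
      (gauss (Fin n)) := by
  obtain ⟨hm, M, h⟩ := hF
  exact integrable_kern J B s θ y hm h

variable (J B) in
lemma k_add (s θ : ℝ) (y : Fin n → ℝ) {F G : (Fin n → ℝ) → ℝ} (hF : Bdd F) (hG : Bdd G) :
    kern J B s θ y (fun Y => F Y + G Y) = kern J B s θ y F + kern J B s θ y G := by
  obtain ⟨hm, M, h⟩ := hF
  obtain ⟨hm', M', h'⟩ := hG
  exact kern_add J B s θ y hm h hm' h'

variable (J B) in
lemma k_sub (s θ : ℝ) (y : Fin n → ℝ) {F G : (Fin n → ℝ) → ℝ} (hF : Bdd F) (hG : Bdd G) :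
    kern J B s θ y (fun Y => F Y - G Y) = kern J B s θ y F - kern J B s θ y G := by
  simp only [kern, mul_sub]
  exact integral_sub (hF.integrable s θ y) (hG.integrable s θ y)

variable (J B) in
lemma k_sum {ι : Type*} (S : Finset ι) (s θ : ℝ) (y : Fin n → ℝ) {F : ι → (Fin n → ℝ) → ℝ}
    (hF : ∀ k, Bdd (F k)) :
    kern J B s θ y (fun Y => ∑ k ∈ S, F k Y) = ∑ k ∈ S, kern J B s θ y (F k) := by
  simp only [kern, Finset.mul_sum]
  exact integral_finsetSum _ fun k _ => (hF k).integrable s θ y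

variable (J B) in
lemma k_mono (s θ : ℝ) (y : Fin n → ℝ) {F G : (Fin n → ℝ) → ℝ} (hF : Bdd F) (hG : Bdd G)
    (h : ∀ Y, F Y ≤ G Y) : kern J B s θ y F ≤ kern J B s θ y G := by
  obtain ⟨hm, M, hM⟩ := hF
  obtain ⟨hm', M', hM'⟩ := hG
  exact kern_mono J B s θ y hm hM hm' hM' h

/-! ### The displacement of the mean -/

/-- the displacement of the posterior mean -/
noncomputable def dd (J : Matrix (Fin n) (Fin n) ℝ) (s θ : ℝ) (y Y : Fin n → ℝ) (i : Fin n) : ℝ :=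
  mean J (s + θ ^ 2) Y i - mean J s y i

lemma abs_dd_le (s θ : ℝ) (y Y : Fin n → ℝ) (i : Fin n) : |dd J s θ y Y i| ≤ 2 := by
  rw [dd, Moments.diff_eq]
  exact abs_avg_le _ Y (Moments.abs_gc_le s y i)

lemma bdd_dd (s θ : ℝ) (y : Fin n → ℝ) (i : Fin n) : Bdd fun Y => dd J s θ y Y i :=
  ⟨(measurable_avg _ _).sub_const _, 2, fun Y => abs_dd_le s θ y Y i⟩

lemma abs_le_nrm (v : Fin n → ℝ) (i : Fin n) : |v i| ≤ nrm v := by
  rw [← Real.sqrt_sq_eq_abs]
  exact Real.sqrt_le_sqrt (Finset.single_le_sum (f := fun k => v k ^ 2) (fun k _ => sq_nonneg _)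
    (Finset.mem_univ i))

lemma bdd_cube (s θ : ℝ) (y : Fin n → ℝ) : Bdd fun Y => nrm (dd J s θ y Y) ^ 3 := by
  refine ⟨(Real.continuous_sqrt.measurable.comp (Finset.measurable_sum _ fun i _ =>
    ((bdd_dd s θ y i).1.pow_const 2))).pow_const 3, Real.sqrt (4 * n) ^ 3, fun Y => ?_⟩
  rw [abs_of_nonneg (pow_nonneg (nrm_nonneg _) 3)]
  refine pow_le_pow_left₀ (nrm_nonneg _) (Real.sqrt_le_sqrt ?_) 3
  refine (Finset.sum_le_sum fun i _ => (?_ : dd J s θ y Y i ^ 2 ≤ 4)).trans (le_of_eq (by simp; ring))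
  rw [← sq_abs]
  nlinarith [abs_dd_le (J := J) s θ y Y i, abs_nonneg (dd J s θ y Y i)]

/-! ### The normalised covariance -/

lemma abs_fld_le' (hJ : Ctl Λ c J B) (s : ℝ) (y : Fin n → ℝ) (i : Fin n) (x : Cfg n) :
    |Ising.fld ((1 - s) • J) y i x| ≤ |y i| + |1 - s| * (Λ * Real.sqrt n) := by
  have hop : OpNorm.OpLe J Λ := OpNorm.opLe_iff_norm_le.2 (by linarith [hJ.op, abs_nonneg c])
  show |(∑ j, (1 - s) * J i j * spin (x j)) + y i| ≤ _
  refine (abs_add_le _ _).trans ?_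
  rw [add_comm]
  refine add_le_add le_rfl ?_
  simp only [mul_assoc, ← Finset.mul_sum, abs_mul]
  refine mul_le_mul_of_nonneg_left ?_ (abs_nonneg _)
  refine (abs_dot_le_nrm (J i) (svec x)).trans ?_
  rw [nrm_spin]
  exact mul_le_mul_of_nonneg_right ((Real.sqrt_le_sqrt (hop.row i)).trans_eq (Real.sqrt_sq hop.1))
    (Real.sqrt_nonneg _)

lemma tanh_le {a b : ℝ} (h : a ≤ b) : Real.tanh a ≤ Real.tanh b := by
  by_contra hc
  have := Real.artanh_lt_artanh (Real.neg_one_lt_tanh b) (Real.tanh_lt_one a) (not_le.1 hc)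
  rw [Real.artanh_tanh, Real.artanh_tanh] at this
  linarith

lemma abs_mean_le (hJ : Ctl Λ c J B) (s : ℝ) (y : Fin n → ℝ) (i : Fin n) :
    |mean J s y i| ≤ Real.tanh (|y i| + |1 - s| * (Λ * Real.sqrt n)) := by
  set K : Fin n → Fin n → ℝ := (1 - s) • J
  have hs : ∀ a b, K a b = K b a := fun a b => by
    show (1 - s) * J a b = (1 - s) * J b a; rw [hJ.symm]
  have hd : ∀ a, K a a = 0 := fun a => by show (1 - s) * J a a = 0; rw [hJ.diag, mul_zero]
  have e : mean J s y i = Ising.avg K y (Ising.mag K y i) := FB.mean_mag hs hd i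
  rw [e]
  refine abs_avg_le ((1 - s) • J) y fun x => ?_
  have h := abs_le.1 (abs_fld_le' hJ s y i x)
  rw [Ising.mag, abs_le, ← Real.tanh_neg]
  exact ⟨tanh_le h.1, tanh_le h.2⟩

lemma abs_mean_lt (hJ : Ctl Λ c J B) (s : ℝ) (y : Fin n → ℝ) (i : Fin n) : |mean J s y i| < 1 :=
  (abs_mean_le hJ s y i).trans_lt (Real.tanh_lt_one _)

lemma abs_artanh_mean_le (hJ : Ctl Λ c J B) (s : ℝ) (y : Fin n → ℝ) (i : Fin n) :
    |Real.artanh (mean J s y i)| ≤ |y i| + |1 - s| * (Λ * Real.sqrt n) := by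
  set R := |y i| + |1 - s| * (Λ * Real.sqrt n)
  have h := abs_le.1 (abs_mean_le hJ s y i)
  have h1 := abs_lt.1 (abs_mean_lt hJ s y i)
  rw [← Real.tanh_neg] at h
  have a1 := Real.artanh_le_artanh (Real.neg_one_lt_tanh _) h1.2 h.1
  have a2 := Real.artanh_le_artanh h1.1 (Real.tanh_lt_one _) h.2
  rw [Real.artanh_tanh] at a1 a2
  exact abs_le.2 ⟨a1, a2⟩

lemma D_pos (hJ : Ctl Λ c J B) (s : ℝ) (y : Fin n → ℝ) (i : Fin n) :
    0 < 1 - mean J s y i ^ 2 ∧ 1 - mean J s y i ^ 2 ≤ 1 :=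
  ⟨by have := (sq_lt_one_iff_abs_lt_one _).2 (abs_mean_lt hJ s y i); linarith,
    sub_le_self _ (sq_nonneg _)⟩

lemma cov_eq (hJ : Ctl Λ c J B) (s : ℝ) (y : Fin n → ℝ) :
    cov J s y = dMat (mean J s y) + dMat (mean J s y) * fMat J s y * dMat (mean J s y) := by
  refine Matrix.ext fun i j => ?_
  rw [Matrix.add_apply, dMat, Matrix.mul_diagonal, Matrix.diagonal_mul]
  by_cases h : i = j
  · subst h
    simp only [cov, fMat, Matrix.of_apply, Matrix.diagonal_apply_eq, if_true, mul_zero, zero_mul,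
      add_zero, spin_mul_self]
    rw [show Ising.avg ((1 - s) • J) y (fun _ => (1 : ℝ)) = 1 by
      simp [Ising.avg, show ∑ x, Ising.wt ((1 - s) • J) y x = 1 from sum_wt _ _]]
    ring
  · have hi := (D_pos hJ s y i).1.ne'
    have hj := (D_pos hJ s y j).1.ne'
    simp only [fMat, Matrix.of_apply, Matrix.diagonal_apply_ne _ h, if_neg h, zero_add]
    field_simp

lemma norm_dMat_le (hJ : Ctl Λ c J B) (s : ℝ) (y : Fin n → ℝ) : ‖dMat (mean J s y)‖ ≤ 1 := by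
  refine OpNorm.opLe_iff_norm_le.1 (OpNorm.opLe_diagonal zero_le_one fun i => ?_)
  obtain ⟨h1, h2⟩ := D_pos hJ s y i
  rw [abs_of_pos h1]; exact h2

lemma norm_pMat_le (hJ : Ctl Λ c J B) (s : ℝ) (y : Fin n → ℝ) {K₀ : ℝ}
    (hF : ‖fMat J s y‖ ≤ K₀) :
    ‖pMat (J + c • 1) (mean J s y) (fMat J s y)‖ ≤ (1 + K₀) ^ 2 * Λ := by
  have hD := OpNorm.opLe_iff_norm_le.2 (norm_dMat_le hJ s y)
  have hF' := OpNorm.opLe_iff_norm_le.2 hF
  have h := ((OpNorm.opLe_one.add (hF'.mul hD)).mul hJ.opLe_A).mul (OpNorm.opLe_one.add (hD.mul hF'))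
  exact (OpNorm.opLe_iff_norm_le.1 h).trans (le_of_eq (by ring))

lemma cac_eq (hJ : Ctl Λ c J B) (s : ℝ) (y : Fin n → ℝ) (i j : Fin n) :
    (cov J s y * (J + c • 1) * cov J s y) i j =
      (1 - mean J s y i ^ 2) * (1 - mean J s y j ^ 2) *
        pMat (J + c • 1) (mean J s y) (fMat J s y) i j := by
  have e : cov J s y * (J + c • 1) * cov J s y = dMat (mean J s y) *
      pMat (J + c • 1) (mean J s y) (fMat J s y) * dMat (mean J s y) := by
    rw [cov_eq hJ, pMat]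
    noncomm_ring
  rw [e, dMat, Matrix.mul_diagonal, Matrix.diagonal_mul]
  ring

lemma second' (hJ : Ctl Λ c J B) (hΛ : 0 < Λ) (s θ : ℝ) (y : Fin n → ℝ) (hθ : 0 ≤ θ)
    (hn : θ ^ 2 * n ≤ 1) (i j : Fin n) :
    |kern J B s θ y (fun Y => dd J s θ y Y i * dd J s θ y Y j) -
      θ ^ 2 * ((1 - mean J s y i ^ 2) * (1 - mean J s y j ^ 2) *
        pMat (J + c • 1) (mean J s y) (fMat J s y) i j)| ≤
      (22 * Moments.K0 Λ + 4 * Λ ^ 2 * Real.exp Λ) * (n + 1 : ℝ) ^ 4 * θ ^ 3 := by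
  rw [← cac_eq hJ]
  exact Moments.second hJ hΛ s θ y hθ hn i j

lemma mean_zero (hJ : Ctl Λ c J B) (s θ : ℝ) (y : Fin n → ℝ) (i : Fin n) :
    kern J B s θ y (fun Y => dd J s θ y Y i) = 0 := by
  simp only [dd, Moments.diff_eq, kern_avg hJ]
  exact Moments.sum_gc s y i

/-! ### `DStep` -/

lemma sq_step (m d : ℝ) :
    (1 - (m + d) ^ 2) ^ 2 = (1 - m ^ 2) ^ 2 - 4 * m * (1 - m ^ 2) * d +
      d ^ 2 * (4 * m ^ 2 - 2 * (1 - m ^ 2) + 4 * m * d + d ^ 2) := by ring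

lemma part_bounds {m d N : ℝ} (hm : |m| ≤ 1) (hd : |d| ≤ 2) (hN : |d| ≤ N) :
    |4 * m * (1 - m ^ 2) * d| ≤ 4 * N ∧ |4 * m * d + d ^ 2| ≤ 6 * |d| ∧
      |4 * m ^ 2 - 2 * (1 - m ^ 2)| ≤ 4 := by
  have hm2 : m ^ 2 ≤ 1 := (sq_le_one_iff_abs_le_one m).2 hm
  have hD : |1 - m ^ 2| ≤ 1 := abs_le.2 ⟨by linarith, by linarith [sq_nonneg m]⟩
  refine ⟨?_, ?_, abs_le.2 ⟨by linarith [sq_nonneg m], by linarith⟩⟩
  · rw [abs_mul, abs_mul, abs_mul, abs_of_pos (four_pos : (0 : ℝ) < 4)]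
    calc 4 * |m| * |1 - m ^ 2| * |d| ≤ 4 * 1 * 1 * N := by gcongr
      _ = 4 * N := by ring
  · rw [show 4 * m * d + d ^ 2 = d * (4 * m + d) by ring, abs_mul, mul_comm (6 : ℝ)]
    refine mul_le_mul_of_nonneg_left ((abs_add_le _ _).trans ?_) (abs_nonneg d)
    rw [abs_mul, abs_of_pos (four_pos : (0 : ℝ) < 4)]
    linarith

lemma sq_upper {m d N : ℝ} (hm : |m| ≤ 1) (hd : |d| ≤ 2) (hN : |d| ≤ N) :
    (1 - (m + d) ^ 2) ^ 2 ≤ (1 - m ^ 2) ^ 2 + (-(4 * m * (1 - m ^ 2))) * d +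
      (4 * m ^ 2 - 2 * (1 - m ^ 2)) * (d * d) + 6 * N ^ 3 := by
  have h := (part_bounds hm hd hN).2.1
  have h1 : d ^ 2 * (4 * m * d + d ^ 2) ≤ 6 * N ^ 3 := by
    calc d ^ 2 * (4 * m * d + d ^ 2) ≤ |d| ^ 2 * (6 * |d|) := by
          rw [sq_abs]; exact mul_le_mul_of_nonneg_left ((le_abs_self _).trans h) (sq_nonneg _)
      _ = 6 * |d| ^ 3 := by ring
      _ ≤ 6 * N ^ 3 := by gcongr
  rw [sq_step]
  linarith

lemma prod_upper {m m' d d' N : ℝ} (hm : |m| ≤ 1) (hm' : |m'| ≤ 1) (hd : |d| ≤ 2) (hd' : |d'| ≤ 2)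
    (hN : |d| ≤ N) (hN' : |d'| ≤ N) :
    ((1 - (m + d) ^ 2) * (1 - (m' + d') ^ 2)) ^ 2 ≤ ((1 - m ^ 2) * (1 - m' ^ 2)) ^ 2 +
      (-(4 * m * (1 - m ^ 2)) * (1 - m' ^ 2) ^ 2) * d +
      (-(4 * m' * (1 - m' ^ 2)) * (1 - m ^ 2) ^ 2) * d' +
      ((4 * m ^ 2 - 2 * (1 - m ^ 2)) * (1 - m' ^ 2) ^ 2) * (d * d) +
      ((4 * m' ^ 2 - 2 * (1 - m' ^ 2)) * (1 - m ^ 2) ^ 2) * (d' * d') +
      (16 * (m * m') * ((1 - m ^ 2) * (1 - m' ^ 2))) * (d * d') + 700 * N ^ 3 := by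
  obtain ⟨p1, p2, p3⟩ := part_bounds hm hd hN
  obtain ⟨q1, q2, q3⟩ := part_bounds hm' hd' hN'
  have hN0 : 0 ≤ N := (abs_nonneg d).trans hN
  have hsq : ∀ x : ℝ, |x| ≤ 1 → 0 ≤ (1 - x ^ 2) ^ 2 ∧ (1 - x ^ 2) ^ 2 ≤ 1 := fun x hx => by
    refine ⟨sq_nonneg _, ?_⟩
    have hx2 : x ^ 2 ≤ 1 := (sq_le_one_iff_abs_le_one x).2 hx
    exact pow_le_one₀ (by linarith) (by linarith [sq_nonneg x])
  set l := 4 * m * (1 - m ^ 2) * d
  set l' := 4 * m' * (1 - m' ^ 2) * d'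
  set q := d ^ 2 * (4 * m ^ 2 - 2 * (1 - m ^ 2) + 4 * m * d + d ^ 2)
  set q' := d' ^ 2 * (4 * m' ^ 2 - 2 * (1 - m' ^ 2) + 4 * m' * d' + d' ^ 2)
  have hq : ∀ {x e : ℝ}, |4 * x * e + e ^ 2| ≤ 6 * |e| → |e| ≤ 2 → |e| ≤ N →
      |4 * x ^ 2 - 2 * (1 - x ^ 2)| ≤ 4 →
      |e ^ 2 * (4 * x ^ 2 - 2 * (1 - x ^ 2) + 4 * x * e + e ^ 2)| ≤ 16 * N ^ 2 ∧
        |e ^ 2 * (4 * x ^ 2 - 2 * (1 - x ^ 2) + 4 * x * e + e ^ 2)| ≤ 32 * N ∧
        |e ^ 2 * (4 * x * e + e ^ 2)| ≤ 6 * N ^ 3 := fun {x e} h1 h2 h3 h4 => by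
    have h5 : |4 * x ^ 2 - 2 * (1 - x ^ 2) + 4 * x * e + e ^ 2| ≤ 16 := by
      rw [add_assoc _ (4 * x * e)]
      exact (abs_add_le _ _).trans (by linarith)
    have h6 : e ^ 2 ≤ N ^ 2 := by rw [← sq_abs e]; gcongr
    have h7 : e ^ 2 ≤ 2 * N := by
      rw [← sq_abs e, sq]; exact mul_le_mul h2 h3 (abs_nonneg e) zero_le_two
    simp only [abs_mul, abs_pow, sq_abs]
    refine ⟨(mul_le_mul h6 h5 (abs_nonneg _) (sq_nonneg _)).trans_eq (mul_comm _ _),
      (mul_le_mul h7 h5 (abs_nonneg _) (by positivity)).trans_eq (by ring), ?_⟩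
    calc e ^ 2 * |4 * x * e + e ^ 2| ≤ N ^ 2 * (6 * N) := mul_le_mul h6 (by linarith) (abs_nonneg _) (sq_nonneg _)
      _ = 6 * N ^ 3 := by ring
  obtain ⟨a1, a2, a3⟩ := hq p2 hd hN p3
  obtain ⟨b1, b2, b3⟩ := hq q2 hd' hN' q3
  have t1 : |l * q'| ≤ 64 * N ^ 3 := by
    rw [abs_mul]
    exact (mul_le_mul p1 b1 (abs_nonneg _) (by positivity)).trans_eq (by ring)
  have t2 : |q * l'| ≤ 64 * N ^ 3 := by
    rw [abs_mul]
    exact (mul_le_mul a1 q1 (abs_nonneg _) (by positivity)).trans_eq (by ring)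
  have t3 : |q * q'| ≤ 512 * N ^ 3 := by
    rw [abs_mul]
    exact (mul_le_mul a1 b2 (abs_nonneg _) (by positivity)).trans_eq (by ring)
  have t4 : (1 - m' ^ 2) ^ 2 * (d ^ 2 * (4 * m * d + d ^ 2)) ≤ 6 * N ^ 3 :=
    (mul_le_mul_of_nonneg_left ((le_abs_self _).trans a3) (hsq m' hm').1).trans
      (mul_le_of_le_one_left (by positivity) (hsq m' hm').2)
  have t5 : (1 - m ^ 2) ^ 2 * (d' ^ 2 * (4 * m' * d' + d' ^ 2)) ≤ 6 * N ^ 3 :=
    (mul_le_mul_of_nonneg_left ((le_abs_self _).trans b3) (hsq m hm).1).trans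
      (mul_le_of_le_one_left (by positivity) (hsq m hm).2)
  have e : ((1 - (m + d) ^ 2) * (1 - (m' + d') ^ 2)) ^ 2 =
      ((1 - m ^ 2) * (1 - m' ^ 2)) ^ 2 - l * (1 - m' ^ 2) ^ 2 - l' * (1 - m ^ 2) ^ 2 + l * l'
        + q * (1 - m' ^ 2) ^ 2 + q' * (1 - m ^ 2) ^ 2 - l * q' - q * l' + q * q' := by
    simp only [l, l', q, q']
    ring
  have u1 := (abs_le.1 t1).1
  have u2 := (abs_le.1 t2).1
  have u3 := (abs_le.1 t3).2
  have u4 : (0 : ℝ) ≤ N ^ 3 := pow_nonneg hN0 3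
  rw [e]
  simp only [l, l', q, q'] at u1 u2 u3 ⊢
  linarith

/-- upper bound for the expectation of a function below a quadratic -/
lemma kern_quad (hJ : Ctl Λ c J B) (hΛ : 0 < Λ) (s θ : ℝ) (y : Fin n → ℝ) (hθ : 0 ≤ θ)
    (hn : θ ^ 2 * n ≤ 1) {F : (Fin n → ℝ) → ℝ} (hF : Bdd F) (j k : Fin n)
    (a₀ a₁ a₂ a₃ a₄ a₅ a₆ : ℝ) (ha : 0 ≤ a₆)
    (h : ∀ Y, F Y ≤ a₀ + a₁ * dd J s θ y Y j + a₂ * dd J s θ y Y k +
      a₃ * (dd J s θ y Y j * dd J s θ y Y j) + a₄ * (dd J s θ y Y k * dd J s θ y Y k) +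
      a₅ * (dd J s θ y Y j * dd J s θ y Y k) + a₆ * nrm (dd J s θ y Y) ^ 3) :
    kern J B s θ y F ≤ a₀ + θ ^ 2 *
        (a₃ * ((1 - mean J s y j ^ 2) * (1 - mean J s y j ^ 2) *
            pMat (J + c • 1) (mean J s y) (fMat J s y) j j) +
          a₄ * ((1 - mean J s y k ^ 2) * (1 - mean J s y k ^ 2) *
            pMat (J + c • 1) (mean J s y) (fMat J s y) k k) +
          a₅ * ((1 - mean J s y j ^ 2) * (1 - mean J s y k ^ 2) *
            pMat (J + c • 1) (mean J s y) (fMat J s y) j k)) +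
      (|a₃| + |a₄| + |a₅| + a₆) *
        ((72 * Moments.K0 Λ + 4 * Λ ^ 2 * Real.exp Λ) * (n + 1 : ℝ) ^ 4 * θ ^ 3) := by
  have b0 := Bdd.const (n := n) a₀
  have b1 := (bdd_dd (J := J) s θ y j).const_mul a₁
  have b2 := (bdd_dd (J := J) s θ y k).const_mul a₂
  have b3 := ((bdd_dd (J := J) s θ y j).mul (bdd_dd (J := J) s θ y j)).const_mul a₃
  have b4 := ((bdd_dd (J := J) s θ y k).mul (bdd_dd (J := J) s θ y k)).const_mul a₄
  have b5 := ((bdd_dd (J := J) s θ y j).mul (bdd_dd (J := J) s θ y k)).const_mul a₅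
  have b6 := (bdd_cube (J := J) s θ y).const_mul a₆
  refine (k_mono J B s θ y hF ((((((b0.add b1).add b2).add b3).add b4).add b5).add b6) h).trans ?_
  rw [k_add J B s θ y (((((b0.add b1).add b2).add b3).add b4).add b5) b6,
    k_add J B s θ y ((((b0.add b1).add b2).add b3).add b4) b5,
    k_add J B s θ y (((b0.add b1).add b2).add b3) b4, k_add J B s θ y ((b0.add b1).add b2) b3,
    k_add J B s θ y (b0.add b1) b2, k_add J B s θ y b0 b1]
  simp only [kern_const, kern_smul, mean_zero hJ, mul_zero, add_zero]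
  set E := (72 * Moments.K0 Λ + 4 * Λ ^ 2 * Real.exp Λ) * (n + 1 : ℝ) ^ 4 * θ ^ 3
  have hK0 : 0 ≤ Moments.K0 Λ := by unfold Moments.K0; positivity
  have key : ∀ (a : ℝ) (i l : Fin n), a * kern J B s θ y (fun Y => dd J s θ y Y i * dd J s θ y Y l) ≤
      θ ^ 2 * (a * ((1 - mean J s y i ^ 2) * (1 - mean J s y l ^ 2) *
        pMat (J + c • 1) (mean J s y) (fMat J s y) i l)) + |a| * E := fun a i l => by
    have h2 : _ ≤ E := (second' hJ hΛ s θ y hθ hn i l).trans (by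
      refine mul_le_mul_of_nonneg_right (mul_le_mul_of_nonneg_right ?_ (by positivity)) (by positivity)
      linarith)
    rw [← sub_le_iff_le_add', mul_left_comm, ← mul_sub]
    exact (le_abs_self _).trans ((abs_mul _ _).trans_le (mul_le_mul_of_nonneg_left h2 (abs_nonneg a)))
  have h3 : a₆ * kern J B s θ y (fun Y => nrm (dd J s θ y Y) ^ 3) ≤ a₆ * E :=
    mul_le_mul_of_nonneg_left ((Moments.third hJ hΛ s θ y hθ hn).trans (by
      refine mul_le_mul_of_nonneg_right (mul_le_mul_of_nonneg_right ?_ (by positivity)) (by positivity)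
      have : 0 ≤ 4 * Λ ^ 2 * Real.exp Λ := by positivity
      linarith)) ha
  linarith [key a₃ j j, key a₄ k k, key a₅ j k]

lemma bdd_one_sub_sq (s θ : ℝ) (j : Fin n) :
    Bdd fun Y : Fin n → ℝ => 1 - mean J (s + θ ^ 2) Y j ^ 2 :=
  (Bdd.const 1).sub (Bdd.pow ⟨measurable_avg _ _, 1, fun Y =>
    abs_avg_le _ Y fun x => Moments.abs_spin_le (x j)⟩ 2)

lemma abs_mul_p_le {a u p P : ℝ} {C : ℝ} (ha : |a| ≤ C) (hu : 0 ≤ u) (hp : |p| ≤ P) :
    a * (u * p) ≤ C * P * u := by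
  refine (le_abs_self _).trans ?_
  rw [abs_mul, abs_mul, abs_of_nonneg hu]
  calc |a| * (u * |p|) ≤ C * (u * P) :=
        mul_le_mul ha (mul_le_mul_of_nonneg_left hp hu) (by positivity) ((abs_nonneg a).trans ha)
    _ = C * P * u := by ring

end StepProof

open StepProof in
/-- `D²` and `D_j² D_k²` grow at most at rate `K`. -/
theorem dStep : DStep := by
  intro Λ K₀ hΛ hK₀
  set P := (1 + K₀) ^ 2 * Λ
  set K1 := 72 * Moments.K0 Λ + 4 * Λ ^ 2 * Real.exp Λ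
  have hP : 0 ≤ P := by positivity
  have hK0 : 0 ≤ Moments.K0 Λ := by unfold Moments.K0; positivity
  refine ⟨24 * P + 724 * K1 + 1, by positivity, fun n c J B hJ t θ y hθ hn _ hF => ⟨fun j => ?_,
    fun j k => ?_⟩⟩
  all_goals
    have hp : ∀ a b, |pMat (J + c • 1) (mean J t y) (fMat J t y) a b| ≤ P := fun a b =>
      ((OpNorm.opLe_iff_norm_le.2 le_rfl).entry a b).trans (norm_pMat_le hJ t y hF)
    have hpw : (n + 1 : ℝ) ^ 4 ≤ (n + 1 : ℝ) ^ 6 :=
      pow_le_pow_right₀ (le_add_of_nonneg_left (Nat.cast_nonneg n)) (by norm_num)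
    have herr : ∀ C, 0 ≤ C → C ≤ 724 → C * (K1 * (n + 1 : ℝ) ^ 4 * θ ^ 3) ≤
        (24 * P + 724 * K1 + 1) * (n + 1 : ℝ) ^ 6 * θ ^ 3 := fun C hC0 hC => by
      calc C * (K1 * (n + 1 : ℝ) ^ 4 * θ ^ 3) = C * K1 * (n + 1 : ℝ) ^ 4 * θ ^ 3 := by ring
        _ ≤ 724 * K1 * (n + 1 : ℝ) ^ 6 * θ ^ 3 := by gcongr
        _ ≤ _ := by gcongr; linarith
    have hm : ∀ a, |mean J t y a| ≤ 1 := fun a => (abs_mean_lt hJ t y a).le
    have hdn : ∀ Y a, |dd J t θ y Y a| ≤ nrm (dd J t θ y Y) := fun Y a => abs_le_nrm _ a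
  · have hbd := (part_bounds (d := 0) (N := 0) (hm j) (by norm_num) (by norm_num)).2.2
    refine (kern_quad hJ hΛ t θ y hθ hn ((bdd_one_sub_sq t θ j).pow 2) j j
      ((1 - mean J t y j ^ 2) ^ 2) (-(4 * mean J t y j * (1 - mean J t y j ^ 2))) 0
      (4 * mean J t y j ^ 2 - 2 * (1 - mean J t y j ^ 2)) 0 0 6 (by norm_num) fun Y => ?_).trans ?_
    · have := sq_upper (hm j) (abs_dd_le t θ y Y j) (hdn Y j)
      simp only [zero_mul, add_zero]
      calc _ = (1 - (mean J t y j + dd J t θ y Y j) ^ 2) ^ 2 := by rw [dd, add_sub_cancel]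
        _ ≤ _ := this
    · simp only [zero_mul, add_zero, abs_zero]
      have h1 := abs_mul_p_le hbd (mul_self_nonneg (1 - mean J t y j ^ 2)) (hp j j)
      have h2 := herr (|4 * mean J t y j ^ 2 - 2 * (1 - mean J t y j ^ 2)| + 6)
        (by positivity) (by linarith)
      have h3 : 4 * P * ((1 - mean J t y j ^ 2) * (1 - mean J t y j ^ 2)) ≤
          (24 * P + 724 * K1 + 1) * (1 - mean J t y j ^ 2) ^ 2 := by
        rw [← sq]; gcongr; linarith [show 0 ≤ K1 by positivity]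
      linarith [mul_le_mul_of_nonneg_left (h1.trans h3) (sq_nonneg θ)]
  · have hbd : ∀ a, |4 * mean J t y a ^ 2 - 2 * (1 - mean J t y a ^ 2)| ≤ 4 := fun a =>
      (part_bounds (d := 0) (N := 0) (hm a) (by norm_num) (by norm_num)).2.2
    set Dj := 1 - mean J t y j ^ 2
    set Dk := 1 - mean J t y k ^ 2
    obtain ⟨dj0, dj1⟩ := D_pos hJ t y j
    obtain ⟨dk0, dk1⟩ := D_pos hJ t y k
    refine (kern_quad hJ hΛ t θ y hθ hn (((bdd_one_sub_sq t θ j).mul (bdd_one_sub_sq t θ k)).pow 2) j k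
      ((Dj * Dk) ^ 2) (-(4 * mean J t y j * Dj) * Dk ^ 2) (-(4 * mean J t y k * Dk) * Dj ^ 2)
      ((4 * mean J t y j ^ 2 - 2 * Dj) * Dk ^ 2) ((4 * mean J t y k ^ 2 - 2 * Dk) * Dj ^ 2)
      (16 * (mean J t y j * mean J t y k) * (Dj * Dk)) 700 (by norm_num) fun Y => ?_).trans ?_
    · have := prod_upper (hm j) (hm k) (abs_dd_le t θ y Y j) (abs_dd_le t θ y Y k) (hdn Y j) (hdn Y k)
      calc _ = ((1 - (mean J t y j + dd J t θ y Y j) ^ 2) *
            (1 - (mean J t y k + dd J t θ y Y k) ^ 2)) ^ 2 := by rw [dd, dd, add_sub_cancel, add_sub_cancel]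
        _ ≤ _ := this
    · have hmm : |16 * (mean J t y j * mean J t y k)| ≤ 16 := by
        rw [abs_mul, abs_mul, abs_of_pos (by norm_num : (0 : ℝ) < 16)]
        exact mul_le_of_le_one_right (by norm_num) (mul_le_one₀ (hm j) (abs_nonneg _) (hm k))
      have a1 : |(4 * mean J t y j ^ 2 - 2 * Dj) * Dk ^ 2| ≤ 4 := by
        rw [abs_mul, abs_of_nonneg (sq_nonneg Dk)]
        exact (mul_le_of_le_one_right (abs_nonneg _) (pow_le_one₀ dk0.le dk1)).trans (hbd j)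
      have a2 : |(4 * mean J t y k ^ 2 - 2 * Dk) * Dj ^ 2| ≤ 4 := by
        rw [abs_mul, abs_of_nonneg (sq_nonneg Dj)]
        exact (mul_le_of_le_one_right (abs_nonneg _) (pow_le_one₀ dj0.le dj1)).trans (hbd k)
      have a3 : |16 * (mean J t y j * mean J t y k) * (Dj * Dk)| ≤ 16 := by
        rw [abs_mul, abs_of_pos (mul_pos dj0 dk0)]
        exact (mul_le_of_le_one_right (abs_nonneg _) (mul_le_one₀ dj1 dk0.le dk1)).trans hmm
      have h1 := abs_mul_p_le (hbd j) (sq_nonneg (Dj * Dk)) (hp j j)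
      have h2 := abs_mul_p_le (hbd k) (sq_nonneg (Dj * Dk)) (hp k k)
      have h3 := abs_mul_p_le hmm (sq_nonneg (Dj * Dk)) (hp j k)
      have h4 := herr (|(4 * mean J t y j ^ 2 - 2 * Dj) * Dk ^ 2| +
        |(4 * mean J t y k ^ 2 - 2 * Dk) * Dj ^ 2| +
        |16 * (mean J t y j * mean J t y k) * (Dj * Dk)| + 700) (by positivity) (by linarith)
      have hu : 24 * P * (Dj * Dk) ^ 2 ≤ (24 * P + 724 * K1 + 1) * (Dj * Dk) ^ 2 := by
        gcongr; linarith [show 0 ≤ K1 by positivity]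
      linarith [mul_le_mul_of_nonneg_left h1 (sq_nonneg θ), mul_le_mul_of_nonneg_left h2 (sq_nonneg θ),
        mul_le_mul_of_nonneg_left h3 (sq_nonneg θ), mul_le_mul_of_nonneg_left hu (sq_nonneg θ)]

namespace StepProof

/-! ### The displacement of the field -/

lemma integral_eval (k : Fin n) : ∫ z, z k ∂gauss (Fin n) = 0 := by
  have hmp : MeasurePreserving (Function.eval k) (gauss (Fin n)) (gaussianReal 0 1) :=
    measurePreserving_eval (fun _ => gaussianReal 0 1) k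
  have h : ∫ x : ℝ, x ∂(gauss (Fin n)).map (Function.eval k) = ∫ z, z k ∂gauss (Fin n) :=
    integral_map hmp.aemeasurable (measurable_id.aestronglyMeasurable)
  rw [← h, hmp.map_eq, integral_id_gaussianReal]

lemma adm_dot (b : Fin n → ℝ) : GMix.Adm fun z => dot b z := by
  refine ⟨by unfold dot; fun_prop, l1 b, 1, fun z => (abs_dot_le (abs_le_l1 b) z).trans ?_⟩
  rw [one_mul]
  exact mul_le_mul_of_nonneg_left (by linarith [Real.add_one_le_exp (l1 z)]) (l1_nonneg b)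

lemma integral_ker_lin (θ : ℝ) (b : Fin n → ℝ) (x : Cfg n) :
    ∫ z, ker (sig B) θ z x * dot b z ∂gauss (Fin n) = θ * dot b (sig B x) := by
  have h := Channel.translate (κ := Fin n) (θ • sig B x) (fun z => dot b z)
  have e : ∀ z, Real.exp (dot (θ • sig B x) z - Channel.nsq (θ • sig B x) / 2) =
      ker (sig B) θ z x := fun z => by
    simp only [ker, Channel.nsq, dot, Pi.smul_apply, smul_eq_mul, mul_pow, mul_assoc, ← Finset.mul_sum]
    ring_nf
  simp only [e] at h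
  rw [← h]
  have e2 : ∀ z, dot b (z + θ • sig B x) = dot b z + θ * dot b (sig B x) := fun z => by
    simp only [dot, Pi.add_apply, Pi.smul_apply, smul_eq_mul, mul_add, Finset.sum_add_distrib,
      Finset.mul_sum]
    exact congrArg _ (Finset.sum_congr rfl fun k _ => by ring)
  have hi : ∀ k, Integrable (fun z : Fin n → ℝ => b k * z k) (gauss (Fin n)) := fun k => by
    refine (integrable_of_bound (C := 1) (M := 1) (continuous_apply k) fun z => ?_).const_mul _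
    rw [one_mul, one_mul]
    exact (abs_le_l1 z k).trans (by linarith [Real.add_one_le_exp (l1 z)])
  simp only [e2]
  rw [integral_add (adm_dot b).integrable (integrable_const _), integral_const]
  simp only [probReal_univ, one_smul, add_eq_right]
  simp only [dot]
  rw [integral_finsetSum _ fun k _ => hi k]
  simp [integral_const_mul, integral_eval]

/-- the mean of the displacement of the field -/
lemma disp_mean (hJ : Ctl Λ c J B) (s θ : ℝ) (y : Fin n → ℝ) (i : Fin n) :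
    ∫ z, mix (Moments.w0 J s y) (sig B) θ z * (θ * dot (B i) z) ∂gauss (Fin n) =
      θ ^ 2 * ((J *ᵥ mean J s y) i + c * mean J s y i) := by
  have ik : ∀ x, Integrable (fun z => Moments.w0 J s y x * (θ * (ker (sig B) θ z x * dot (B i) z)))
      (gauss (Fin n)) := fun x =>
    ((((GMix.adm_ker _ θ x).mul (adm_dot (B i))).const_mul θ).const_mul _).integrable
  have e : ∀ z, mix (Moments.w0 J s y) (sig B) θ z * (θ * dot (B i) z) =
      ∑ x, Moments.w0 J s y x * (θ * (ker (sig B) θ z x * dot (B i) z)) := fun z => by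
    rw [mix, Finset.sum_mul]
    exact Finset.sum_congr rfl fun x _ => by ring
  simp only [e]
  rw [integral_finsetSum _ fun x _ => ik x]
  simp only [integral_const_mul, integral_ker_lin]
  have e3 : ∀ x, dot (B i) (sig B x) = (J *ᵥ svec x) i + c * spin (x i) := fun x => by
    show (B *ᵥ (Bᵀ *ᵥ svec x)) i = _
    rw [Matrix.mulVec_mulVec, hJ.factor, Matrix.add_mulVec, Matrix.smul_mulVec, Matrix.one_mulVec]
    rfl
  have e4 : ∀ x X, Moments.w0 J s y x * (θ * (θ * X)) = θ ^ 2 * (Moments.w0 J s y x * X) :=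
    fun x X => by ring
  simp only [e3, e4]
  rw [← Finset.mul_sum]
  congr 1
  simp only [mul_add, Finset.sum_add_distrib, Matrix.mulVec, dotProduct, svec, Finset.mul_sum]
  congr 1
  · rw [Finset.sum_comm]
    refine Finset.sum_congr rfl fun j _ => ?_
    show _ = J i j * ∑ x, Moments.w0 J s y x * spin (x j)
    rw [Finset.mul_sum]
    exact Finset.sum_congr rfl fun x _ => by ring
  · show _ = c * ∑ x, Moments.w0 J s y x * spin (x i)
    rw [Finset.mul_sum]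
    exact Finset.sum_congr rfl fun x _ => by ring

lemma cube_le_exp (v : ℝ) : |v| ^ 3 ≤ 6 * (Real.exp v + Real.exp (-v)) := by
  have h := Real.pow_div_factorial_le_exp |v| (abs_nonneg v) 3
  have h2 : Real.exp |v| ≤ Real.exp v + Real.exp (-v) := by
    rcases abs_choice v with e | e <;> rw [e] <;> linarith [Real.exp_pos v, Real.exp_pos (-v)]
  rw [show ((Nat.factorial 3 : ℕ) : ℝ) = 6 by norm_num [Nat.factorial], div_le_iff₀ (by norm_num)] at h
  linarith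

lemma exp_dot_moment (hJ : Ctl Λ c J B) (hΛ : 0 < Λ) (θ : ℝ) (hn : θ ^ 2 * n ≤ 1) (x : Cfg n)
    (b : Fin n → ℝ) (hb : ∑ k, b k ^ 2 ≤ Λ) :
    Integrable (fun z => ker (sig B) θ z x * Real.exp (dot b z)) (gauss (Fin n)) ∧
      ∫ z, ker (sig B) θ z x * Real.exp (dot b z) ∂gauss (Fin n) ≤ Real.exp (2 * Λ) := by
  set v : Fin n → ℝ := fun k => θ * sig B x k + b k
  have e : ∀ z, ker (sig B) θ z x * Real.exp (dot b z) =
      Real.exp (-(θ ^ 2 / 2 * ∑ k, sig B x k ^ 2)) * Real.exp (dot v z) := fun z => by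
    have h : dot v z = θ * dot (sig B x) z + dot b z := by
      simp only [v, dot, Finset.mul_sum, ← Finset.sum_add_distrib]
      exact Finset.sum_congr rfl fun k _ => by ring
    rw [ker, h, ← Real.exp_add, ← Real.exp_add]
    ring_nf
  simp only [e]
  refine ⟨(integrable_of_bound (C := 1) (M := l1 v) (by unfold dot; fun_prop) fun z => ?_).const_mul _,
    ?_⟩
  · rw [one_mul, Real.abs_exp]
    exact Real.exp_le_exp.2 ((le_abs_self _).trans (abs_dot_le (abs_le_l1 v) z))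
  · rw [integral_const_mul, mgf_dot, ← Real.exp_add]
    refine Real.exp_le_exp.2 ?_
    have h1 : ∑ k, v k ^ 2 ≤ ∑ k, (2 * θ ^ 2 * sig B x k ^ 2 + 2 * b k ^ 2) :=
      Finset.sum_le_sum fun k _ => by
        simp only [v]; linarith [sq_nonneg (θ * sig B x k - b k)]
    rw [Finset.sum_add_distrib, ← Finset.mul_sum, ← Finset.mul_sum] at h1
    have h2 : θ ^ 2 * ∑ k, sig B x k ^ 2 ≤ Λ :=
      (mul_le_mul_of_nonneg_left (Moments.sig_sq_le hJ hΛ x) (sq_nonneg θ)).trans (by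
        calc θ ^ 2 * (Λ * n) = Λ * (θ ^ 2 * n) := by ring
          _ ≤ Λ * 1 := mul_le_mul_of_nonneg_left hn hΛ.le
          _ = Λ := mul_one Λ)
    linarith

lemma row_sq (hJ : Ctl Λ c J B) (i : Fin n) : ∑ k, B i k ^ 2 ≤ Λ := by
  have h : (B * Bᵀ) i i = ∑ k, B i k ^ 2 := by
    simp [Matrix.mul_apply, sq]
  rw [← h, hJ.factor, Matrix.add_apply, Matrix.smul_apply, Matrix.one_apply_eq, hJ.diag, zero_add,
    smul_eq_mul, mul_one]
  linarith [hJ.op, le_abs_self c, norm_nonneg J]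

/-- third moment of the displacement of the field -/
lemma disp_cube (hJ : Ctl Λ c J B) (hΛ : 0 < Λ) (s θ : ℝ) (y : Fin n → ℝ) (hθ : 0 ≤ θ)
    (hn : θ ^ 2 * n ≤ 1) :
    Integrable (fun z => mix (Moments.w0 J s y) (sig B) θ z * nrm (θ • B *ᵥ z) ^ 3) (gauss (Fin n)) ∧
      ∫ z, mix (Moments.w0 J s y) (sig B) θ z * nrm (θ • B *ᵥ z) ^ 3 ∂gauss (Fin n) ≤
        24 * Real.exp (2 * Λ) * (n + 1 : ℝ) ^ 4 * θ ^ 3 := by
  set μ := Moments.w0 J s y
  set g : Fin n → (Fin n → ℝ) → ℝ := fun j z => ∑ x, μ x *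
    (ker (sig B) θ z x * Real.exp (dot (B j) z) + ker (sig B) θ z x * Real.exp (dot (-B j) z))
  have hb : ∀ j, ∑ k, (-B j) k ^ 2 ≤ Λ := fun j => by simpa using row_sq hJ j
  have hi : ∀ j, Integrable (g j) (gauss (Fin n)) := fun j => integrable_finsetSum _ fun x _ =>
    (((exp_dot_moment hJ hΛ θ hn x (B j) (row_sq hJ j)).1).fun_add
      (exp_dot_moment hJ hΛ θ hn x _ (hb j)).1).const_mul _
  have hg : ∀ j, ∫ z, g j z ∂gauss (Fin n) ≤ 2 * Real.exp (2 * Λ) := fun j => by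
    simp only [g]
    rw [integral_finsetSum _ fun x _ => (((exp_dot_moment hJ hΛ θ hn x (B j) (row_sq hJ j)).1).fun_add
      (exp_dot_moment hJ hΛ θ hn x _ (hb j)).1).const_mul _]
    calc ∑ x, ∫ z, μ x * (ker (sig B) θ z x * Real.exp (dot (B j) z) +
          ker (sig B) θ z x * Real.exp (dot (-B j) z)) ∂gauss (Fin n) ≤
          ∑ x, μ x * (2 * Real.exp (2 * Λ)) := Finset.sum_le_sum fun x _ => by
            obtain ⟨i1, h1⟩ := exp_dot_moment hJ hΛ θ hn x (B j) (row_sq hJ j)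
            obtain ⟨i2, h2⟩ := exp_dot_moment hJ hΛ θ hn x _ (hb j)
            rw [integral_const_mul, integral_add i1 i2]
            exact mul_le_mul_of_nonneg_left (by linarith) (Ising.wt_pos _ _ x).le
      _ = 2 * Real.exp (2 * Λ) := by
          rw [← Finset.sum_mul, show ∑ x, μ x = 1 from sum_wt _ _, one_mul]
  have hpt : ∀ z, mix μ (sig B) θ z * nrm (θ • B *ᵥ z) ^ 3 ≤
      2 * n * θ ^ 3 * 6 * ∑ j, g j z := fun z => by
    refine (mul_le_mul_of_nonneg_left (Moments.nrm_cube_le _) (mix_pos' J B s θ y z).le).trans ?_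
    simp only [Finset.mul_sum]
    refine Finset.sum_le_sum fun j _ => ?_
    have e : (θ • B *ᵥ z) j = θ * dot (B j) z := rfl
    rw [e, abs_mul, mul_pow, abs_of_nonneg hθ]
    have hm : dot (-B j) z = -dot (B j) z := by simp [dot]
    simp only [g, mix, hm, Finset.sum_mul, Finset.mul_sum]
    refine Finset.sum_le_sum fun x _ => ?_
    have h0 : 0 ≤ 2 * (n : ℝ) * θ ^ 3 * (μ x * ker (sig B) θ z x) :=
      by
      have h1 : 0 ≤ μ x * ker (sig B) θ z x :=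
        mul_nonneg (Ising.wt_pos _ _ x).le (ker_pos (sig B) θ z x).le
      exact mul_nonneg (by positivity) h1
    calc _ = 2 * (n : ℝ) * θ ^ 3 * (μ x * ker (sig B) θ z x) * |dot (B j) z| ^ 3 := by ring
      _ ≤ 2 * (n : ℝ) * θ ^ 3 * (μ x * ker (sig B) θ z x) *
          (6 * (Real.exp (dot (B j) z) + Real.exp (-dot (B j) z))) :=
        mul_le_mul_of_nonneg_left (cube_le_exp _) h0
      _ = _ := by ring
  have hint : Integrable (fun z => mix μ (sig B) θ z * nrm (θ • B *ᵥ z) ^ 3) (gauss (Fin n)) := by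
    refine ((integrable_finsetSum Finset.univ fun j _ => hi j).const_mul (2 * (n : ℝ) * θ ^ 3 * 6)).mono' ?_
      (Filter.Eventually.of_forall fun z => ?_)
    · refine ((continuous_mix _ _ _).mul (Continuous.pow ?_ 3)).aestronglyMeasurable
      unfold nrm; fun_prop
    · rw [Real.norm_eq_abs, abs_of_nonneg (mul_nonneg (mix_pos' J B s θ y z).le
        (pow_nonneg (nrm_nonneg _) 3))]
      exact hpt z
  refine ⟨hint, (integral_mono hint ((integrable_finsetSum _ fun j _ => hi j).const_mul _) hpt).trans ?_⟩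
  rw [integral_const_mul, integral_finsetSum _ fun j _ => hi j]
  calc 2 * (n : ℝ) * θ ^ 3 * 6 * ∑ j, ∫ z, g j z ∂gauss (Fin n) ≤
        2 * (n : ℝ) * θ ^ 3 * 6 * ∑ _j : Fin n, 2 * Real.exp (2 * Λ) :=
        mul_le_mul_of_nonneg_left (Finset.sum_le_sum fun j _ => hg j) (by positivity)
    _ = 24 * Real.exp (2 * Λ) * (n : ℝ) ^ 2 * θ ^ 3 := by simp; ring
    _ ≤ _ := by
        gcongr
        calc (n : ℝ) ^ 2 ≤ (n + 1 : ℝ) ^ 2 := by gcongr; linarith
          _ ≤ (n + 1 : ℝ) ^ 4 := pow_le_pow_right₀ (le_add_of_nonneg_left (Nat.cast_nonneg n)) (by norm_num)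

/-! ### `ResStep` -/

/-- linear and quadratic part of the expansion, without the displacement of the field -/
noncomputable def qres (β t h : ℝ) (J : Matrix (Fin n) (Fin n) ℝ) (m d : Fin n → ℝ) (i : Fin n) : ℝ :=
  (kHat β t J m *ᵥ d) i + h * (aCoef' β t * (1 - qv m) * m i + (J *ᵥ m) i)
    + (m i * d i ^ 2 / (1 - m i ^ 2) ^ 2 - aCoef β t * (d ⬝ᵥ d) / n * m i
      - 2 * aCoef β t / n * (m ⬝ᵥ d) * d i)

lemma coef {β t : ℝ} (hβ : 0 ≤ β) (hβ1 : β < 1) (h0 : 0 ≤ t) (h1 : t ≤ 1) :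
    0 ≤ aCoef β t ∧ aCoef β t ≤ 1 ∧ |aCoef' β t| ≤ 2 := by
  have hb : β ^ 2 ≤ 1 := pow_le_one₀ hβ hβ1.le
  refine ⟨by unfold aCoef; positivity, ?_, ?_⟩
  · exact mul_le_one₀ hb (sq_nonneg _) (pow_le_one₀ (by linarith) (by linarith))
  · rw [aCoef', abs_mul, abs_mul, abs_neg, abs_two, abs_of_nonneg (sq_nonneg β),
      abs_of_nonneg (sub_nonneg.2 h1)]
    calc 2 * β ^ 2 * (1 - t) ≤ 2 * 1 * 1 := by gcongr ; linarith
      _ = 2 := by norm_num

lemma nrm_le_sqrt {m : Fin n → ℝ} (hm : ∀ i, |m i| ≤ 1) : nrm m ≤ Real.sqrt n :=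
  Real.sqrt_le_sqrt ((Finset.sum_le_sum fun i _ => (sq_le_one_iff_abs_le_one (m i)).2 (hm i)).trans
    (by simp))

lemma qv_mem {m : Fin n → ℝ} (hm : ∀ i, |m i| ≤ 1) : |1 - qv m| ≤ 1 := by
  have h : qv m ≤ 1 := div_le_one_of_le₀
    ((Finset.sum_le_sum fun i _ => (sq_le_one_iff_abs_le_one (m i)).2 (hm i)).trans (by simp))
    (Nat.cast_nonneg n)
  have h0 : 0 ≤ qv m := by unfold qv; positivity
  exact abs_le.2 ⟨by linarith, by linarith⟩

lemma abs_J_le (hJ : Ctl Λ c J B) (v : Fin n → ℝ) (i : Fin n) : |(J *ᵥ v) i| ≤ Λ * nrm v := by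
  have hop : OpNorm.OpLe J Λ := OpNorm.opLe_iff_norm_le.2 (by linarith [hJ.op, abs_nonneg c])
  exact (abs_dot_le_nrm (J i) v).trans (mul_le_mul_of_nonneg_right
    ((Real.sqrt_le_sqrt (hop.row i)).trans_eq (Real.sqrt_sq hop.1)) (nrm_nonneg _))

lemma sqrt_nat_le (n : ℕ) : Real.sqrt n ≤ n := by
  rcases Nat.eq_zero_or_pos n with rfl | h
  · simp
  · exact (Real.sqrt_le_left (Nat.cast_nonneg n)).2
      (le_self_pow₀ (by exact_mod_cast h) two_ne_zero)

lemma abs_resM_le (hJ : Ctl Λ c J B) {β t : ℝ} (hβ : 0 ≤ β) (hβ1 : β < 1) (h0 : 0 ≤ t)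
    (h1 : t ≤ 1) (Y : Fin n → ℝ) (i : Fin n) (hY : |Y i| ≤ n) :
    |resM β t J Y (mean J t Y) i| ≤ (2 * Λ + 3) * (n + 1 : ℝ) := by
  have hm : ∀ j, |mean J t Y j| ≤ 1 := fun j => (abs_mean_lt hJ t Y j).le
  obtain ⟨a0, a1, _⟩ := coef hβ hβ1 h0 h1
  have hn := sqrt_nat_le n
  have hΛ0 : 0 ≤ Λ := le_trans (by positivity) hJ.op
  have hΛs : Λ * Real.sqrt n ≤ Λ * (n + 1 : ℝ) :=
    mul_le_mul_of_nonneg_left (hn.trans (le_add_of_nonneg_right zero_le_one)) hΛ0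
  have ht : |1 - t| ≤ 1 := abs_le.2 ⟨by linarith, by linarith⟩
  have e1 := abs_artanh_mean_le hJ t Y i
  have e1' : |1 - t| * (Λ * Real.sqrt n) ≤ Λ * (n + 1 : ℝ) :=
    (mul_le_of_le_one_left (by positivity) ht).trans hΛs
  have e2 : |aCoef β t * (1 - qv (mean J t Y)) * mean J t Y i| ≤ 1 := by
    rw [abs_mul, abs_mul, abs_of_nonneg a0]
    exact mul_le_one₀ (mul_le_one₀ a1 (abs_nonneg _) (qv_mem hm)) (abs_nonneg _) (hm i)
  have e3 : |(1 - t) * ∑ j, J i j * mean J t Y j| ≤ Λ * (n + 1 : ℝ) := by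
    rw [abs_mul]
    exact (mul_le_of_le_one_left (abs_nonneg _) ht).trans
      (((abs_J_le hJ (mean J t Y) i).trans (mul_le_mul_of_nonneg_left (nrm_le_sqrt hm) hΛ0)).trans hΛs)
  unfold resM
  rw [abs_le]
  have b1 := abs_le.1 (e1.trans (add_le_add hY e1'))
  have b2 := abs_le.1 e2
  have b3 := abs_le.1 e3
  have b4 := abs_le.1 hY
  constructor <;> linarith [(Nat.cast_nonneg n : (0 : ℝ) ≤ n)]

lemma abs_qres_le (hJ : Ctl Λ c J B) {β t h l : ℝ} (hβ : 0 ≤ β) (hβ1 : β < 1) (h0 : 0 ≤ t)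
    (h1 : t ≤ 1) (hh : 0 ≤ h) (hh1 : h ≤ 1) (hl : 0 < l) (hl1 : l ≤ 1) {m d : Fin n → ℝ}
    (hm : ∀ i, |m i| ≤ 1) (hD : ∀ i, l ≤ 1 - m i ^ 2) (i : Fin n) :
    |qres β t h J m d i| ≤
      (Λ + 4) / l ^ 2 * (n + 1 : ℝ) * (1 + nrm d + nrm d ^ 2) := by
  obtain ⟨a0, a1, a2⟩ := coef hβ hβ1 h0 h1
  set a := aCoef β t
  set N := nrm d
  have hN : 0 ≤ N := nrm_nonneg d
  have hΛ0 : 0 ≤ Λ := le_trans (by positivity) hJ.op
  have hdi : |d i| ≤ N := abs_le_nrm d i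
  have hn := sqrt_nat_le n
  have hsn : Real.sqrt n / n ≤ 1 := div_le_one_of_le₀ hn (Nat.cast_nonneg n)
  have hmd : |m ⬝ᵥ d| ≤ Real.sqrt n * N :=
    (abs_dot_le_nrm m d).trans (mul_le_mul_of_nonneg_right (nrm_le_sqrt hm) hN)
  have hcr : |2 * a / n * (m ⬝ᵥ d)| ≤ 2 * N := by
    rw [abs_mul, abs_of_nonneg (show 0 ≤ 2 * a / n by positivity)]
    calc 2 * a / n * |m ⬝ᵥ d| ≤ 2 * a / n * (Real.sqrt n * N) := by gcongr
      _ = 2 * a * (Real.sqrt n / n) * N := by ring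
      _ ≤ 2 * 1 * 1 * N := by gcongr
      _ = 2 * N := by ring
  have hl2 : 1 ≤ 1 / l ^ 2 := by rw [le_div_iff₀ (by positivity), one_mul]; exact pow_le_one₀ hl.le hl1
  have hDi : 0 < 1 - m i ^ 2 := hl.trans_le (hD i)
  have k1 : |(kHat β t J m *ᵥ d) i| ≤ (Λ + 4) / l ^ 2 * N := by
    have e : (kHat β t J m *ᵥ d) i = d i / (1 - m i ^ 2) + a * (1 - qv m) * d i
        - (1 - t) * (J *ᵥ d) i - 2 * a / n * (m ⬝ᵥ d) * m i := by
      simp only [kHat, vMat, Matrix.add_mulVec, Matrix.sub_mulVec, Matrix.smul_mulVec, Pi.add_apply,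
        Pi.sub_apply, Pi.smul_apply, smul_eq_mul, Matrix.one_mulVec, Matrix.mulVec_diagonal]
      simp only [Matrix.mulVec, dotProduct, vecMulVec_apply, mul_assoc, ← Finset.mul_sum, a]
      ring
    have c1 : |d i / (1 - m i ^ 2)| ≤ 1 / l ^ 2 * N := by
      rw [abs_div, abs_of_pos hDi, one_div_mul_eq_div]
      refine div_le_div₀ hN hdi (by positivity) ((pow_le_of_le_one hl.le hl1 two_ne_zero).trans (hD i))
    have c2 : |a * (1 - qv m) * d i| ≤ N := by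
      rw [abs_mul, abs_mul, abs_of_nonneg a0]
      exact (mul_le_of_le_one_left (abs_nonneg _) (mul_le_one₀ a1 (abs_nonneg _) (qv_mem hm))).trans hdi
    have c3 : |(1 - t) * (J *ᵥ d) i| ≤ Λ * N := by
      rw [abs_mul]
      exact (mul_le_of_le_one_left (abs_nonneg _) (abs_le.2 ⟨by linarith, by linarith⟩)).trans
        (abs_J_le hJ d i)
    have c4 : |2 * a / n * (m ⬝ᵥ d) * m i| ≤ 2 * N := by
      rw [abs_mul]; exact (mul_le_of_le_one_right (abs_nonneg _) (hm i)).trans hcr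
    rw [e]
    have := mul_le_mul_of_nonneg_left hl2 (mul_nonneg (show 0 ≤ Λ + 3 by positivity) hN)
    rw [show (Λ + 4) / l ^ 2 * N = (Λ + 3) * N * (1 / l ^ 2) + 1 / l ^ 2 * N by ring]
    rw [abs_le]
    constructor <;> linarith [(abs_le.1 c1).1, (abs_le.1 c1).2, (abs_le.1 c2).1, (abs_le.1 c2).2,
      (abs_le.1 c3).1, (abs_le.1 c3).2, (abs_le.1 c4).1, (abs_le.1 c4).2]
  have k2 : |h * (aCoef' β t * (1 - qv m) * m i + (J *ᵥ m) i)| ≤ (Λ + 4) * (n + 1 : ℝ) := by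
    rw [abs_mul, abs_of_nonneg hh]
    refine (mul_le_of_le_one_left (abs_nonneg _) hh1).trans ((abs_add_le _ _).trans ?_)
    rw [abs_mul, abs_mul]
    have c1 : |aCoef' β t| * |1 - qv m| * |m i| ≤ 2 * 1 * 1 := by
      gcongr
      · exact qv_mem hm
      · exact hm i
    have c2 : |(J *ᵥ m) i| ≤ Λ * (n + 1 : ℝ) := (abs_J_le hJ m i).trans
      (mul_le_mul_of_nonneg_left ((nrm_le_sqrt hm).trans (hn.trans (by linarith))) hΛ0)
    linarith [(Nat.cast_nonneg n : (0 : ℝ) ≤ n)]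
  have k3 : |m i * d i ^ 2 / (1 - m i ^ 2) ^ 2 - a * (d ⬝ᵥ d) / n * m i
      - 2 * a / n * (m ⬝ᵥ d) * d i| ≤ 4 / l ^ 2 * N ^ 2 := by
    have c1 : |m i * d i ^ 2 / (1 - m i ^ 2) ^ 2| ≤ 1 / l ^ 2 * N ^ 2 := by
      rw [abs_div, abs_mul, abs_of_nonneg (sq_nonneg (d i)), abs_of_nonneg (a := (1 - m i ^ 2) ^ 2) (sq_nonneg _),
        one_div_mul_eq_div]
      refine div_le_div₀ (sq_nonneg N) ?_ (by positivity) (pow_le_pow_left₀ hl.le (hD i) 2)
      exact (mul_le_of_le_one_left (sq_nonneg _) (hm i)).trans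
        (by rw [← sq_abs (d i)]; exact pow_le_pow_left₀ (abs_nonneg _) hdi 2)
    have c2 : |a * (d ⬝ᵥ d) / n * m i| ≤ N ^ 2 := by
      have e : d ⬝ᵥ d = N ^ 2 := by
        simp only [N, nrm, dotProduct]
        rw [Real.sq_sqrt (Finset.sum_nonneg fun i _ => sq_nonneg (d i))]
        exact Finset.sum_congr rfl fun k _ => (sq (d k)).symm
      rw [abs_mul, e, abs_of_nonneg (show 0 ≤ a * N ^ 2 / n by positivity)]
      refine (mul_le_of_le_one_right (by positivity) (hm i)).trans ?_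
      refine div_le_of_le_mul₀ (Nat.cast_nonneg n) (sq_nonneg N) ?_
      calc a * N ^ 2 ≤ 1 * N ^ 2 := by gcongr
        _ ≤ N ^ 2 * n := by
          rw [one_mul]
          exact le_mul_of_one_le_right (sq_nonneg N)
            (by exact_mod_cast i.pos)
    have c3 : |2 * a / n * (m ⬝ᵥ d) * d i| ≤ 2 * N ^ 2 := by
      rw [abs_mul]
      exact (mul_le_mul hcr hdi (abs_nonneg _) (by positivity)).trans_eq (by ring)
    have := mul_le_mul_of_nonneg_left hl2 (show 0 ≤ 3 * N ^ 2 by positivity)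
    rw [show 4 / l ^ 2 * N ^ 2 = 3 * N ^ 2 * (1 / l ^ 2) + 1 / l ^ 2 * N ^ 2 by ring]
    rw [abs_le]
    constructor <;> linarith [(abs_le.1 c1).1, (abs_le.1 c1).2, (abs_le.1 c2).1, (abs_le.1 c2).2,
      (abs_le.1 c3).1, (abs_le.1 c3).2]
  have hn1 : (1 : ℝ) ≤ n + 1 := le_add_of_nonneg_left (Nat.cast_nonneg n)
  have g1 : (Λ + 4) / l ^ 2 * N ≤ (Λ + 4) / l ^ 2 * (n + 1 : ℝ) * N :=
    mul_le_mul_of_nonneg_right (le_mul_of_one_le_right (by positivity) hn1) hN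
  have g2 : (Λ + 4) * (n + 1 : ℝ) ≤ (Λ + 4) / l ^ 2 * (n + 1 : ℝ) := by
    refine mul_le_mul_of_nonneg_right ?_ (by positivity)
    rw [le_div_iff₀ (by positivity)]
    exact mul_le_of_le_one_right (by positivity) (pow_le_one₀ hl.le hl1)
  have g3 : 4 / l ^ 2 * N ^ 2 ≤ (Λ + 4) / l ^ 2 * (n + 1 : ℝ) * N ^ 2 := by
    refine mul_le_mul_of_nonneg_right (le_trans ?_ (le_mul_of_one_le_right (by positivity) hn1)) (sq_nonneg N)
    gcongr; linarith
  rw [qres, show ∀ A : ℝ, A * (1 + N + N ^ 2) = A + A * N + A * N ^ 2 from fun A => by ring]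
  exact ((abs_add_le _ _).trans (add_le_add (abs_add_le _ _) le_rfl)).trans (by linarith)

lemma le_cube_div {u δ : ℝ} (hδ : 0 < δ) (hδ1 : δ ≤ 1) (hu : δ < u) :
    1 + u + u ^ 2 ≤ 3 * (u ^ 3 / δ ^ 3) := by
  have h : 1 ≤ u / δ := (one_le_div hδ).2 hu.le
  set r := u / δ with hr
  have e : u = δ * r := by rw [hr]; field_simp
  rw [← div_pow, ← hr, e]
  have hr0 : 0 ≤ r := zero_le_one.trans h
  have p1 : r ≤ r ^ 3 := le_self_pow₀ h (by norm_num)
  have p2 : r ^ 2 ≤ r ^ 3 := pow_le_pow_right₀ h (by norm_num)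
  have p3 : δ * r ≤ r := mul_le_of_le_one_left hr0 hδ1
  have p4 : (δ * r) ^ 2 ≤ r ^ 2 := pow_le_pow_left₀ (by positivity) p3 2
  linarith

lemma add_cube_le {a b : ℝ} (ha : 0 ≤ a) (hb : 0 ≤ b) : (a + b) ^ 3 ≤ 4 * (a ^ 3 + b ^ 3) := by
  nlinarith [mul_nonneg (add_nonneg ha hb) (sq_nonneg (a - b))]

/-- pointwise error of the expansion -/
lemma point {β KE : ℝ} (hJ : Ctl Λ c J B) (hΛ : 0 < Λ) (hβ : 0 ≤ β) (hβ1 : β < 1) (hKE : 0 < KE)
    {t θ l δ : ℝ} {y : Fin n → ℝ} (ht : 0 ≤ t) (hθ : 0 < θ) (hθ1 : θ ≤ 1) (hte : t + θ ^ 2 ≤ 1)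
    (hl : 0 < l) (hl1 : l ≤ 1) (hδ : 0 < δ) (hδ1 : δ ≤ 1)
    (hc : KE * (n + 1 : ℝ) ^ 4 * (θ ^ 2 + δ) ≤ l ^ 4)
    (hD : ∀ i, l ≤ 1 - mean J t y i ^ 2) (hy : ∀ i, |y i| + 1 ≤ n)
    (hE : ∀ t h : ℝ, 0 ≤ t → 0 ≤ h → t + h ≤ 1 → ∀ (y d' m d : Fin n → ℝ) (l : ℝ), 0 < l → l ≤ 1 →
      (∀ i, |m i| < 1) → (∀ i, l ≤ 1 - m i ^ 2) →
      KE * (n + 1 : ℝ) ^ 4 * (h + nrm d) ≤ l ^ 4 →
      ∀ i, |resM β (t + h) J (y + d') (m + d) i - resM β t J y m i
          - ((kHat β t J m *ᵥ d) i + h * (aCoef' β t * (1 - qv m) * m i + (J *ᵥ m) i) - d' i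
            + (m i * d i ^ 2 / (1 - m i ^ 2) ^ 2 - aCoef β t * (d ⬝ᵥ d) / n * m i
              - 2 * aCoef β t / n * (m ⬝ᵥ d) * d i))| ≤
        KE * (n + 1 : ℝ) ^ 4 / l ^ 4 * (nrm d ^ 3 + h * nrm d + h ^ 2))
    (Y : Fin n → ℝ) (i : Fin n) :
    |resClip β (t + θ ^ 2) J Y i - resM β t J y (mean J t y) i
        - qres β t (θ ^ 2) J (mean J t y) (dd J t θ y Y) i + (Y - y) i| ≤
      (2 * KE + 12 * (6 * Λ + 12)) * (n + 1 : ℝ) ^ 4 / (l ^ 4 * δ ^ 3) *
        (nrm (dd J t θ y Y) ^ 3 + nrm (Y - y) ^ 3 + θ ^ 3) := by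
  set m := mean J t y with hm0
  set d := dd J t θ y Y with hd0
  set N := nrm d
  set M := nrm (Y - y)
  have hN : 0 ≤ N := nrm_nonneg _
  have hM : 0 ≤ M := nrm_nonneg _
  have hδ3 : δ ^ 3 ≤ 1 := pow_le_one₀ hδ.le hδ1
  have ht1 : t ≤ 1 := le_trans (le_add_of_nonneg_right (sq_nonneg θ)) hte
  have hn1 : (1 : ℝ) ≤ n + 1 := le_add_of_nonneg_left (Nat.cast_nonneg n)
  set C := (2 * KE + 12 * (6 * Λ + 12)) * (n + 1 : ℝ) ^ 4 / (l ^ 4 * δ ^ 3)
  have hl4 : 0 < l ^ 4 * δ ^ 3 := by positivity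
  by_cases hG : N + M ≤ δ
  · have hin : ∀ j, |Y j| ≤ n := fun j => by
      have h1 : |(Y - y) j| ≤ M := abs_le_nrm _ j
      have h2 : |Y j| ≤ |y j| + |(Y - y) j| := by
        have := abs_add_le (y j) ((Y - y) j)
        simpa using this
      linarith [hy j]
    rw [resClip, if_pos hin]
    have hcond : KE * (n + 1 : ℝ) ^ 4 * (θ ^ 2 + N) ≤ l ^ 4 := le_trans
      (mul_le_mul_of_nonneg_left (by linarith) (by positivity)) hc
    have h := hE t (θ ^ 2) ht (sq_nonneg θ) hte y (Y - y) m d l hl hl1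
      (fun j => abs_mean_lt hJ t y j) hD hcond i
    rw [show y + (Y - y) = Y by simp,
      show m + d = mean J (t + θ ^ 2) Y by funext j; simp [m, d, dd]] at h
    refine le_trans (le_of_eq (congrArg abs ?_)) (h.trans ?_)
    · simp only [qres]; ring
    have h3 : θ ^ 2 * N ≤ θ ^ 3 + N ^ 3 := by
      rcases le_total N θ with hle | hle
      · have := mul_le_mul_of_nonneg_left hle (sq_nonneg θ)
        linarith [pow_nonneg hN 3]
      · have := mul_le_mul_of_nonneg_right (pow_le_pow_left₀ hθ.le hle 2) hN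
        linarith [pow_nonneg hθ.le 3]
    have h4 : (θ ^ 2) ^ 2 ≤ θ ^ 3 := by
      rw [← pow_mul]; exact pow_le_pow_of_le_one hθ.le hθ1 (by norm_num)
    calc KE * (n + 1 : ℝ) ^ 4 / l ^ 4 * (N ^ 3 + θ ^ 2 * N + (θ ^ 2) ^ 2)
        ≤ KE * (n + 1 : ℝ) ^ 4 / l ^ 4 * (2 * (N ^ 3 + M ^ 3 + θ ^ 3)) := by
          refine mul_le_mul_of_nonneg_left ?_ (by positivity)
          linarith [pow_nonneg hM 3]
      _ = 2 * KE * (n + 1 : ℝ) ^ 4 / l ^ 4 * (N ^ 3 + M ^ 3 + θ ^ 3) := by ring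
      _ ≤ C * (N ^ 3 + M ^ 3 + θ ^ 3) := by
          gcongr
          refine div_le_div₀ (by positivity) ?_ hl4 (mul_le_of_le_one_right (by positivity) hδ3)
          gcongr; linarith
  · set u := N + M with hu
    have hu3 := le_cube_div hδ hδ1 (not_le.1 hG)
    have r1 : |resClip β (t + θ ^ 2) J Y i| ≤ (2 * Λ + 3) * (n + 1 : ℝ) := by
      rw [resClip]
      split_ifs with h
      · exact abs_resM_le hJ hβ hβ1 (by positivity) hte Y i (h i)
      · rw [abs_zero]; positivity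
    have r2 := abs_resM_le hJ hβ hβ1 ht ht1 y i (by linarith [hy i])
    have r3 := abs_qres_le (h := θ ^ 2) (d := d) hJ hβ hβ1 ht ht1 (sq_nonneg θ) (pow_le_one₀ hθ.le hθ1) hl hl1
      (fun j => (abs_mean_lt hJ t y j).le) hD i
    have r4 : |(Y - y) i| ≤ u := (abs_le_nrm _ i).trans (le_add_of_nonneg_left hN)
    have hl2 : (1 : ℝ) ≤ 1 / l ^ 2 := by
      rw [le_div_iff₀ (by positivity), one_mul]; exact pow_le_one₀ hl.le hl1
    set S := (n + 1 : ℝ) * (1 / l ^ 2) * (1 + u + u ^ 2)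
    have hs : (1 : ℝ) ≤ 1 + u + u ^ 2 := by
      linarith [sq_nonneg u, show 0 ≤ u from add_nonneg hN hM]
    have q1 : (n + 1 : ℝ) ≤ S := by
      refine le_trans ?_ (le_mul_of_one_le_right (by positivity) hs)
      exact le_mul_of_one_le_right (by positivity) hl2
    have q2 : u ≤ S := le_trans (by linarith [sq_nonneg u] : u ≤ 1 + u + u ^ 2)
      (le_mul_of_one_le_left (by linarith) (one_le_mul_of_one_le_of_one_le hn1 hl2))
    have q3 : (Λ + 4) / l ^ 2 * (n + 1 : ℝ) * (1 + N + N ^ 2) ≤ (Λ + 4) * S := by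
      have h1 : 1 + N + N ^ 2 ≤ 1 + u + u ^ 2 := by
        gcongr <;> linarith
      calc (Λ + 4) / l ^ 2 * (n + 1 : ℝ) * (1 + N + N ^ 2) ≤
            (Λ + 4) / l ^ 2 * (n + 1 : ℝ) * (1 + u + u ^ 2) :=
            mul_le_mul_of_nonneg_left h1 (by positivity)
        _ = (Λ + 4) * S := by ring
    have q4 := mul_le_mul_of_nonneg_left q1 (show 0 ≤ 2 * Λ + 3 by positivity)
    have tot : |resClip β (t + θ ^ 2) J Y i - resM β t J y m i - qres β t (θ ^ 2) J m d i + (Y - y) i| ≤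
        (6 * Λ + 12) * S := by
      have hΛS : 0 ≤ (Λ + 1) * S := mul_nonneg (by positivity) (by positivity)
      rw [abs_le]
      constructor <;> linarith [(abs_le.1 r1).1, (abs_le.1 r1).2, (abs_le.1 r2).1, (abs_le.1 r2).2,
        (abs_le.1 r3).1, (abs_le.1 r3).2, (abs_le.1 r4).1, (abs_le.1 r4).2]
    refine tot.trans ?_
    have hS : S ≤ (n + 1 : ℝ) ^ 4 / l ^ 4 * (3 * (4 * (N ^ 3 + M ^ 3) / δ ^ 3)) := by
      refine mul_le_mul ?_ (hu3.trans (by gcongr; exact add_cube_le hN hM)) (by linarith) (by positivity)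
      rw [mul_one_div]
      exact div_le_div₀ (by positivity) (le_self_pow₀ hn1 (by norm_num)) (by positivity)
        (pow_le_pow_of_le_one hl.le hl1 (by norm_num))
    refine (mul_le_mul_of_nonneg_left hS (by positivity)).trans ?_
    calc (6 * Λ + 12) * ((n + 1 : ℝ) ^ 4 / l ^ 4 * (3 * (4 * (N ^ 3 + M ^ 3) / δ ^ 3)))
        = 12 * (6 * Λ + 12) * (n + 1 : ℝ) ^ 4 / (l ^ 4 * δ ^ 3) * (N ^ 3 + M ^ 3) := by
          field_simp; ring
      _ ≤ C * (N ^ 3 + M ^ 3 + θ ^ 3) := by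
          have : 0 ≤ θ ^ 3 := pow_nonneg hθ.le 3
          refine mul_le_mul (div_le_div_of_nonneg_right (mul_le_mul_of_nonneg_right (by linarith)
            (by positivity)) hl4.le) (le_add_of_nonneg_right this) (by positivity) (by positivity)

lemma bdd_resClip (hJ : Ctl Λ c J B) {β t : ℝ} (hβ : 0 ≤ β) (hβ1 : β < 1) (h0 : 0 ≤ t) (h1 : t ≤ 1)
    (i : Fin n) : Bdd fun Y => resClip β t J Y i := by
  classical
  refine ⟨?_, (2 * Λ + 3) * (n + 1 : ℝ), fun Y => ?_⟩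
  · unfold resClip
    refine Measurable.ite ?_ ?_ measurable_const
    · rw [Set.ofPred_forall]
      exact MeasurableSet.iInter fun j => measurableSet_le (by fun_prop) measurable_const
    · have hm : ∀ j, Measurable fun Y => mean J t Y j := fun j => measurable_avg _ _
      unfold resM qv Real.artanh
      fun_prop
  · simp only [resClip]
    split_ifs with h
    · exact abs_resM_le hJ hβ hβ1 h0 h1 Y i (h i)
    · rw [abs_zero]
      exact mul_nonneg (by linarith [hJ.op, norm_nonneg J, abs_nonneg c]) (by positivity)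

lemma bdd_dot (s θ : ℝ) (y u : Fin n → ℝ) : Bdd fun Y => u ⬝ᵥ dd J s θ y Y := by
  simp only [dotProduct]
  exact Bdd.sum _ fun j => (bdd_dd s θ y j).const_mul (u j)

lemma bdd_qres (β t h s θ : ℝ) (y m : Fin n → ℝ) (i : Fin n) :
    Bdd fun Y => qres β t h J m (dd J s θ y Y) i := by
  have b1 : Bdd fun Y => dd J s θ y Y ⬝ᵥ dd J s θ y Y := by
    simp only [dotProduct]
    exact Bdd.sum _ fun j => (bdd_dd s θ y j).mul (bdd_dd s θ y j)
  have b2 : Bdd fun Y => m i * dd J s θ y Y i ^ 2 / (1 - m i ^ 2) ^ 2 := by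
    simpa [mul_div_right_comm] using ((bdd_dd (J := J) s θ y i).pow 2).const_mul (m i / (1 - m i ^ 2) ^ 2)
  have b3 : Bdd fun Y => aCoef β t * (dd J s θ y Y ⬝ᵥ dd J s θ y Y) / n * m i := by
    have := b1.const_mul (aCoef β t / n * m i)
    convert this using 2; ring
  exact ((bdd_dot s θ y _).add (Bdd.const _)).add
    ((b2.sub b3).sub (((bdd_dot s θ y m).const_mul (2 * aCoef β t / n)).mul (bdd_dd s θ y i)))

/-- the expectation of the expansion -/
lemma kern_qres (hJ : Ctl Λ c J B) (hΛ : 0 < Λ) {β t θ l : ℝ} (hβ : 0 ≤ β) (hβ1 : β < 1) (ht : 0 ≤ t)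
    (ht1 : t ≤ 1) (hθ : 0 ≤ θ) (hn : θ ^ 2 * n ≤ 1) (hl : 0 < l) (hl1 : l ≤ 1) (y : Fin n → ℝ)
    (hD : ∀ i, l ≤ 1 - mean J t y i ^ 2) (i : Fin n) :
    |kern J B t θ y (fun Y => qres β t (θ ^ 2) J (mean J t y) (dd J t θ y Y) i)
        - θ ^ 2 * ((J *ᵥ mean J t y) i + c * mean J t y i)
        - θ ^ 2 * resDrift β c t (J + c • 1) (mean J t y) (fMat J t y) i
        + θ ^ 2 * (2 * aCoef β t / n) * ((1 - mean J t y i ^ 2) *
            ((pMat (J + c • 1) (mean J t y) (fMat J t y))ᵀ *ᵥ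
              fun j => mean J t y j * (1 - mean J t y j ^ 2)) i)| ≤
      4 / l ^ 2 * ((22 * Moments.K0 Λ + 4 * Λ ^ 2 * Real.exp Λ) * (n + 1 : ℝ) ^ 4 * θ ^ 3) := by
  set m := mean J t y with hm0
  set p := pMat (J + c • 1) m (fMat J t y)
  set d := fun Y => dd J t θ y Y with hd
  set E := (22 * Moments.K0 Λ + 4 * Λ ^ 2 * Real.exp Λ) * (n + 1 : ℝ) ^ 4 * θ ^ 3 with hE
  set a := aCoef β t
  obtain ⟨a0, a1, _⟩ := coef hβ hβ1 ht ht1
  set e : Fin n → Fin n → ℝ := fun j k => kern J B t θ y (fun Y => dd J t θ y Y j * dd J t θ y Y k) -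
      θ ^ 2 * ((1 - m j ^ 2) * (1 - m k ^ 2) * p j k) with he0
  have he : ∀ j k, |e j k| ≤ E := fun j k => second' hJ hΛ t θ y hθ hn j k
  have ek : ∀ j k, kern J B t θ y (fun Y => dd J t θ y Y j * dd J t θ y Y k) =
      θ ^ 2 * ((1 - m j ^ 2) * (1 - m k ^ 2) * p j k) + e j k := fun j k => by simp [e]
  have f1 : ∀ u : Fin n → ℝ, kern J B t θ y (fun Y => u ⬝ᵥ dd J t θ y Y) = 0 := fun u => by
    simp only [dotProduct]
    rw [k_sum J B _ t θ y fun j => (bdd_dd t θ y j).const_mul (u j)]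
    simp [kern_smul, mean_zero hJ]
  have f2 : kern J B t θ y (fun Y => dd J t θ y Y ⬝ᵥ dd J t θ y Y) =
      θ ^ 2 * (∑ j, (1 - m j ^ 2) ^ 2 * p j j) + ∑ j, e j j := by
    simp only [dotProduct]
    rw [k_sum J B _ t θ y fun j => (bdd_dd t θ y j).mul (bdd_dd t θ y j)]
    simp only [ek, Finset.sum_add_distrib, Finset.mul_sum, sq]
  have f3 : kern J B t θ y (fun Y => (m ⬝ᵥ dd J t θ y Y) * dd J t θ y Y i) =
      θ ^ 2 * ((1 - m i ^ 2) * (pᵀ *ᵥ fun j => m j * (1 - m j ^ 2)) i) + ∑ j, m j * e j i := by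
    simp only [dotProduct, Finset.sum_mul, mul_assoc]
    rw [k_sum J B _ t θ y fun j => (((bdd_dd t θ y j).mul (bdd_dd t θ y i))).const_mul (m j)]
    simp only [kern_smul, ek, mul_add, Finset.sum_add_distrib, Matrix.mulVec, dotProduct,
      Matrix.transpose_apply, Finset.mul_sum]
    exact congrArg (· + _) (Finset.sum_congr rfl fun j _ => by ring)
  set C0 := θ ^ 2 * (aCoef' β t * (1 - qv m) * m i + (J *ᵥ m) i)
  set r := m i / (1 - m i ^ 2) ^ 2
  have eq : (fun Y => qres β t (θ ^ 2) J m (dd J t θ y Y) i) = fun Y =>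
      (kHat β t J m i) ⬝ᵥ dd J t θ y Y + C0 + (r * (dd J t θ y Y i * dd J t θ y Y i) +
        (-(a / n * m i)) * (dd J t θ y Y ⬝ᵥ dd J t θ y Y) +
        (-(2 * a / n)) * ((m ⬝ᵥ dd J t θ y Y) * dd J t θ y Y i)) := funext fun Y => by
    simp only [qres, C0, r, a, Matrix.mulVec]
    ring
  have b1 := bdd_dot (J := J) t θ y (kHat β t J m i)
  have b2 := ((bdd_dd (J := J) t θ y i).mul (bdd_dd (J := J) t θ y i)).const_mul r
  have b3 : Bdd fun Y => (-(a / n * m i)) * (dd J t θ y Y ⬝ᵥ dd J t θ y Y) :=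
    Bdd.const_mul _ (by
      simp only [dotProduct]
      exact Bdd.sum _ fun j => (bdd_dd t θ y j).mul (bdd_dd t θ y j))
  have b4 := ((bdd_dot (J := J) t θ y m).mul (bdd_dd (J := J) t θ y i)).const_mul (-(2 * a / n))
  rw [eq, k_add J B t θ y (b1.add (Bdd.const C0)) ((b2.add b3).add b4), k_add J B t θ y b1 (Bdd.const C0),
    k_add J B t θ y (b2.add b3) b4, k_add J B t θ y b2 b3, kern_const, kern_smul, kern_smul, kern_smul,
    f1, f2, f3, ek]
  have hDi : 0 < 1 - m i ^ 2 := hl.trans_le (hD i)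
  have hid : r * (θ ^ 2 * ((1 - m i ^ 2) * (1 - m i ^ 2) * p i i)) = θ ^ 2 * (m i * p i i) := by
    simp only [r]
    field_simp
  have hval : 0 + C0 + (r * (θ ^ 2 * ((1 - m i ^ 2) * (1 - m i ^ 2) * p i i) + e i i) +
        -(a / n * m i) * (θ ^ 2 * (∑ j, (1 - m j ^ 2) ^ 2 * p j j) + ∑ j, e j j) +
        -(2 * a / n) * (θ ^ 2 * ((1 - m i ^ 2) * (pᵀ *ᵥ fun j => m j * (1 - m j ^ 2)) i) +
          ∑ j, m j * e j i)) - θ ^ 2 * ((J *ᵥ m) i + c * m i)
      - θ ^ 2 * resDrift β c t (J + c • 1) m (fMat J t y) i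
      + θ ^ 2 * (2 * a / n) * ((1 - m i ^ 2) * (pᵀ *ᵥ fun j => m j * (1 - m j ^ 2)) i) =
      r * e i i - a / n * m i * (∑ j, e j j) - 2 * a / n * ∑ j, m j * e j i := by
    rw [mul_add r, hid]
    simp only [resDrift, shiftCoef, trP, C0, a, p]
    ring
  rw [hval]
  have hm : ∀ j, |m j| ≤ 1 := fun j => (abs_mean_lt hJ t y j).le
  have hE0 : 0 ≤ E := (abs_nonneg _).trans (he i i)
  have c1 : |r * e i i| ≤ 1 / l ^ 2 * E := by
    rw [abs_mul]
    refine mul_le_mul ?_ (he i i) (abs_nonneg _) (by positivity)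
    rw [abs_div, abs_of_nonneg (a := (1 - m i ^ 2) ^ 2) (sq_nonneg _)]
    exact div_le_div₀ zero_le_one (hm i) (by positivity) (pow_le_pow_left₀ hl.le (hD i) 2)
  have hn0 : (0 : ℝ) < n := by exact_mod_cast i.pos
  have cs : ∀ f : Fin n → ℝ, (∀ j, |f j| ≤ E) → |∑ j, f j| ≤ n * E := fun f hf =>
    (Finset.abs_sum_le_sum_abs _ _).trans ((Finset.sum_le_sum fun j _ => hf j).trans (by simp))
  have c2 : |a / n * m i * ∑ j, e j j| ≤ E := by
    rw [abs_mul, abs_mul, abs_of_nonneg (show 0 ≤ a / n by positivity)]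
    calc a / n * |m i| * |∑ j, e j j| ≤ 1 / n * 1 * (n * E) := by
          gcongr
          · exact hm i
          · exact cs _ fun j => he j j
      _ = E := by field_simp
  have c3 : |2 * a / n * ∑ j, m j * e j i| ≤ 2 * E := by
    rw [abs_mul, abs_of_nonneg (show 0 ≤ 2 * a / n by positivity)]
    calc 2 * a / n * |∑ j, m j * e j i| ≤ 2 * 1 / n * (n * E) := by
          gcongr
          exact cs _ fun j => by rw [abs_mul]; exact (mul_le_of_le_one_left (abs_nonneg _) (hm j)).trans (he j i)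
      _ = 2 * E := by field_simp
  have hl2 : 3 * E ≤ 3 * E * (1 / l ^ 2) := le_mul_of_one_le_right (by positivity) (by
    rw [le_div_iff₀ (by positivity), one_mul]; exact pow_le_one₀ hl.le hl1)
  rw [show 4 / l ^ 2 * E = 3 * E * (1 / l ^ 2) + 1 / l ^ 2 * E by ring, abs_le]
  constructor <;> linarith [(abs_le.1 c1).1, (abs_le.1 c1).2, (abs_le.1 c2).1, (abs_le.1 c2).2,
    (abs_le.1 c3).1, (abs_le.1 c3).2]

end StepProof

open StepProof in
/-- The residual moves by `θ² (resDrift + O(1))` in expectation, given the expansion. -/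
theorem resStep_of_expand (hExp : ExpandRes) : ResStep := by
  intro β c Λ K₀ hβ hβ1 hΛ hK₀
  obtain ⟨KE, hKE, hE⟩ := hExp β Λ hβ hβ1 hΛ
  have hK0 : 0 ≤ Moments.K0 Λ := by unfold Moments.K0; positivity
  set K2 := 72 * Moments.K0 Λ + 4 * Λ ^ 2 * Real.exp Λ with hK2d
  have hK2 : 0 ≤ K2 := by positivity
  set K3 := (2 * KE + 12 * (6 * Λ + 12)) * (K2 + 24 * Real.exp (2 * Λ) + 1) + 4 * K2 with hK3d
  have hK3 : 0 ≤ K3 := by positivity
  set P := (1 + K₀) ^ 2 * Λ with hPd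
  have hP : 0 ≤ P := by positivity
  refine ⟨KE + K3 + 2 * P, by positivity, fun n J B hJ t θ l δ y ht hθ hn hte hl hl1 hδ hδ1 hc hD hy hF w => ?_⟩
  set K := KE + K3 + 2 * P
  have hθ1 : θ ≤ 1 := by
    have : θ ^ 2 ≤ 1 := by linarith
    exact (sq_le_one_iff₀ hθ.le).1 this
  have ht1 : t ≤ 1 := by linarith [sq_nonneg θ]
  have hcE : KE * (n + 1 : ℝ) ^ 4 * (θ ^ 2 + δ) ≤ l ^ 4 := le_trans
    (mul_le_mul_of_nonneg_right (mul_le_mul_of_nonneg_right (by linarith) (by positivity))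
      (by positivity)) hc
  set m := mean J t y with hm0
  set p := pMat (J + c • 1) m (fMat J t y)
  set v : Fin n → ℝ := fun i => (1 - m i ^ 2) * (pᵀ *ᵥ fun j => m j * (1 - m j ^ 2)) i
  set h := θ ^ 2 with hh
  set a := aCoef β t
  obtain ⟨a0, a1, _⟩ := coef hβ hβ1 ht ht1
  set ε : Fin n → ℝ := fun i => kern J B t θ y (fun Y => resClip β (t + h) J Y i) - resM β t J y m i -
    h * resDrift β c t (J + c • 1) m (fMat J t y) i + h * (2 * a / n) * v i
  set E := K3 * (n + 1 : ℝ) ^ 8 / l ^ 4 * (θ ^ 3 / δ ^ 3)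
  have herr : ∀ i, |ε i| ≤ E := fun i => by
    set G : (Fin n → ℝ) → ℝ := fun Y => resClip β (t + h) J Y i - resM β t J y m i -
      qres β t h J m (dd J t θ y Y) i
    have bC : Bdd fun Y => resClip β (t + h) J Y i :=
      bdd_resClip hJ hβ hβ1 (by positivity) hte i
    have bR : Bdd fun Y => resClip β (t + h) J Y i - resM β t J y m i := bC.sub (Bdd.const _)
    have bQ := bdd_qres (J := J) β t h t θ y m i
    have bG : Bdd G := bR.sub bQ
    have hkG : kern J B t θ y G = kern J B t θ y (fun Y => resClip β (t + h) J Y i) - resM β t J y m i -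
        kern J B t θ y (fun Y => qres β t h J m (dd J t θ y Y) i) := by
      rw [k_sub J B t θ y bR bQ, k_sub J B t θ y bC (Bdd.const _), kern_const]
    have hq := kern_qres hJ hΛ hβ hβ1 ht ht1 hθ.le hn hl hl1 y hD i
    set C := (2 * KE + 12 * (6 * Λ + 12)) * (n + 1 : ℝ) ^ 4 / (l ^ 4 * δ ^ 3) with hC
    obtain ⟨iM, hM⟩ := disp_cube hJ hΛ t θ y hθ.le hn
    have iB : Integrable (fun z => mix (Moments.w0 J t y) (sig B) θ z * (θ * dot (B i) z))
        (gauss (Fin n)) := ((GMix.adm_mix _ _ _).mul ((adm_dot (B i)).const_mul θ)).integrable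
    have iG := bG.integrable (J := J) (B := B) t θ y
    have iN := (bdd_cube (J := J) t θ y).integrable (J := J) (B := B) t θ y
    have i1 : Integrable (fun z => mix (Moments.w0 J t y) (sig B) θ z * θ ^ 3) (gauss (Fin n)) :=
      (integrable_mix _ θ).mul_const _
    have iNM := iN.fun_add iM
    have hpt : ∀ z, |mix (Ising.wt ((1 - t) • J) y) (sig B) θ z * G (y + θ • B *ᵥ z) +
        mix (Moments.w0 J t y) (sig B) θ z * (θ * dot (B i) z)| ≤
        C * (mix (Ising.wt ((1 - t) • J) y) (sig B) θ z * nrm (dd J t θ y (y + θ • B *ᵥ z)) ^ 3 +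
          mix (Moments.w0 J t y) (sig B) θ z * nrm (θ • B *ᵥ z) ^ 3 +
          mix (Moments.w0 J t y) (sig B) θ z * θ ^ 3) := fun z => by
      have h1 := point hJ hΛ hβ hβ1 hKE ht hθ hθ1 hte hl hl1 hδ hδ1 hcE hD hy
        (hE n c J B hJ) (y + θ • B *ᵥ z) i
      rw [add_sub_cancel_left, show (θ • B *ᵥ z) i = θ * dot (B i) z from rfl] at h1
      have hpos := mix_pos' J B t θ y z
      rw [← mul_add, abs_mul, abs_of_pos hpos]
      refine (mul_le_mul_of_nonneg_left h1 hpos.le).trans_eq ?_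
      rw [hC]; ring
    have hW : |kern J B t θ y G + h * ((J *ᵥ m) i + c * m i)| ≤
        C * ((K2 + 24 * Real.exp (2 * Λ) + 1) * (n + 1 : ℝ) ^ 4 * θ ^ 3) := by
      rw [← disp_mean hJ t θ y i, kern, ← integral_add iG iB]
      refine abs_integral_le_integral_abs.trans ((integral_mono (iG.fun_add iB).abs
        ((iNM.fun_add i1).const_mul C) hpt).trans ?_)
      rw [integral_const_mul, integral_add iNM i1, integral_add iN iM, integral_mul_const, integral_mix,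
        show ∑ x, Moments.w0 J t y x = 1 from sum_wt _ _, one_mul]
      refine mul_le_mul_of_nonneg_left ?_ (by positivity)
      have h3 : kern J B t θ y (fun Y => nrm (dd J t θ y Y) ^ 3) ≤ K2 * (n + 1 : ℝ) ^ 4 * θ ^ 3 :=
        (Moments.third hJ hΛ t θ y hθ.le hn).trans (by
          gcongr; linarith [show 0 ≤ 4 * Λ ^ 2 * Real.exp Λ by positivity])
      have h4 : θ ^ 3 ≤ (n + 1 : ℝ) ^ 4 * θ ^ 3 :=
        le_mul_of_one_le_left (by positivity) (one_le_pow₀ (le_add_of_nonneg_left (Nat.cast_nonneg n)))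
      rw [kern] at h3
      linarith
    have hsum : ε i = (kern J B t θ y G + h * ((J *ᵥ m) i + c * m i)) +
        (kern J B t θ y (fun Y => qres β t h J m (dd J t θ y Y) i) - h * ((J *ᵥ m) i + c * m i) -
          h * resDrift β c t (J + c • 1) m (fMat J t y) i + h * (2 * a / n) * v i) := by
      rw [hkG]; ring
    rw [hsum]
    refine (abs_add_le _ _).trans ((add_le_add hW hq).trans ?_)
    have s1 : 4 / l ^ 2 * ((22 * Moments.K0 Λ + 4 * Λ ^ 2 * Real.exp Λ) * (n + 1 : ℝ) ^ 4 * θ ^ 3) ≤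
        4 * K2 * (n + 1 : ℝ) ^ 8 / l ^ 4 * (θ ^ 3 / δ ^ 3) := by
      calc _ = 4 * (22 * Moments.K0 Λ + 4 * Λ ^ 2 * Real.exp Λ) * (n + 1 : ℝ) ^ 4 / l ^ 2 * θ ^ 3 := by
            ring
        _ ≤ _ := by
          refine mul_le_mul ?_ ?_ (by positivity) (by positivity)
          · refine div_le_div₀ (by positivity) (mul_le_mul (by linarith)
              (pow_le_pow_right₀ (le_add_of_nonneg_left (Nat.cast_nonneg n)) (by norm_num))
              (by positivity) (by positivity)) (by positivity)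
              (pow_le_pow_of_le_one hl.le hl1 (by norm_num))
          · exact le_div_self (by positivity) (by positivity) (pow_le_one₀ hδ.le hδ1)
    have s2 : C * ((K2 + 24 * Real.exp (2 * Λ) + 1) * (n + 1 : ℝ) ^ 4 * θ ^ 3) =
        (2 * KE + 12 * (6 * Λ + 12)) * (K2 + 24 * Real.exp (2 * Λ) + 1) * (n + 1 : ℝ) ^ 8 / l ^ 4 *
          (θ ^ 3 / δ ^ 3) := by
      rw [hC]; field_simp
    have s3 : E = (2 * KE + 12 * (6 * Λ + 12)) * (K2 + 24 * Real.exp (2 * Λ) + 1) * (n + 1 : ℝ) ^ 8 / l ^ 4 *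
        (θ ^ 3 / δ ^ 3) + 4 * K2 * (n + 1 : ℝ) ^ 8 / l ^ 4 * (θ ^ 3 / δ ^ 3) := by
      simp only [E, hK3d]; ring
    linarith
  have hw : ∀ i, w i * (kern J B t θ y (fun Y => resClip β (t + h) J Y i) - resM β t J y m i -
      h * resDrift β c t (J + c • 1) m (fMat J t y) i) = w i * ε i - h * (2 * a / n) * (w i * v i) :=
    fun i => by ring
  rw [Finset.sum_congr rfl fun i _ => hw i, Finset.sum_sub_distrib, ← Finset.mul_sum]
  have hw0 := nrm_nonneg w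
  have t1 : |∑ i, w i * ε i| ≤ nrm w * (Real.sqrt n * E) := by
    refine (abs_dot_le_nrm w ε).trans (mul_le_mul_of_nonneg_left ?_ hw0)
    rw [← Real.sqrt_sq (show 0 ≤ E by positivity), ← Real.sqrt_mul (Nat.cast_nonneg n)]
    refine Real.sqrt_le_sqrt ((Finset.sum_le_sum (g := fun _ => E ^ 2) fun i _ => ?_).trans
      (le_of_eq (by simp)))
    rw [← sq_abs]
    exact pow_le_pow_left₀ (abs_nonneg _) (herr i) 2
  have t2 : |∑ i, w i * v i| ≤ nrm w * (P * Real.sqrt n) := by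
    refine (abs_dot_le_nrm w v).trans (mul_le_mul_of_nonneg_left ?_ hw0)
    have hp := ((OpNorm.opLe_iff_norm_le.2 (norm_pMat_le hJ t y hF)).transpose).2
      fun j => m j * (1 - m j ^ 2)
    rw [← Real.sqrt_sq hP, ← Real.sqrt_mul (sq_nonneg P)]
    refine Real.sqrt_le_sqrt ?_
    calc ∑ i, v i ^ 2 ≤ OpNorm.nsq (pᵀ *ᵥ fun j => m j * (1 - m j ^ 2)) :=
          Finset.sum_le_sum fun i _ => by
            simp only [v, mul_pow]
            exact mul_le_of_le_one_left (sq_nonneg _) (pow_le_one₀ (D_pos hJ t y i).1.le (D_pos hJ t y i).2)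
      _ ≤ P ^ 2 * OpNorm.nsq (fun j => m j * (1 - m j ^ 2)) := hp
      _ ≤ P ^ 2 * n := by
          refine mul_le_mul_of_nonneg_left ((Finset.sum_le_sum (g := fun _ => (1 : ℝ)) fun j _ => ?_).trans
            (le_of_eq (by simp))) (sq_nonneg P)
          rw [mul_pow]
          exact mul_le_one₀ ((sq_le_one_iff_abs_le_one _).2 (abs_mean_lt hJ t y j).le) (sq_nonneg _)
            (pow_le_one₀ (D_pos hJ t y j).1.le (D_pos hJ t y j).2)
  refine (abs_sub _ _).trans ?_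
  rw [abs_mul, abs_of_nonneg (show 0 ≤ h * (2 * a / n) by positivity)]
  refine (add_le_add t1 (mul_le_mul_of_nonneg_left t2 (by positivity))).trans ?_
  rw [mul_add (nrm w), add_comm]
  refine add_le_add ?_ (mul_le_mul_of_nonneg_left ?_ hw0)
  · calc h * (2 * a / n) * (nrm w * (P * Real.sqrt n)) =
          nrm w * (h * (2 * P) * (a * (Real.sqrt n / n))) := by ring
      _ ≤ nrm w * (h * (2 * P) * (1 * 1)) := by
          gcongr
          exact div_le_one_of_le₀ (sqrt_nat_le n) (Nat.cast_nonneg n)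
      _ ≤ nrm w * (K * h) := by
          refine mul_le_mul_of_nonneg_left ?_ hw0
          rw [mul_one, mul_one, mul_comm h]
          exact mul_le_mul_of_nonneg_right (by linarith) (by positivity)
  · have hn1 : (1 : ℝ) ≤ n + 1 := le_add_of_nonneg_left (Nat.cast_nonneg n)
    calc Real.sqrt n * E ≤ (n + 1 : ℝ) * E := by
          gcongr
          exact (sqrt_nat_le n).trans (by linarith)
      _ = K3 * (n + 1 : ℝ) ^ 9 / l ^ 4 * (θ ^ 3 / δ ^ 3) := by ring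
      _ ≤ K * (n + 1 : ℝ) ^ 16 / l ^ 12 * (θ ^ 3 / δ ^ 3) := by
          refine mul_le_mul_of_nonneg_right (div_le_div₀ (by positivity) ?_ (by positivity)
            (pow_le_pow_of_le_one hl.le hl1 (by norm_num))) (by positivity)
          exact mul_le_mul (by linarith) (pow_le_pow_right₀ hn1 (by norm_num)) (by positivity) (by positivity)

/-- The residual moves by `θ² (resDrift + O(1))` in expectation. -/
theorem resStep : ResStep := resStep_of_expand expandRes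

end Vale.Agent.P150.PartB
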