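import Vale.Agent.P150.Fast.PartB.InductionSpec
import Vale.Agent.P150.Fast.PartB.StepRes
import Vale.Agent.P150.Fast.PartB.PsiLip
import Vale.Agent.P150.Fast.PartB.Chan

/-!
# P150, Part B: tools for the block barriers

Measurability and crude bounds of `eMat` and `resClip`, the identity `eMat = D (F - H) D` where the
Jacobian is definite, and the single passes of the linear barrier for the operator and the Frobenius
norm of `F - H`.
-/

open MeasureTheory Matrix
open scoped Matrix.Norms.L2Operator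

namespace Vale.Agent.P150.PartB

open Vale.Agent.P150.Fast

variable {n : ℕ} {Λ c : ℝ} {J B : Matrix (Fin n) (Fin n) ℝ}

namespace Block

open StepProof

/-- the pairing of two matrices -/
def qform (T X : Matrix (Fin n) (Fin n) ℝ) : ℝ := ∑ j, ∑ k, T j k * X j k

lemma fnrm_nonneg (X : Matrix (Fin n) (Fin n) ℝ) : 0 ≤ fnrm X := Real.sqrt_nonneg _

lemma abs_qform_le (T X : Matrix (Fin n) (Fin n) ℝ) : |qform T X| ≤ fnrm T * fnrm X := by
  have e : ∀ Y : Matrix (Fin n) (Fin n) ℝ, fnrm Y = nrm fun p : Fin n × Fin n => Y p.1 p.2 := fun Y =>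
    congrArg Real.sqrt (Fintype.sum_prod_type fun p : Fin n × Fin n => Y p.1 p.2 ^ 2).symm
  rw [e, e, qform, ← Fintype.sum_prod_type fun p : Fin n × Fin n => T p.1 p.2 * X p.1 p.2]
  exact OpNorm.abs_dot_le (fun p : Fin n × Fin n => T p.1 p.2) fun p => X p.1 p.2

lemma fnrm_le_entries {X : Matrix (Fin n) (Fin n) ℝ} {b : ℝ} (hb0 : 0 ≤ b)
    (hb : ∀ i j, |X i j| ≤ b) : fnrm X ≤ n * b := by
  refine (Real.sqrt_le_left (by positivity)).2 ?_
  refine (Finset.sum_le_sum fun i _ => Finset.sum_le_sum fun j _ =>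
    (sq_le_sq' (abs_le.1 (hb i j)).1 (abs_le.1 (hb i j)).2)).trans (le_of_eq ?_)
  simp; ring

lemma abs_qform_entries (T X : Matrix (Fin n) (Fin n) ℝ) {b : ℝ} (hb0 : 0 ≤ b)
    (hb : ∀ i j, |X i j| ≤ b) : |qform T X| ≤ n * b * fnrm T :=
  (abs_qform_le T X).trans
    ((mul_le_mul_of_nonneg_left (fnrm_le_entries hb0 hb) (fnrm_nonneg T)).trans_eq (by ring))

lemma fnrm_le_norm (X : Matrix (Fin n) (Fin n) ℝ) : fnrm X ≤ Real.sqrt n * ‖X‖ := by
  rw [← Real.sqrt_sq (norm_nonneg X), ← Real.sqrt_mul (Nat.cast_nonneg n)]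
  exact Real.sqrt_le_sqrt ((OpNorm.opLe_iff_norm_le.2 le_rfl : OpNorm.OpLe X ‖X‖).fsq_le.trans_eq
    (by simp))

lemma bdd_qform (T : Matrix (Fin n) (Fin n) ℝ) {N : (Fin n → ℝ) → Matrix (Fin n) (Fin n) ℝ}
    (hN : ∀ i j, Bdd fun Y => N Y i j) : Bdd fun Y => qform T (N Y) :=
  Bdd.sum _ fun i => Bdd.sum _ fun j => (hN i j).const_mul (T i j)

lemma qform_step {s θ : ℝ} {y : Fin n → ℝ} (T : Matrix (Fin n) (Fin n) ℝ)
    {N : (Fin n → ℝ) → Matrix (Fin n) (Fin n) ℝ} {E₀ M : Matrix (Fin n) (Fin n) ℝ} {e : ℝ}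
    (hN : ∀ i j, Bdd fun Y => N Y i j) (he : 0 ≤ e)
    (h : ∀ i j, |E₀ i j - kern J B s θ y (fun Y => N Y i j) - θ ^ 2 * M i j| ≤ e) :
    qform T E₀ ≤ kern J B s θ y (fun Y => qform T (N Y)) + θ ^ 2 * qform T M + n * e * fnrm T := by
  have h1 : kern J B s θ y (fun Y => qform T (N Y)) = qform T (kernMat J B s θ y N) := by
    simp only [qform, kernMat, Matrix.of_apply]
    rw [k_sum J B _ s θ y fun i => Bdd.sum _ fun j => (hN i j).const_mul (T i j)]
    refine Finset.sum_congr rfl fun i _ => ?_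
    rw [k_sum J B _ s θ y fun j => (hN i j).const_mul (T i j)]
    exact Finset.sum_congr rfl fun j _ => kern_smul J B s θ y _ _
  have h2 := (abs_le.1 (abs_qform_entries T (E₀ - kernMat J B s θ y N - θ ^ 2 • M) he
    (fun i j => by simpa [kernMat] using h i j))).2
  have h3 : qform T (E₀ - kernMat J B s θ y N - θ ^ 2 • M) =
      qform T E₀ - qform T (kernMat J B s θ y N) - θ ^ 2 * qform T M := by
    simp only [qform, Matrix.sub_apply, Matrix.smul_apply, smul_eq_mul, mul_sub,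
      Finset.sum_sub_distrib, Finset.mul_sum]
    congr 1
    exact Finset.sum_congr rfl fun i _ => Finset.sum_congr rfl fun j _ => by ring
  rw [h1]; linarith

lemma conj_apply (m : Fin n → ℝ) (X : Matrix (Fin n) (Fin n) ℝ) (i j : Fin n) :
    (dMat m * X * dMat m) i j = (1 - m i ^ 2) * X i j * (1 - m j ^ 2) := by
  rw [dMat, Matrix.mul_diagonal, Matrix.diagonal_mul]

/-! ### Measurability and crude bounds -/

lemma continuous_avg (K : Matrix (Fin n) (Fin n) ℝ) (f : Cfg n → ℝ) :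
    Continuous fun Y => Ising.avg K Y f := by
  unfold Ising.avg Ising.wt Ising.qE
  refine continuous_finsetSum _ fun x _ => Continuous.mul (Continuous.div ?_ ?_ fun Y => ?_) continuous_const
  · fun_prop
  · fun_prop
  · exact (Finset.sum_pos (fun x _ => Real.exp_pos _) Finset.univ_nonempty).ne'

lemma continuous_mean (t : ℝ) (i : Fin n) : Continuous fun Y => mean J t Y i := continuous_avg _ _

lemma measurable_rCut (hJ : Ctl Λ c J B) (η β t : ℝ) (i j : Fin n) :
    Measurable fun Y => rCut η β t J (mean J t Y) i j := by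
  classical
  have hK : Continuous fun Y => kHat β t J (mean J t Y) := by
    refine continuous_matrix fun a b => ?_
    simp only [kHat, vMat, qv, Matrix.add_apply, Matrix.sub_apply, Matrix.smul_apply, smul_eq_mul,
      vecMulVec_apply, Matrix.diagonal_apply]
    have hm := fun k => continuous_mean (J := J) t k
    by_cases hab : a = b
    · simp only [if_pos hab]
      have : Continuous fun Y => 1 / (1 - mean J t Y a ^ 2) :=
        continuous_const.div (continuous_const.sub ((hm a).pow 2)) fun Y => (D_pos hJ t Y a).1.ne'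
      fun_prop
    · simp only [if_neg hab]
      fun_prop
  have hset : MeasurableSet {Y | ∀ v : Fin n → ℝ,
      η * ∑ k, v k ^ 2 ≤ v ⬝ᵥ kHat β t J (mean J t Y) *ᵥ v} := by
    rw [Set.ofPred_forall]
    refine (isClosed_iInter fun v => isClosed_le continuous_const ?_).measurableSet
    exact continuous_const.dotProduct (hK.matrix_mulVec continuous_const)
  have e : (fun Y => rCut η β t J (mean J t Y) i j) = fun Y =>
      if Y ∈ {Y | ∀ v : Fin n → ℝ, η * ∑ k, v k ^ 2 ≤ v ⬝ᵥ kHat β t J (mean J t Y) *ᵥ v}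
      then (kHat β t J (mean J t Y))⁻¹ i j else 0 := by
    funext Y
    simp only [rCut, Set.mem_ofPred_eq]
    split_ifs <;> rfl
  rw [e]
  refine Measurable.ite hset ?_ measurable_const
  simp only [Matrix.inv_def, Matrix.smul_apply, smul_eq_mul, Ring.inverse_eq_inv']
  exact (hK.matrix_det.measurable.inv).mul ((hK.matrix_adjugate.matrix_elem i j).measurable)

lemma abs_eMat_le {η : ℝ} (hη : 0 < η) (β t : ℝ) (Y : Fin n → ℝ) (i j : Fin n) :
    |eMat η β t J Y i j| ≤ 2 + 1 / η := by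
  have hs : ∀ (f : Cfg n → ℝ), (∀ x, |f x| ≤ 1) → |Ising.avg ((1 - t) • J) Y f| ≤ 1 :=
    fun f hf => abs_avg_le _ Y hf
  have h1 : |cov J t Y i j| ≤ 2 := by
    simp only [cov, Matrix.of_apply, mean]
    have a1 := hs _ fun x => by
      rw [abs_mul]; exact mul_le_one₀ (Moments.abs_spin_le (x i)) (abs_nonneg _) (Moments.abs_spin_le (x j))
    have a2 := hs _ fun x => Moments.abs_spin_le (x i)
    have a3 := hs _ fun x => Moments.abs_spin_le (x j)
    refine (abs_sub _ _).trans ?_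
    rw [abs_mul]
    linarith [mul_le_one₀ a2 (abs_nonneg _) a3]
  have h2 := (abs_entry_le_norm _ i j).trans (norm_rCut η β t hη J (mean J t Y))
  rw [eMat, Matrix.sub_apply]
  exact (abs_sub _ _).trans (add_le_add h1 h2)

lemma bdd_eMat (hJ : Ctl Λ c J B) {η : ℝ} (hη : 0 < η) (β t : ℝ) (i j : Fin n) :
    Bdd fun Y => eMat η β t J Y i j := by
  refine ⟨?_, 2 + 1 / η, fun Y => abs_eMat_le hη β t Y i j⟩
  simp only [eMat, Matrix.sub_apply, cov, Matrix.of_apply, mean]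
  exact ((measurable_avg _ _).sub ((measurable_avg _ _).mul (measurable_avg _ _))).sub
    (measurable_rCut hJ η β t i j)

lemma bdd_D (t : ℝ) (j : Fin n) : Bdd fun Y : Fin n → ℝ => 1 - mean J t Y j ^ 2 :=
  (Bdd.const 1).sub (Bdd.pow ⟨measurable_avg _ _, 1, fun Y =>
    abs_avg_le _ Y fun x => Moments.abs_spin_le (x j)⟩ 2)

lemma D_le_one (t : ℝ) (Y : Fin n → ℝ) (j : Fin n) : |1 - mean J t Y j ^ 2| ≤ 1 := by
  have h : |mean J t Y j| ≤ 1 := abs_avg_le _ Y fun x => Moments.abs_spin_le (x j)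
  have h2 := (sq_le_one_iff_abs_le_one _).2 h
  rw [abs_le]
  constructor <;> linarith [sq_nonneg (mean J t Y j)]

lemma measurable_resClip (β t : ℝ) (i : Fin n) :
    Measurable fun Y : Fin n → ℝ => resClip β t J Y i := by
  classical
  have hm : ∀ k, Measurable fun Y : Fin n → ℝ => mean J t Y k := fun k => measurable_avg _ _
  refine Measurable.ite ?_ ?_ measurable_const
  · rw [Set.ofPred_forall]
    exact MeasurableSet.iInter fun j =>
      measurableSet_le (continuous_apply j).abs.measurable measurable_const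
  · simp only [resM, qv, Real.artanh]
    fun_prop

lemma abs_resClip_le (hJ : Ctl Λ c J B) {β t : ℝ} (hn : 0 < n) (hβ : β ^ 2 ≤ 1) (ht0 : 0 ≤ t)
    (ht1 : t ≤ 1) (Y : Fin n → ℝ) (i : Fin n) :
    |resClip β t J Y i| ≤ (3 + 2 * Λ) * n := by
  classical
  have hn1 : (1 : ℝ) ≤ n := by exact_mod_cast hn
  have hΛ : 0 ≤ Λ := hJ.opLe_A.1
  unfold resClip
  split_ifs with hY
  swap
  · rw [abs_zero]; positivity
  have hsn : Real.sqrt n ≤ n :=
    (Real.sqrt_le_left (Nat.cast_nonneg n)).2 (le_self_pow₀ hn1 two_ne_zero)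
  set m := mean J t Y
  have hm1 : ∀ k, |m k| ≤ 1 := fun k => (abs_mean_lt hJ t Y k).le
  have h1t : |1 - t| ≤ 1 := abs_le.2 ⟨by linarith, by linarith⟩
  have t1 : |Real.artanh (m i)| ≤ n + Λ * n := by
    refine (abs_artanh_mean_le hJ t Y i).trans (add_le_add (hY i) ?_)
    exact (mul_le_of_le_one_left (by positivity) h1t).trans (mul_le_mul_of_nonneg_left hsn hΛ)
  have t2 : |aCoef β t * (1 - qv m) * m i| ≤ n := by
    have hq0 : 0 ≤ qv m := div_nonneg (Finset.sum_nonneg fun k _ => sq_nonneg _) (Nat.cast_nonneg n)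
    have hq1 : qv m ≤ 1 := by
      rw [qv, div_le_one (by linarith)]
      exact (Finset.sum_le_sum fun k _ => (sq_le_one_iff_abs_le_one _).2 (hm1 k)).trans_eq (by simp)
    have ha0 : 0 ≤ aCoef β t := mul_nonneg (sq_nonneg _) (sq_nonneg _)
    have ha1 : aCoef β t ≤ 1 :=
      mul_le_one₀ hβ (sq_nonneg _) (pow_le_one₀ (by linarith) (by linarith))
    rw [abs_mul, abs_mul, abs_of_nonneg ha0, abs_of_nonneg (sub_nonneg.2 hq1)]
    exact (mul_le_one₀ (mul_le_one₀ ha1 (by linarith) (by linarith)) (abs_nonneg _) (hm1 i)).trans hn1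
  have t3 : |(1 - t) * ∑ j, J i j * m j| ≤ Λ * n := by
    rw [abs_mul]
    refine (mul_le_of_le_one_left (abs_nonneg _) h1t).trans ((PartB.abs_dot_le_nrm (J i) m).trans ?_)
    refine mul_le_mul ?_ ((Real.sqrt_le_sqrt ?_).trans hsn) (nrm_nonneg m) hΛ
    · have hop : OpNorm.OpLe J Λ := OpNorm.opLe_iff_norm_le.2 (by linarith [hJ.op, abs_nonneg c])
      exact (Real.sqrt_le_sqrt (hop.row i)).trans_eq (Real.sqrt_sq hΛ)
    · exact (Finset.sum_le_sum fun k _ => (sq_le_one_iff_abs_le_one _).2 (hm1 k)).trans_eq (by simp)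
  have t4 := hY i
  simp only [resM]
  have e1 := abs_sub (Real.artanh (m i) + aCoef β t * (1 - qv m) * m i - (1 - t) * ∑ j, J i j * m j) (Y i)
  have e2 := abs_sub (Real.artanh (m i) + aCoef β t * (1 - qv m) * m i) ((1 - t) * ∑ j, J i j * m j)
  have e3 := abs_add_le (Real.artanh (m i)) (aCoef β t * (1 - qv m) * m i)
  linarith

/-! ### Where the Jacobian is definite -/

lemma cov_symm (t : ℝ) (Y : Fin n → ℝ) : (cov J t Y).IsSymm := by
  refine Matrix.IsSymm.ext fun i j => ?_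
  simp only [cov, Matrix.of_apply, mean]
  rw [show (fun x : Cfg n => spin (x j) * spin (x i)) = fun x => spin (x i) * spin (x j) from
    funext fun x => mul_comm _ _]
  ring

lemma kHat_symm (hJ : Ctl Λ c J B) (β t : ℝ) (m : Fin n → ℝ) : (kHat β t J m).IsSymm := by
  refine Matrix.IsSymm.ext fun i j => ?_
  simp only [kHat, vMat, Matrix.add_apply, Matrix.sub_apply, Matrix.smul_apply, smul_eq_mul,
    Matrix.one_apply, vecMulVec_apply, hJ.symm i j, mul_comm (m i) (m j), eq_comm (a := i) (b := j)]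
  congr 1
  rcases eq_or_ne i j with rfl | h
  · rfl
  · rw [Matrix.diagonal_apply_ne _ h, Matrix.diagonal_apply_ne _ h.symm]

/-- lower bound on `D` and `eMat = D (F - H) D` with symmetric `F - H` -/
def Nice (η β l t : ℝ) (J : Matrix (Fin n) (Fin n) ℝ) (Y : Fin n → ℝ) : Prop :=
  (∀ i, l ≤ 1 - mean J t Y i ^ 2) ∧ (fMat J t Y - hMat β t J (mean J t Y)).IsSymm ∧
    eMat η β t J Y =
      dMat (mean J t Y) * (fMat J t Y - hMat β t J (mean J t Y)) * dMat (mean J t Y)

lemma nice_of_coercive (hJ : Ctl Λ c J B) {η β l t : ℝ} (hη : 0 < η) {Y : Fin n → ℝ}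
    (hl : ∀ i, l ≤ 1 - mean J t Y i ^ 2)
    (hco : ∀ v : Fin n → ℝ, η * ∑ i, v i ^ 2 ≤ v ⬝ᵥ kHat β t J (mean J t Y) *ᵥ v)
    (hinv : kHat β t J (mean J t Y) * (dMat (mean J t Y) +
      dMat (mean J t Y) * hMat β t J (mean J t Y) * dMat (mean J t Y)) = 1) :
    Nice (η / 2) β l t J Y := by
  set m := mean J t Y
  have hco2 : ∀ v : Fin n → ℝ, η / 2 * ∑ i, v i ^ 2 ≤ v ⬝ᵥ kHat β t J m *ᵥ v := fun v =>
    (mul_le_mul_of_nonneg_right (half_le_self hη.le) (OpNorm.nsq_nonneg v)).trans (hco v)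
  have hK := Matrix.inv_eq_right_inv hinv
  have he : eMat (η / 2) β t J Y = dMat m * (fMat J t Y - hMat β t J m) * dMat m := by
    rw [eMat, rCut, if_pos hco2, hK, cov_eq hJ]
    noncomm_ring
  refine ⟨hl, Matrix.IsSymm.ext fun i j => ?_, he⟩
  have hs : (eMat (η / 2) β t J Y).IsSymm := by
    rw [eMat, rCut, if_pos hco2]
    exact (cov_symm t Y).sub (Matrix.IsSymm.ext fun a b => by
      have h := Matrix.transpose_nonsing_inv (kHat β t J m)
      rw [(kHat_symm hJ β t m).eq] at h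
      exact congrFun (congrFun h a) b)
  have h := hs.apply i j
  rw [he, conj_apply, conj_apply] at h
  have hi := (D_pos hJ t Y i).1.ne'
  have hj := (D_pos hJ t Y j).1.ne'
  refine mul_left_cancel₀ (mul_ne_zero hj hi) ?_
  linear_combination h

/-! ### One pass -/

lemma kern_sqrt_le {t θ : ℝ} {Y : Fin n → ℝ} {F : (Fin n → ℝ) → ℝ} (hF : Bdd F) (hF0 : ∀ Z, 0 ≤ F Z)
    {a K e : ℝ} (ha : 0 < a) (hK : 0 ≤ K)
    (h : kern J B t θ Y F ≤ (1 + K * θ ^ 2) * a ^ 2 + e * θ ^ 3) :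
    kern J B t θ Y (fun Z => Real.sqrt (F Z)) ≤ (1 + K * θ ^ 2) * a + e / (2 * a) * θ ^ 3 := by
  have hb : Bdd fun Z => Real.sqrt (F Z) := by
    obtain ⟨hm, M, hM⟩ := hF
    exact ⟨Real.continuous_sqrt.measurable.comp hm, Real.sqrt M, fun Z => by
      rw [abs_of_nonneg (Real.sqrt_nonneg _)]
      exact Real.sqrt_le_sqrt ((le_abs_self _).trans (hM Z))⟩
  refine (k_mono J B t θ Y hb ((Bdd.const (a / 2)).add (hF.const_mul (1 / (2 * a)))) fun Z => ?_).trans ?_
  · rw [show a / 2 + 1 / (2 * a) * F Z = (a ^ 2 + F Z) / (2 * a) by field_simp,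
      le_div_iff₀ (by positivity)]
    nlinarith [sq_nonneg (Real.sqrt (F Z) - a), Real.sq_sqrt (hF0 Z)]
  · rw [k_add J B t θ Y (Bdd.const _) (hF.const_mul _), kern_const, kern_smul]
    refine (add_le_add le_rfl (mul_le_mul_of_nonneg_left h (by positivity))).trans ?_
    rw [show a / 2 + 1 / (2 * a) * ((1 + K * θ ^ 2) * a ^ 2 + e * θ ^ 3) =
      a / 2 + (1 + K * θ ^ 2) * a / 2 + e / (2 * a) * θ ^ 3 by field_simp; ring]
    nlinarith [mul_nonneg (mul_nonneg hK (sq_nonneg θ)) ha.le]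

variable {s e θ' l η β K : ℝ} {S : Set (Fin n → ℝ)}

/-- one pass for the operator norm -/
lemma op_pass (hB : Barrier) (hJ : Ctl Λ c J B) {δ G err θm : ℝ} (hS : MeasurableSet S) (hse : s ≤ e)
    (hθ' : 0 < θ') (hθ'1 : θ' ≤ 1) (hl : 0 < l) (hη : 0 < η) (hK : 0 ≤ K) (hδ : 0 ≤ δ) (hG : 0 ≤ G)
    (herr : 0 ≤ err) (hθm : 0 < θm)
    (hnice : ∀ t ∈ Set.Icc s e, ∀ Y, leak J B e t S Y ≤ θ' → Nice η β l t J Y)
    (hstep : ∀ t θ : ℝ, s ≤ t → 0 < θ → θ ≤ θm → t + θ ^ 2 ≤ e → ∀ Y, leak J B e t S Y ≤ θ' →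
      (∃ M : Matrix (Fin n) (Fin n) ℝ, ‖M‖ ≤ G ∧ ∀ i j,
        |eMat η β t J Y i j - kern J B t θ Y (fun Z => eMat η β (t + θ ^ 2) J Z i j) -
          θ ^ 2 * (dMat (mean J t Y) * M * dMat (mean J t Y)) i j| ≤ err * θ ^ 3) ∧
      ∀ j, kern J B t θ Y (fun Z => (1 - mean J (t + θ ^ 2) Z j ^ 2) ^ 2) ≤
        (1 + K * θ ^ 2) * (1 - mean J t Y j ^ 2) ^ 2 + err * θ ^ 3)
    (hend : ∀ Y ∈ S, ‖fMat J e Y - hMat β e J (mean J e Y)‖ ≤ δ) :
    ∀ τ ∈ Set.Icc s e, ∀ Y, leak J B e τ S Y ≤ θ' →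
      ‖fMat J τ Y - hMat β τ J (mean J τ Y)‖ ≤ (δ + G * (e - s)) * Real.exp (K * (e - s)) +
        n * (2 + 1 / η) / (θ' * l ^ 2) * leak J B e τ S Y := by
  intro τ hτ Y hY
  obtain ⟨hlD, hsym, heq⟩ := hnice τ hτ Y hY
  have hL0 : 0 ≤ leak J B e τ S Y := (Chan.leak_bounds J B e τ hS Y).1
  have hh : 0 ≤ e - τ := sub_nonneg.2 hτ.2
  have hhs : 0 ≤ e - s := sub_nonneg.2 hse
  refine OpNorm.opLe_iff_norm_le.1 (OpNorm.opLe_of_quad (by positivity) hsym fun v => ?_)
  have hone : ∀ u : Fin n → ℝ, ∀ σ : ℝ, |σ| = 1 →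
      σ * qform (vecMulVec u u) (eMat η β τ J Y) ≤
        (δ + G * (e - τ)) * Real.exp (K * (e - τ)) * (∑ j, u j ^ 2 * (1 - mean J τ Y j ^ 2) ^ 2) +
          n * (2 + 1 / η) * (∑ j, u j ^ 2) / θ' * leak J B e τ S Y := by
    intro u σ hσ
    have hu : fnrm (vecMulVec u u) = ∑ j, u j ^ 2 := by
      rw [fnrm]
      simp only [vecMulVec_apply, mul_pow, ← Finset.mul_sum, ← Finset.sum_mul]
      exact Real.sqrt_mul_self (Finset.sum_nonneg fun j _ => sq_nonneg _)
    have hU : 0 ≤ ∑ j, u j ^ 2 := Finset.sum_nonneg fun j _ => sq_nonneg _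
    have hq : ∀ t Z, |σ * qform (vecMulVec u u) (eMat η β t J Z)| ≤ n * (2 + 1 / η) * ∑ j, u j ^ 2 :=
      fun t Z => by
        rw [abs_mul, hσ, one_mul, ← hu]
        exact abs_qform_entries _ _ (by positivity) (abs_eMat_le hη β t Z)
    have hform : ∀ (m : Fin n → ℝ) (M : Matrix (Fin n) (Fin n) ℝ),
        |σ * qform (vecMulVec u u) (dMat m * M * dMat m)| ≤
          ‖M‖ * ∑ j, u j ^ 2 * (1 - m j ^ 2) ^ 2 := fun m M => by
      have h := (OpNorm.opLe_iff_norm_le.2 (le_refl ‖M‖)).quad fun j => u j * (1 - m j ^ 2)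
      rw [abs_mul, hσ, one_mul]
      refine le_trans (le_of_eq ?_) (h.trans_eq ?_)
      · congr 1
        simp only [qform, vecMulVec_apply, conj_apply, dotProduct, Matrix.mulVec, Finset.mul_sum]
        exact Finset.sum_congr rfl fun i _ => Finset.sum_congr rfl fun j _ => by ring
      · simp only [OpNorm.nsq, mul_pow]
    refine hB n Λ c J B hJ s e θ' δ G K (n * (2 + 1 / η) * ∑ j, u j ^ 2) (∑ j, u j ^ 2)
      (err * (n + 1) * ∑ j, u j ^ 2) θm S
      (fun t Z => σ * qform (vecMulVec u u) (eMat η β t J Z))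
      (fun t Z => ∑ j, u j ^ 2 * (1 - mean J t Z j ^ 2) ^ 2) hS hse hθ' hθ'1 hδ hG hK (by positivity)
      hθm (fun t => ⟨((bdd_qform _ fun i j => bdd_eMat hJ hη β t i j).const_mul σ).1,
        (Bdd.sum _ fun j => ((bdd_D t j).pow 2).const_mul (u j ^ 2)).1⟩)
      (fun t _ Z => ⟨hq t Z, Finset.sum_nonneg fun j _ => by positivity,
        Finset.sum_le_sum fun j _ => mul_le_of_le_one_right (sq_nonneg _) (by
          rw [← sq_abs]; exact pow_le_one₀ (abs_nonneg _) (D_le_one t Z j))⟩)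
      (fun Z hZ => ?_) (fun t θ hts hθ hθm' hte Z hz => ?_) τ hτ Y
    · have hz : leak J B e e S Z ≤ θ' := by rw [Chan.leak_self]; simp [hZ, hθ'.le]
      rw [(hnice e ⟨hse, le_rfl⟩ Z hz).2.2]
      exact (le_abs_self _).trans ((hform _ _).trans (mul_le_mul_of_nonneg_right (hend Z hZ)
        (Finset.sum_nonneg fun j _ => by positivity)))
    · obtain ⟨⟨M, hM, hE⟩, hD⟩ := hstep t θ hts hθ hθm' hte Z hz
      constructor
      · have hqs := qform_step (σ • vecMulVec u u) (N := fun Y => eMat η β (t + θ ^ 2) J Y)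
          (fun i j => bdd_eMat hJ hη β (t + θ ^ 2) i j) (by positivity) hE
        have hs : ∀ X, qform (σ • vecMulVec u u) X = σ * qform (vecMulVec u u) X := fun X => by
          simp only [qform, Matrix.smul_apply, smul_eq_mul, Finset.mul_sum, mul_assoc]
        have hfs : fnrm (σ • vecMulVec u u) = ∑ j, u j ^ 2 := by
          rw [PsiLip.sem_fnrm.smul, hσ, one_mul, hu]
        simp only [hs, hfs] at hqs
        have hw : 0 ≤ ∑ j, u j ^ 2 * (1 - mean J t Z j ^ 2) ^ 2 :=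
          Finset.sum_nonneg fun j _ => by positivity
        have h1 := mul_le_mul_of_nonneg_left ((le_abs_self _).trans
          ((hform (mean J t Z) M).trans (mul_le_mul_of_nonneg_right hM hw))) (sq_nonneg θ)
        have h2 : (n : ℝ) * (err * θ ^ 3) * ∑ j, u j ^ 2 ≤
            err * (n + 1) * (∑ j, u j ^ 2) * θ ^ 3 := by
          have : 0 ≤ err * (∑ j, u j ^ 2) * θ ^ 3 := by positivity
          linarith
        linarith
      · rw [k_sum J B _ t θ Z fun j => ((bdd_D (t + θ ^ 2) j).pow 2).const_mul (u j ^ 2)]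
        simp only [kern_smul]
        refine (Finset.sum_le_sum fun j _ => mul_le_mul_of_nonneg_left (hD j) (sq_nonneg (u j))).trans ?_
        simp only [mul_add, Finset.sum_add_distrib, mul_left_comm _ (1 + K * θ ^ 2), ← Finset.mul_sum,
          ← Finset.sum_mul]
        have : 0 ≤ err * (∑ j, u j ^ 2) * (n * θ ^ 3) := by positivity
        linarith
  have hd := fun j => (D_pos hJ τ Y j).1
  set u := fun j => v j / (1 - mean J τ Y j ^ 2)
  have hw : ∑ j, u j ^ 2 * (1 - mean J τ Y j ^ 2) ^ 2 = OpNorm.nsq v :=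
    Finset.sum_congr rfl fun j _ => by simp only [u]; rw [← mul_pow, div_mul_cancel₀ _ (hd j).ne']
  have hu2 : ∑ j, u j ^ 2 ≤ OpNorm.nsq v / l ^ 2 := by
    rw [OpNorm.nsq, Finset.sum_div]
    refine Finset.sum_le_sum fun j _ => ?_
    simp only [u, div_pow]
    exact div_le_div_of_nonneg_left (sq_nonneg _) (by positivity) (pow_le_pow_left₀ hl.le (hlD j) 2)
  have hv : qform (vecMulVec u u) (eMat η β τ J Y) =
      v ⬝ᵥ (fMat J τ Y - hMat β τ J (mean J τ Y)) *ᵥ v := by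
    rw [heq]
    simp only [qform, vecMulVec_apply, conj_apply, dotProduct, Matrix.mulVec, Finset.mul_sum, u]
    refine Finset.sum_congr rfl fun i _ => Finset.sum_congr rfl fun j _ => ?_
    have := (hd i).ne'
    have := (hd j).ne'
    field_simp
  have hB0 : (δ + G * (e - τ)) * Real.exp (K * (e - τ)) ≤ (δ + G * (e - s)) * Real.exp (K * (e - s)) := by
    have : e - τ ≤ e - s := by linarith [hτ.1]
    gcongr
  have hC : n * (2 + 1 / η) * (∑ j, u j ^ 2) / θ' * leak J B e τ S Y ≤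
      n * (2 + 1 / η) / (θ' * l ^ 2) * leak J B e τ S Y * OpNorm.nsq v :=
    calc n * (2 + 1 / η) * (∑ j, u j ^ 2) / θ' * leak J B e τ S Y
        ≤ n * (2 + 1 / η) * (OpNorm.nsq v / l ^ 2) / θ' * leak J B e τ S Y := by gcongr
      _ = _ := by ring
  have h1 := hone u 1 abs_one
  have h2 := hone u (-1) (by norm_num)
  rw [hw, hv] at h1 h2
  have := mul_le_mul_of_nonneg_right hB0 (OpNorm.nsq_nonneg v)
  rw [abs_le, add_mul]
  constructor <;> linarith

/-- one pass for the Frobenius norm -/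
lemma frob_pass (hB : Barrier) (hJ : Ctl Λ c J B) {φ G err θm : ℝ} (hS : MeasurableSet S)
    (hse : s ≤ e) (hθ' : 0 < θ') (hθ'1 : θ' ≤ 1) (hl : 0 < l) (hη : 0 < η) (hK : 0 ≤ K) (hφ : 0 ≤ φ)
    (hG : 0 ≤ G) (herr : 0 ≤ err) (hθm : 0 < θm)
    (hnice : ∀ t ∈ Set.Icc s e, ∀ Y, leak J B e t S Y ≤ θ' → Nice η β l t J Y)
    (hstep : ∀ t θ : ℝ, s ≤ t → 0 < θ → θ ≤ θm → t + θ ^ 2 ≤ e → ∀ Y, leak J B e t S Y ≤ θ' →
      (∃ M : Matrix (Fin n) (Fin n) ℝ, fnrm M ≤ G ∧ ∀ i j,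
        |eMat η β t J Y i j - kern J B t θ Y (fun Z => eMat η β (t + θ ^ 2) J Z i j) -
          θ ^ 2 * (dMat (mean J t Y) * M * dMat (mean J t Y)) i j| ≤ err * θ ^ 3) ∧
      ∀ j k, kern J B t θ Y (fun Z =>
          ((1 - mean J (t + θ ^ 2) Z j ^ 2) * (1 - mean J (t + θ ^ 2) Z k ^ 2)) ^ 2) ≤
        (1 + K * θ ^ 2) * ((1 - mean J t Y j ^ 2) * (1 - mean J t Y k ^ 2)) ^ 2 + err * θ ^ 3)
    (hend : ∀ Y ∈ S, fnrm (fMat J e Y - hMat β e J (mean J e Y)) ≤ φ) :
    ∀ τ ∈ Set.Icc s e, ∀ Y, leak J B e τ S Y ≤ θ' →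
      fnrm (fMat J τ Y - hMat β τ J (mean J τ Y)) ≤ (φ + G * (e - s)) * Real.exp (K * (e - s)) +
        n * (2 + 1 / η) / (θ' * l ^ 2) * leak J B e τ S Y := by
  intro τ hτ Y hY
  obtain ⟨hlD, -, heq⟩ := hnice τ hτ Y hY
  have hL0 : 0 ≤ leak J B e τ S Y := (Chan.leak_bounds J B e τ hS Y).1
  have hhs : 0 ≤ e - s := sub_nonneg.2 hse
  set X := fMat J τ Y - hMat β τ J (mean J τ Y)
  rcases (fnrm_nonneg X).eq_or_lt with h0 | hX
  · rw [← h0]; positivity
  set m := mean J τ Y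
  have hd : ∀ j, 0 < 1 - m j ^ 2 := fun j => (D_pos hJ τ Y j).1
  set T : Matrix (Fin n) (Fin n) ℝ := Matrix.of fun j k => X j k / ((1 - m j ^ 2) * (1 - m k ^ 2))
  set w : ℝ → (Fin n → ℝ) → ℝ := fun t Z => Real.sqrt (∑ j, ∑ k,
    T j k ^ 2 * ((1 - mean J t Z j ^ 2) * (1 - mean J t Z k ^ 2)) ^ 2)
  have hwT : w τ Y = fnrm X := by
    simp only [w, fnrm]
    congr 1
    refine Finset.sum_congr rfl fun j _ => Finset.sum_congr rfl fun k _ => ?_
    rw [← mul_pow]
    simp only [T, Matrix.of_apply, m]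
    rw [div_mul_cancel₀ _ (mul_ne_zero (hd j).ne' (hd k).ne')]
  have hw1 : ∀ t Z, w t Z ≤ fnrm T := fun t Z => Real.sqrt_le_sqrt
    (Finset.sum_le_sum fun j _ => Finset.sum_le_sum fun k _ => mul_le_of_le_one_right (sq_nonneg _) (by
      rw [← sq_abs, abs_mul]
      exact pow_le_one₀ (by positivity) (mul_le_one₀ (D_le_one t Z j) (abs_nonneg _) (D_le_one t Z k))))
  have hT0 : 0 < fnrm T := hX.trans_le (hwT ▸ hw1 τ Y)
  have hwlow : ∀ t ∈ Set.Icc s e, ∀ Z, leak J B e t S Z ≤ θ' → l ^ 2 * fnrm T ≤ w t Z :=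
    fun t ht Z hz => by
      obtain ⟨hl', -, -⟩ := hnice t ht Z hz
      rw [fnrm, ← Real.sqrt_sq (by positivity : 0 ≤ l ^ 2), ← Real.sqrt_mul (sq_nonneg _),
        Finset.mul_sum]
      refine Real.sqrt_le_sqrt (Finset.sum_le_sum fun j _ => ?_)
      rw [Finset.mul_sum]
      refine Finset.sum_le_sum fun k _ => ?_
      rw [mul_comm]
      refine mul_le_mul_of_nonneg_left (pow_le_pow_left₀ (sq_nonneg l) ?_ 2) (sq_nonneg _)
      rw [sq]
      exact mul_le_mul (hl' j) (hl' k) hl.le (hl.le.trans (hl' j))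
  have hform : ∀ t Z (M : Matrix (Fin n) (Fin n) ℝ),
      qform T (dMat (mean J t Z) * M * dMat (mean J t Z)) ≤ w t Z * fnrm M := fun t Z M => by
    refine le_trans (le_of_eq ?_) ((le_abs_self _).trans ((abs_qform_le
      (Matrix.of fun j k => T j k * ((1 - mean J t Z j ^ 2) * (1 - mean J t Z k ^ 2))) M).trans_eq ?_))
    · simp only [qform, conj_apply, Matrix.of_apply]
      exact Finset.sum_congr rfl fun i _ => Finset.sum_congr rfl fun j _ => by ring
    · simp only [w, fnrm, Matrix.of_apply, mul_pow]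
  have hwb : ∀ t, Bdd fun Z => ∑ j, ∑ k,
      T j k ^ 2 * ((1 - mean J t Z j ^ 2) * (1 - mean J t Z k ^ 2)) ^ 2 := fun t =>
    Bdd.sum _ fun j => Bdd.sum _ fun k => (((bdd_D t j).mul (bdd_D t k)).pow 2).const_mul (T j k ^ 2)
  have hcon := hB n Λ c J B hJ s e θ' φ G K (n * (2 + 1 / η) * fnrm T) (fnrm T)
    (err * fnrm T * (n + 1 / (2 * l ^ 2))) θm S
    (fun t Z => qform T (eMat η β t J Z)) w hS hse hθ' hθ'1 hφ hG hK (by positivity) hθm
    (fun t => ⟨(bdd_qform _ fun i j => bdd_eMat hJ hη β t i j).1,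
      Real.continuous_sqrt.measurable.comp (hwb t).1⟩)
    (fun t _ Z => ⟨abs_qform_entries _ _ (by positivity) (abs_eMat_le hη β t Z),
      Real.sqrt_nonneg _, hw1 t Z⟩)
    (fun Z hZ => by
      have hz : leak J B e e S Z ≤ θ' := by rw [Chan.leak_self]; simp [hZ, hθ'.le]
      rw [(hnice e ⟨hse, le_rfl⟩ Z hz).2.2]
      exact (hform e Z _).trans ((mul_le_mul_of_nonneg_left (hend Z hZ) (Real.sqrt_nonneg _)).trans_eq
        (mul_comm _ _)))
    (fun t θ hts hθ hθm' hte Z hz => by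
      obtain ⟨⟨M, hM, hE⟩, hD⟩ := hstep t θ hts hθ hθm' hte Z hz
      have hw0 : 0 ≤ w t Z := Real.sqrt_nonneg _
      constructor
      · have hqs := qform_step T (N := fun Y => eMat η β (t + θ ^ 2) J Y)
          (fun i j => bdd_eMat hJ hη β (t + θ ^ 2) i j) (by positivity) hE
        have h1 := mul_le_mul_of_nonneg_left ((hform t Z M).trans (mul_le_mul_of_nonneg_left hM hw0))
          (sq_nonneg θ)
        have h2 : 0 ≤ err * fnrm T * (1 / (2 * l ^ 2)) * θ ^ 3 := by positivity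
        linarith
      · have hwl := hwlow t ⟨hts, by linarith [sq_nonneg θ]⟩ Z hz
        have hsum : kern J B t θ Z (fun Z' => ∑ j, ∑ k,
            T j k ^ 2 * ((1 - mean J (t + θ ^ 2) Z' j ^ 2) * (1 - mean J (t + θ ^ 2) Z' k ^ 2)) ^ 2) ≤
            (1 + K * θ ^ 2) * w t Z ^ 2 + err * fnrm T ^ 2 * θ ^ 3 := by
          rw [k_sum J B _ t θ Z fun j => Bdd.sum _ fun k =>
            (((bdd_D (t + θ ^ 2) j).mul (bdd_D (t + θ ^ 2) k)).pow 2).const_mul (T j k ^ 2)]
          refine (Finset.sum_le_sum fun j _ => ((k_sum J B _ t θ Z fun k =>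
            (((bdd_D (t + θ ^ 2) j).mul (bdd_D (t + θ ^ 2) k)).pow 2).const_mul (T j k ^ 2)).trans_le
            (Finset.sum_le_sum fun k _ => (kern_smul J B t θ Z _ _).trans_le
              (mul_le_mul_of_nonneg_left (hD j k) (sq_nonneg (T j k)))))).trans_eq ?_
          simp only [w, fnrm]
          rw [Real.sq_sqrt (by positivity), Real.sq_sqrt (by positivity)]
          simp only [mul_add, Finset.sum_add_distrib, Finset.mul_sum, Finset.sum_mul]
          congr 1 <;> exact Finset.sum_congr rfl fun j _ => Finset.sum_congr rfl fun k _ => by ring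
        refine (kern_sqrt_le (hwb _) (fun Z' => by positivity)
          (lt_of_lt_of_le (by positivity) hwl) hK hsum).trans (add_le_add le_rfl ?_)
        refine mul_le_mul_of_nonneg_right ?_ (by positivity)
        calc err * fnrm T ^ 2 / (2 * w t Z) ≤ err * fnrm T ^ 2 / (2 * (l ^ 2 * fnrm T)) := by gcongr
          _ = err * fnrm T * (1 / (2 * l ^ 2)) := by field_simp
          _ ≤ _ := by
            gcongr
            exact le_add_of_nonneg_left (Nat.cast_nonneg n))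
    τ hτ Y
  have hq : qform T (eMat η β τ J Y) = fnrm X ^ 2 := by
    rw [heq, fnrm, Real.sq_sqrt (by positivity)]
    refine Finset.sum_congr rfl fun j _ => Finset.sum_congr rfl fun k _ => ?_
    rw [conj_apply]
    simp only [T, Matrix.of_apply]
    have := (hd j).ne'
    have := (hd k).ne'
    field_simp
  have hTX : fnrm T ≤ fnrm X / l ^ 2 := by
    rw [le_div_iff₀ (by positivity), mul_comm, ← hwT]
    exact hwlow τ hτ Y hY
  simp only [hq, hwT] at hcon
  refine le_of_mul_le_mul_right ?_ hX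
  rw [← sq]
  refine hcon.trans (le_of_le_of_eq (add_le_add (mul_le_mul_of_nonneg_right ?_ hX.le) ?_)
    (add_mul _ _ _).symm)
  · have : e - τ ≤ e - s := by linarith [hτ.1]
    have : 0 ≤ e - τ := sub_nonneg.2 hτ.2
    gcongr
  · calc n * (2 + 1 / η) * fnrm T / θ' * leak J B e τ S Y
        ≤ n * (2 + 1 / η) * (fnrm X / l ^ 2) / θ' * leak J B e τ S Y := by gcongr
      _ = _ := by ring

end Block

end Vale.Agent.P150.PartB
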