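import Vale.Agent.P150.Fast.PartB.Defs

/-!
# P150, Part B: a covariance bound from coarse localisation

If the mean moves by at most `R` under every tilt of length at most `r`, then the variance of every
unit linear statistic is at most `4 R²` up to an exponentially small term.
-/

open MeasureTheory Matrix

namespace Vale.Agent.P150.PartB

/-- If the tilted means of `f` stay below `R`, its mass above `2 R` is exponentially small. -/
lemma mass_of_tilt {α : Type*} [Fintype α] {w f : α → ℝ} {Mf R l : ℝ} (hw : ∀ x, 0 ≤ w x)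
    (hw1 : ∑ x, w x = 1) (hf : ∀ x, |f x| ≤ Mf) (hR : 0 < R) (hl : 0 ≤ l)
    (h : ∑ x, w x * (Real.exp (l * f x) * f x) ≤ R * ∑ x, w x * Real.exp (l * f x)) :
    ∑ x ∈ Finset.univ.filter (fun x => 2 * R < f x), w x ≤
      (1 + Mf / R) * Real.exp (-(l * R)) := by
  classical
  set S := Finset.univ.filter (fun x => 2 * R < f x)
  set p := ∑ x ∈ S, w x
  have h0 : ∑ x, w x * (Real.exp (l * f x) * (f x - R)) ≤ 0 := by
    have e : ∀ x, w x * (Real.exp (l * f x) * (f x - R)) =
        w x * (Real.exp (l * f x) * f x) - R * (w x * Real.exp (l * f x)) := fun x => by ring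
    simp only [e, Finset.sum_sub_distrib, ← Finset.mul_sum]
    linarith
  rw [← Finset.sum_add_sum_compl S] at h0
  have hbig : p * (R * Real.exp (l * (2 * R))) ≤
      ∑ x ∈ S, w x * (Real.exp (l * f x) * (f x - R)) := by
    rw [Finset.sum_mul]
    refine Finset.sum_le_sum fun x hx => mul_le_mul_of_nonneg_left ?_ (hw x)
    have hx : 2 * R < f x := (Finset.mem_filter.1 hx).2
    rw [mul_comm R]
    exact mul_le_mul (Real.exp_le_exp.2 (by nlinarith)) (by linarith) hR.le (Real.exp_pos _).le
  have hsmall : -((Mf + R) * Real.exp (l * R)) ≤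
      ∑ x ∈ Sᶜ, w x * (Real.exp (l * f x) * (f x - R)) := by
    refine le_trans ?_ (Finset.sum_le_sum (f := fun x => w x * -((Mf + R) * Real.exp (l * R)))
      fun x _ => mul_le_mul_of_nonneg_left ?_ (hw x))
    · rw [← Finset.sum_mul, neg_mul_eq_mul_neg]
      rcases isEmpty_or_nonempty α with hα | ⟨⟨x₀⟩⟩
      · simp at hw1
      · have hMf : 0 ≤ Mf := (abs_nonneg _).trans (hf x₀)
        have : ∑ x ∈ Sᶜ, w x ≤ 1 := hw1 ▸
          Finset.sum_le_sum_of_subset_of_nonneg (Finset.subset_univ _) fun x _ _ => hw x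
        have h2 : 0 ≤ (Mf + R) * Real.exp (l * R) := by positivity
        nlinarith
    · have := (abs_le.1 (hf x)).1
      rcases le_or_gt R (f x) with h1 | h1
      · have : 0 ≤ Real.exp (l * f x) * (f x - R) := mul_nonneg (Real.exp_pos _).le (by linarith)
        have : 0 ≤ (Mf + R) * Real.exp (l * R) := mul_nonneg (by linarith [(abs_nonneg (f x)).trans (hf x)])
          (Real.exp_pos _).le
        linarith
      · have h2 : Real.exp (l * f x) ≤ Real.exp (l * R) := Real.exp_le_exp.2 (by nlinarith)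
        have h3 : (R - f x) * Real.exp (l * f x) ≤ (Mf + R) * Real.exp (l * R) :=
          mul_le_mul (by linarith) h2 (Real.exp_pos _).le (by linarith)
        linarith
  have hkey : p * (R * Real.exp (l * (2 * R))) ≤ (Mf + R) * Real.exp (l * R) := by linarith
  rw [show l * (2 * R) = l * R + l * R by ring, Real.exp_add] at hkey
  rw [Real.exp_neg, ← div_eq_mul_inv, le_div_iff₀ (Real.exp_pos _)]
  have e : 1 + Mf / R = (Mf + R) / R := by field_simp; ring
  rw [e, le_div_iff₀ hR]
  refine le_of_mul_le_mul_right ?_ (Real.exp_pos (l * R))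
  linarith

/-- Second moment from tilted means in both directions. -/
lemma sq_of_tilt {α : Type*} [Fintype α] {w f : α → ℝ} {Mf R l : ℝ} (hw : ∀ x, 0 ≤ w x)
    (hw1 : ∑ x, w x = 1) (hf : ∀ x, |f x| ≤ Mf) (hR : 0 < R) (hl : 0 ≤ l)
    (h1 : ∑ x, w x * (Real.exp (l * f x) * f x) ≤ R * ∑ x, w x * Real.exp (l * f x))
    (h2 : ∑ x, w x * (Real.exp (-(l * f x)) * -f x) ≤ R * ∑ x, w x * Real.exp (-(l * f x))) :
    ∑ x, w x * f x ^ 2 ≤ 4 * R ^ 2 + 2 * Mf ^ 2 * ((1 + Mf / R) * Real.exp (-(l * R))) := by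
  classical
  have a := mass_of_tilt hw hw1 hf hR hl h1
  have b := mass_of_tilt (f := fun x => -f x) hw hw1 (fun x => by simpa using hf x) hR hl
    (by simpa [mul_neg] using h2)
  have pt : ∀ x, w x * f x ^ 2 ≤ 4 * R ^ 2 * w x +
      Mf ^ 2 * ((if 2 * R < f x then w x else 0) + (if 2 * R < -f x then w x else 0)) := fun x => by
    have hsq : f x ^ 2 ≤ Mf ^ 2 :=
      sq_le_sq' (by linarith [(abs_le.1 (hf x)).1]) (abs_le.1 (hf x)).2
    have hw' := hw x
    by_cases c1 : 2 * R < f x
    · rw [if_pos c1, if_neg (by linarith)]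
      have := mul_le_mul_of_nonneg_left hsq hw'
      have : 0 ≤ 4 * R ^ 2 * w x := by positivity
      linarith
    · by_cases c2 : 2 * R < -f x
      · rw [if_neg c1, if_pos c2]
        have := mul_le_mul_of_nonneg_left hsq hw'
        have : 0 ≤ 4 * R ^ 2 * w x := by positivity
        linarith
      · rw [if_neg c1, if_neg c2]
        have : f x ^ 2 ≤ (2 * R) ^ 2 := sq_le_sq' (by linarith) (by linarith)
        have := mul_le_mul_of_nonneg_left this hw'
        linarith
  refine (Finset.sum_le_sum fun x _ => pt x).trans ?_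
  rw [Finset.sum_add_distrib, ← Finset.mul_sum, hw1, ← Finset.mul_sum, Finset.sum_add_distrib,
    ← Finset.sum_filter, ← Finset.sum_filter]
  have := mul_le_mul_of_nonneg_left (add_le_add a b) (sq_nonneg Mf)
  linarith

variable {n : ℕ}

/-- A shift of the field is an exponential tilt. -/
lemma avg_add_field (J : Fin n → Fin n → ℝ) (y w : Fin n → ℝ) (g : Cfg n → ℝ) :
    Ising.avg J (y + w) g * Ising.avg J y (fun x => Real.exp (∑ i, w i * spin (x i))) =
      Ising.avg J y (fun x => Real.exp (∑ i, w i * spin (x i)) * g x) := by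
  have e : ∀ x, Real.exp (Ising.qE J (y + w) x) =
      Real.exp (Ising.qE J y x) * Real.exp (∑ i, w i * spin (x i)) := fun x => by
    rw [← Real.exp_add]
    congr 1
    simp only [Ising.qE, Pi.add_apply, add_mul, Finset.sum_add_distrib]
    ring
  have hZ : (0 : ℝ) < ∑ x, Real.exp (Ising.qE J y x) := Finset.sum_pos (fun x _ => Real.exp_pos _)
    Finset.univ_nonempty
  have hS : (0 : ℝ) < ∑ x, Real.exp (Ising.qE J y x) * Real.exp (∑ i, w i * spin (x i)) :=
    Finset.sum_pos (fun x _ => by positivity) Finset.univ_nonempty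
  simp only [Ising.avg, Ising.wt, div_mul_eq_mul_div, ← Finset.sum_div, e]
  rw [show ∑ x, Real.exp (Ising.qE J y x) * (Real.exp (∑ i, w i * spin (x i)) * g x) =
    ∑ x, Real.exp (Ising.qE J y x) * Real.exp (∑ i, w i * spin (x i)) * g x from
      Finset.sum_congr rfl fun x _ => by ring]
  field_simp

lemma abs_dot_le_nrm (u v : Fin n → ℝ) : |∑ i, u i * v i| ≤ nrm u * nrm v := by
  rw [nrm, nrm, ← Real.sqrt_mul (Finset.sum_nonneg fun i _ => sq_nonneg _), ← Real.sqrt_sq_eq_abs]
  exact Real.sqrt_le_sqrt (Finset.sum_mul_sq_le_sq_mul_sq _ _ _)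

lemma nrm_smul (c : ℝ) (v : Fin n → ℝ) : nrm (c • v) = |c| * nrm v := by
  simp only [nrm, Pi.smul_apply, smul_eq_mul, mul_pow, ← Finset.mul_sum]
  rw [Real.sqrt_mul (sq_nonneg c), Real.sqrt_sq_eq_abs]

lemma nrm_nonneg {ι : Type*} [Fintype ι] (v : ι → ℝ) : 0 ≤ nrm v := Real.sqrt_nonneg _

lemma nrm_spin (x : Cfg n) : nrm (svec x) = Real.sqrt n := by
  have : ∀ i, svec x i ^ 2 = 1 := fun i => by rw [sq]; exact spin_mul_self _
  simp [nrm, this]

/-- If the mean moves by at most `R` under all shifts of length `r`, every unit linear statistic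
has variance at most `4 R²` plus an exponentially small term. -/
theorem coarse_var (J : Matrix (Fin n) (Fin n) ℝ) (s : ℝ) (Y : Fin n → ℝ) {R r : ℝ} (hR : 0 < R)
    (hr : 0 ≤ r)
    (hm : ∀ w, nrm w ≤ r → nrm (fun i => mean J s (Y + w) i - mean J s Y i) ≤ R)
    (v : Fin n → ℝ) (hv : nrm v ≤ 1) :
    varW ((1 - s) • J) Y (fun x => ∑ i, v i * spin (x i)) ≤
      4 * R ^ 2 + 8 * n * ((1 + 2 * Real.sqrt n / R) * Real.exp (-(r * R))) := by
  set J' : Fin n → Fin n → ℝ := (1 - s) • J
  set w := Ising.wt J' Y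
  set m := mean J s Y
  set f : Cfg n → ℝ := fun x => ∑ i, v i * spin (x i) - ∑ i, v i * m i
  have hlin : ∀ (b : Fin n → ℝ),
      Ising.avg J' b (fun x => ∑ i, v i * spin (x i)) = ∑ i, v i * mean J s b i := fun b => by
    simp only [Ising.avg, mean, Finset.mul_sum]
    rw [Finset.sum_comm]
    exact Finset.sum_congr rfl fun i _ => Finset.sum_congr rfl fun x _ => by ring
  have hw0 : ∀ x, 0 ≤ w x := fun x => (Ising.wt_pos _ _ x).le
  have hw1 : ∑ x, w x = 1 := Ising.wt_sum _ _
  have hbound : ∀ u : Fin n → ℝ, nrm u ≤ Real.sqrt n → |∑ i, v i * u i| ≤ Real.sqrt n := fun u hu =>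
    (abs_dot_le_nrm v u).trans (by nlinarith [nrm_nonneg v, nrm_nonneg u, Real.sqrt_nonneg (n : ℝ)])
  have hmean : |∑ i, v i * m i| ≤ Real.sqrt n := by
    rw [show ∑ i, v i * m i = Ising.avg J' Y (fun x => ∑ i, v i * spin (x i)) from (hlin Y).symm]
    refine (Finset.abs_sum_le_sum_abs _ _).trans ?_
    refine (Finset.sum_le_sum fun x _ => ?_).trans (le_of_eq (show ∑ x, Ising.wt J' Y x * Real.sqrt n = Real.sqrt n by rw [← Finset.sum_mul, Ising.wt_sum, one_mul]))
    rw [abs_mul, abs_of_pos (Ising.wt_pos _ _ x)]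
    exact mul_le_mul_of_nonneg_left (hbound (svec x) (nrm_spin x).le) (Ising.wt_pos _ _ x).le
  have hf : ∀ x, |f x| ≤ 2 * Real.sqrt n := fun x =>
    (abs_sub _ _).trans (by
      have := hbound (svec x) (nrm_spin x).le
      simp only [svec] at this
      linarith)
  have hvar : varW J' Y (fun x => ∑ i, v i * spin (x i)) = ∑ x, w x * f x ^ 2 := by
    have e : ∀ x, w x * f x ^ 2 = w x * (∑ i, v i * spin (x i)) ^ 2
        - 2 * (∑ i, v i * m i) * (w x * ∑ i, v i * spin (x i)) + (∑ i, v i * m i) ^ 2 * w x :=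
      fun x => by ring
    simp only [e, Finset.sum_add_distrib, Finset.sum_sub_distrib, ← Finset.mul_sum, hw1]
    rw [varW, show ∑ x, w x * (∑ i, v i * spin (x i)) = Ising.avg J' Y fun x => ∑ i, v i * spin (x i)
      from rfl, hlin Y]
    change Ising.avg J' Y _ - _ = _
    rw [show (∑ x, w x * (∑ i, v i * spin (x i)) ^ 2) =
      Ising.avg J' Y fun x => (∑ i, v i * spin (x i)) ^ 2 from rfl]
    ring
  have htilt : ∀ l : ℝ, |l| ≤ r →
      |∑ x, w x * (Real.exp (l * f x) * f x)| ≤ R * ∑ x, w x * Real.exp (l * f x) := fun l hl => by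
    set z := ∑ i, v i * m i
    have hsplit : ∀ x, Real.exp (l * f x) =
        Real.exp (-(l * z)) * Real.exp (∑ i, (l • v) i * spin (x i)) := fun x => by
      rw [← Real.exp_add]; congr 1
      simp only [f, z, Pi.smul_apply, smul_eq_mul, mul_assoc, ← Finset.mul_sum]
      ring
    have key := avg_add_field J' Y (l • v) f
    have hfl : Ising.avg J' (Y + l • v) f = ∑ i, v i * (mean J s (Y + l • v) i - m i) := by
      simp only [f, Ising.avg, mul_sub, Finset.sum_sub_distrib, ← Finset.sum_mul, Ising.wt_sum,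
        one_mul]
      have := hlin (Y + l • v)
      simp only [Ising.avg] at this
      rw [this]
    have hsz : |Ising.avg J' (Y + l • v) f| ≤ R := by
      rw [hfl]
      refine (abs_dot_le_nrm v _).trans ?_
      have h1 := hm (l • v) (by
        rw [nrm_smul]
        nlinarith [abs_nonneg l, nrm_nonneg v])
      nlinarith [nrm_nonneg v, nrm_nonneg fun i => mean J s (Y + l • v) i - m i]
    have e1 : ∑ x, w x * (Real.exp (l * f x) * f x) = Real.exp (-(l * z)) *
        Ising.avg J' Y fun x => Real.exp (∑ i, (l • v) i * spin (x i)) * f x := by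
      rw [Ising.avg, Finset.mul_sum]
      exact Finset.sum_congr rfl fun x _ => by rw [hsplit]; ring
    have e2 : ∑ x, w x * Real.exp (l * f x) = Real.exp (-(l * z)) *
        Ising.avg J' Y fun x => Real.exp (∑ i, (l • v) i * spin (x i)) := by
      rw [Ising.avg, Finset.mul_sum]
      exact Finset.sum_congr rfl fun x _ => by rw [hsplit]; ring
    rw [e1, e2, abs_mul, abs_of_pos (Real.exp_pos _), mul_left_comm R]
    refine mul_le_mul_of_nonneg_left ?_ (Real.exp_pos _).le
    have hpos : 0 < Ising.avg J' Y fun x => Real.exp (∑ i, (l • v) i * spin (x i)) :=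
      Finset.sum_pos (fun x _ => mul_pos (Ising.wt_pos _ _ x) (Real.exp_pos _)) Finset.univ_nonempty
    rw [← key, abs_mul, abs_of_pos hpos]
    exact mul_le_mul_of_nonneg_right hsz hpos.le
  rw [hvar]
  refine (sq_of_tilt (l := r) hw0 hw1 hf hR hr
    ((le_abs_self _).trans (htilt r (abs_of_nonneg hr).le)) ?_).trans (le_of_eq ?_)
  · have h := htilt (-r) (by rw [abs_neg, abs_of_nonneg hr])
    simp only [neg_mul] at h
    refine le_trans ?_ h
    refine le_trans (le_of_eq ?_) (neg_le_abs _)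
    simp [mul_neg, Finset.sum_neg_distrib]
  · rw [mul_pow, Real.sq_sqrt (Nat.cast_nonneg n)]
    ring

end Vale.Agent.P150.PartB
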