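import Vale.Agent.P150.Fast.PartB.Chan

/-!
# P150, Part B: localisation of the mean and the coarse variance cap (`LocCap`)

The mean at time `τ` is the expectation of the mean at time `e`. Where the leak is small, a landing
near the start is in the set, so the modulus of the later mean passes to the earlier one.
-/

open MeasureTheory ProbabilityTheory Matrix
open scoped Matrix.Norms.L2Operator

namespace Vale.Agent.P150.PartB

variable {n : ℕ} {Λ c : ℝ} {J B : Matrix (Fin n) (Fin n) ℝ}

namespace LocCapProof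

open Chan

lemma nrm_neg' (v : Fin n → ℝ) : nrm (fun i => -v i) = nrm v := by simp [nrm]

lemma nrm_tri (a b d : Fin n → ℝ) :
    nrm (fun i => a i - d i) ≤ nrm (fun i => a i - b i) + nrm fun i => b i - d i := by
  refine le_trans (le_of_eq ?_) (nrm_add_le _ _)
  congr 1; funext i; ring

lemma nrm_comm (a b : Fin n → ℝ) : nrm (fun i => a i - b i) = nrm fun i => b i - a i := by
  rw [← nrm_neg']; simp only [neg_sub]

lemma nrm_mean_sub_le (J₁ J₂ : Matrix (Fin n) (Fin n) ℝ) (s t : ℝ) (Y Z : Fin n → ℝ) :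
    nrm (fun i => mean J₁ s Y i - mean J₂ t Z i) ≤ 2 * Real.sqrt n := by
  have h1 : ∀ (J₁ : Matrix (Fin n) (Fin n) ℝ) s Y i, |mean J₁ s Y i| ≤ 1 := fun J₁ s Y i =>
    abs_avg_le _ Y fun x => le_of_eq (by cases x i <;> simp [spin])
  refine Real.sqrt_le_iff.2 ⟨by positivity, ?_⟩
  rw [mul_pow, Real.sq_sqrt (Nat.cast_nonneg n)]
  refine (Finset.sum_le_sum (g := fun _ => (2 : ℝ) ^ 2) fun i _ => ?_).trans (le_of_eq (by simp; ring))
  obtain ⟨a, b⟩ := abs_le.1 (h1 J₁ s Y i)
  obtain ⟨a', b'⟩ := abs_le.1 (h1 J₂ t Z i)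
  exact sq_le_sq' (by linarith) (by linarith)

lemma avg_linF (K : Matrix (Fin n) (Fin n) ℝ) (Y v : Fin n → ℝ) :
    Ising.avg K Y (linF v) = ∑ i, v i * Ising.avg K Y fun x => spin (x i) := by
  simp only [linF, Ising.avg, Finset.mul_sum]
  rw [Finset.sum_comm]
  exact Finset.sum_congr rfl fun i _ => Finset.sum_congr rfl fun x _ => by ring

/-- The modulus of the mean at time `e` passes to the expectation. -/
lemma localise (hJ : Ctl Λ c J B) {τ e R a : ℝ} (hτ : τ ≤ e) {T : Set (Fin n → ℝ)}
    (hT : MeasurableSet T) {Y : Fin n → ℝ} (M : Fin n → ℝ) (ha : 0 ≤ a)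
    (hM : ∀ W, nrm (fun i => mean J e W i - M i) ≤ 2 * Real.sqrt n)
    (hnear : ∀ W ∈ T, nrm (fun i => W i - Y i) ≤ landR Λ τ e * Real.sqrt n →
      nrm (fun i => mean J e W i - M i) ≤ a)
    (hleak : leak J B e τ T Y ≤ R) (hexp : Real.exp (-(n : ℝ)) ≤ R) :
    nrm (fun i => mean J τ Y i - M i) ≤ a + 4 * R * Real.sqrt n := by
  set D := fun i => mean J τ Y i - M i
  set θ := Real.sqrt (e - τ)
  have hθ : τ + θ ^ 2 = e := by rw [Real.sq_sqrt (sub_nonneg.2 hτ)]; ring
  have hD0 := nrm_nonneg D
  set bad := fun W => Tᶜ.indicator (1 : (Fin n → ℝ) → ℝ) W + (far Λ τ e Y).indicator 1 W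
  have hbm : Measurable bad := (measurable_ind hT.compl).add (measurable_ind (measurableSet_far Λ τ e Y))
  have hb2 : ∀ W, |bad W| ≤ 2 := fun W => (abs_add_le _ _).trans
    (by linarith [abs_ind_le Tᶜ W, abs_ind_le (far Λ τ e Y) W])
  set G := fun W => Ising.avg ((1 - e) • J) W (linF D) - ∑ i, D i * M i
  have hG : ∀ W, G W = ∑ i, D i * (mean J e W i - M i) := fun W => by
    simp only [G, avg_linF, mul_sub, Finset.sum_sub_distrib, mean]
  have hGabs : ∀ W, |G W| ≤ nrm D * (2 * Real.sqrt n) := fun W => by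
    rw [hG]; exact (abs_dot_le_nrm _ _).trans (mul_le_mul_of_nonneg_left (hM W) hD0)
  have hpt : ∀ W, G W ≤ nrm D * a + nrm D * (2 * Real.sqrt n) * bad W := fun W => by
    have hP : 0 ≤ nrm D * (2 * Real.sqrt n) := by positivity
    have i1 := (ind_le_one Tᶜ W).1
    have i2 := (ind_le_one (far Λ τ e Y) W).1
    by_cases h : W ∈ T ∧ W ∉ far Λ τ e Y
    · have := mul_le_mul_of_nonneg_left (hnear W h.1 (not_lt.1 h.2)) hD0
      have h' := (le_abs_self _).trans (abs_dot_le_nrm D fun i => mean J e W i - M i)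
      rw [← hG] at h'
      have : 0 ≤ nrm D * (2 * Real.sqrt n) * bad W := mul_nonneg hP (add_nonneg i1 i2)
      linarith
    · have h1 : 1 ≤ bad W := by
        rcases not_and_or.1 h with h | h
        · simp only [bad, Set.indicator_of_mem (s := Tᶜ) h, Pi.one_apply]; linarith
        · simp only [bad, Set.indicator_of_mem (not_not.1 h), Pi.one_apply]; linarith
      have := mul_le_mul_of_nonneg_left h1 hP
      have := mul_nonneg hD0 ha
      linarith [(le_abs_self _).trans (hGabs W)]
  have hGm : Measurable G := (measurable_avg _ _).sub_const _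
  have hkey : kern J B τ θ Y G = nrm D ^ 2 := by
    have h1 : kern J B τ θ Y G = (-∑ i, D i * M i) + Ising.avg ((1 - τ) • J) Y (linF D) := by
      have h := kern_affine J B τ θ Y (-∑ i, D i * M i) 1
        (measurable_avg ((1 - (τ + θ ^ 2)) • J) (linF D))
        (fun W => abs_avg_le _ W (f := linF D) (M := ∑ x, |linF D x|) fun x =>
          Finset.single_le_sum (f := fun x => |linF D x|) (fun _ _ => abs_nonneg _) (Finset.mem_univ x))
      refine Eq.trans ?_ (h.trans (congrArg (fun u => (-∑ i, D i * M i) + u)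
        ((one_mul _).trans (kern_avg hJ τ θ Y (linF D)))))
      congr 1
      funext W
      simp only [G, hθ]; ring
    rw [h1, avg_linF, nrm, Real.sq_sqrt (Finset.sum_nonneg fun i _ => sq_nonneg _), ← sub_eq_neg_add,
      ← Finset.sum_sub_distrib]
    exact Finset.sum_congr rfl fun i _ => by simp only [D, mean]; ring
  have hle : kern J B τ θ Y G ≤ nrm D * a + nrm D * (2 * Real.sqrt n) * (2 * R) := by
    refine (kern_mono J B τ θ Y hGm hGabs ((hbm.const_mul _).const_add _)
      (M' := |nrm D * a| + |nrm D * (2 * Real.sqrt n)| * 2) (fun W => (abs_add_le _ _).trans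
        (add_le_add le_rfl (by rw [abs_mul]; exact mul_le_mul_of_nonneg_left (hb2 W) (abs_nonneg _))))
      hpt).trans ?_
    rw [kern_affine J B τ θ Y _ _ hbm hb2]
    refine add_le_add le_rfl (mul_le_mul_of_nonneg_left ?_ (by positivity))
    rw [kern_add J B τ θ Y (measurable_ind hT.compl) (abs_ind_le _)
      (measurable_ind (measurableSet_far Λ τ e Y)) (abs_ind_le _)]
    linarith [show leak J B e τ T Y = kern J B τ θ Y (Tᶜ.indicator 1) from rfl, kern_far hJ hτ Y]
  rw [hkey] at hle
  rcases hD0.lt_or_eq with hpos | h0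
  · exact le_of_mul_le_mul_left (by linarith) hpos
  · rw [← h0]
    have := (Real.exp_pos (-(n : ℝ))).le.trans hexp
    positivity

lemma varW_smul (K : Matrix (Fin n) (Fin n) ℝ) (b : Fin n → ℝ) (a : ℝ) (f : Cfg n → ℝ) :
    varW K b (fun x => a * f x) = a ^ 2 * varW K b f := by
  simp only [varW, Ising.avg, mul_pow, mul_left_comm _ (a ^ 2), mul_left_comm _ a, ← Finset.mul_sum]
  ring

end LocCapProof

open LocCapProof Chan in
theorem locCap : LocCap := by
  intro n Λ c J B hJ hΛ τ e d r R S S' hS hS' hτ hr hR hR4 hd hinc hmod Y hleak hexp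
  have hlR : 0 ≤ landR Λ τ e := by
    have := sub_nonneg.2 hτ
    unfold landR; positivity
  have hsq := Real.sqrt_nonneg (n : ℝ)
  have h0mem : ∀ Z ∈ S, Z ∈ S' := fun Z hZ => by
    simpa using hinc Z hZ 0 (by simp [nrm]; positivity)
  have hl0 := (leak_bounds J B e τ hS Y).1
  have hlS : leak J B e τ S Y ≤ R :=
    (le_mul_of_one_le_right hl0 (Real.one_le_exp (by positivity))).trans hleak
  have hlS' : leak J B e τ S' Y ≤ R := by
    refine le_trans ?_ hlS
    have := leak_shift (J := J) (B := B) (e := e) (τ := τ) hS hS' Y 0 (fun Z hZ => by simpa using h0mem Z hZ)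
    simpa [nrm] using this
  constructor
  · intro Z hZ hZY
    refine (localise hJ hτ hS' (a := R * Real.sqrt n) (mean J e Z) (by positivity)
      (fun W => nrm_mean_sub_le _ _ _ _ _ _) (fun W hW hWY => hmod W hW Z hZ ?_) hlS' hexp).trans (by nlinarith)
    refine (nrm_tri W Y Z).trans ?_
    rw [nrm_comm Y Z]
    nlinarith
  · intro v
    rcases Nat.eq_zero_or_pos n with rfl | hn
    · simp [varW, linF, Ising.avg]
    obtain ⟨Z, hZS, hZY⟩ := landing hJ hS hτ (Y := Y) (by linarith)
    have hsn : 0 < Real.sqrt n := Real.sqrt_pos.2 (by exact_mod_cast hn)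
    have hshift : ∀ w, nrm w ≤ r * Real.sqrt n →
        nrm (fun i => mean J τ (Y + w) i - mean J e Z i) ≤ R * Real.sqrt n + 4 * R * Real.sqrt n :=
      fun w hw => by
        refine localise hJ hτ hS' _ (by positivity) (fun W => nrm_mean_sub_le _ _ _ _ _ _)
          (fun W hW hWY => hmod W hW Z (h0mem Z hZS) ?_) ?_ hexp
        · refine ((nrm_tri W (Y + w) Z).trans (add_le_add le_rfl (nrm_tri (Y + w) Y Z))).trans ?_
          rw [nrm_comm Y Z, show (fun i => (Y + w) i - Y i) = w by funext i; simp]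
          nlinarith
        · refine ((leak_shift hS hS' Y w fun Z hZ => hinc Z hZ w hw).trans ?_).trans
            ((mul_comm _ _).trans_le hleak)
          refine mul_le_mul_of_nonneg_right (Real.exp_le_exp.2 ?_) hl0
          have := mul_le_mul_of_nonneg_right hw hsq
          rw [mul_assoc, Real.mul_self_sqrt (Nat.cast_nonneg n)] at this
          linarith
    have hcv : ∀ w, nrm w ≤ r * Real.sqrt n →
        nrm (fun i => mean J τ (Y + w) i - mean J τ Y i) ≤ 10 * R * Real.sqrt n := fun w hw => by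
      have h0 := hshift 0 (by simp [nrm]; positivity)
      rw [add_zero] at h0
      refine (nrm_tri _ (mean J e Z) _).trans ?_
      rw [nrm_comm (mean J e Z)]
      linarith [hshift w hw]
    rcases (nrm_nonneg v).lt_or_eq with hv | hv
    · have h := coarse_var J τ Y (by positivity : (0:ℝ) < 10 * R * Real.sqrt n) (by positivity) hcv
        ((nrm v)⁻¹ • v) (by rw [nrm_smul, abs_inv, abs_of_pos hv, inv_mul_cancel₀ hv.ne'])
      have e1 : (fun x : Cfg n => ∑ i, ((nrm v)⁻¹ • v) i * spin (x i)) = fun x => (nrm v)⁻¹ * linF v x := by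
        funext x; simp only [linF, Finset.mul_sum, Pi.smul_apply, smul_eq_mul, mul_assoc]
      rw [e1, varW_smul, inv_pow, inv_mul_le_iff₀ (by positivity)] at h
      rw [← Real.sq_sqrt (Finset.sum_nonneg fun i (_ : i ∈ Finset.univ) => sq_nonneg (v i))]
      refine h.trans ?_
      rw [mul_comm]
      refine mul_le_mul_of_nonneg_right ?_ (sq_nonneg _)
      refine add_le_add ?_ (mul_le_mul_of_nonneg_left (mul_le_mul ?_ (Real.exp_le_exp.2 ?_)
        (Real.exp_pos _).le (by positivity)) (by positivity))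
      · rw [mul_pow, Real.sq_sqrt (Nat.cast_nonneg n)]
        nlinarith [mul_nonneg (sq_nonneg R) (Nat.cast_nonneg (α := ℝ) n)]
      · rw [show 2 * Real.sqrt n / (10 * R * Real.sqrt n) = 2 / R / 10 by field_simp]
        have : 0 ≤ 2 / R := by positivity
        linarith
      · rw [show r * Real.sqrt n * (10 * R * Real.sqrt n) = 10 * (r * R) * (Real.sqrt n * Real.sqrt n) by ring,
          Real.mul_self_sqrt (Nat.cast_nonneg n)]
        have : 0 ≤ r * R * n := by positivity
        linarith
    · have hv0 : ∀ i, v i = 0 := fun i => by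
        have := (Real.sqrt_eq_zero (Finset.sum_nonneg fun i _ => sq_nonneg _)).1 hv.symm
        exact pow_eq_zero_iff two_ne_zero |>.1 ((Finset.sum_eq_zero_iff_of_nonneg fun i _ => sq_nonneg _).1 this i (Finset.mem_univ i))
      simp [varW, linF, Ising.avg, hv0]

end Vale.Agent.P150.PartB
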