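import Vale.Agent.P150.Fast.PartB.Moments

/-!
# P150, Part B: the variance lost over one short step

`StepVar`. With `g = f - avg f`, the lost variance is `∫ N² / M`, `N = mix (μ g)`, `M = mix μ`. By
Jensen `M` is at least the likelihood at the mean signal times `exp (-θ² Λ n / 2)`, and against that
lower bound the integral is exact: `∑∑ μ μ' g g' exp (θ² ξ ⬝ ξ')` with `ξ` the centred signals.
-/

open MeasureTheory ProbabilityTheory Matrix
open scoped Matrix.Norms.L2Operator

namespace Vale.Agent.P150.PartB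

variable {n : ℕ} {Λ c : ℝ} {J B : Matrix (Fin n) (Fin n) ℝ}

namespace StepVarProof

open Moments

/-- inverse of the likelihood of a fixed signal -/
noncomputable def invKer (θ : ℝ) (b z : Fin n → ℝ) : ℝ :=
  Real.exp (θ ^ 2 / 2 * ∑ k, b k ^ 2 - θ * dot b z)

lemma adm_invKer (θ : ℝ) (b : Fin n → ℝ) : GMix.Adm (invKer θ b) := by
  refine ⟨by unfold invKer dot; fun_prop, Real.exp (θ ^ 2 / 2 * ∑ k, b k ^ 2), |θ| * ∑ k, |b k|,
    fun z => ?_⟩
  rw [invKer, Real.abs_exp, sub_eq_add_neg, Real.exp_add]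
  refine mul_le_mul_of_nonneg_left (Real.exp_le_exp.2 ((neg_le_abs _).trans ?_)) (Real.exp_pos _).le
  rw [abs_mul, mul_assoc]
  refine mul_le_mul_of_nonneg_left (abs_dot_le (fun k => ?_) z) (abs_nonneg θ)
  exact Finset.single_le_sum (f := fun k => |b k|) (fun _ _ => abs_nonneg _) (Finset.mem_univ k)

/-- two likelihoods relative to a third one -/
lemma integral_pair (θ : ℝ) (b : Fin n → ℝ) (a : Cfg n → Fin n → ℝ) (x x' : Cfg n) :
    ∫ z, ker a θ z x * ker a θ z x' * invKer θ b z ∂gauss (Fin n) =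
      Real.exp (θ ^ 2 * dot (fun k => a x k - b k) fun k => a x' k - b k) := by
  have e : ∀ z : Fin n → ℝ, ker a θ z x * ker a θ z x' * invKer θ b z =
      Real.exp (θ ^ 2 / 2 * ∑ k, b k ^ 2 - θ ^ 2 / 2 * ∑ k, a x k ^ 2
          - θ ^ 2 / 2 * ∑ k, a x' k ^ 2) *
        Real.exp (dot (fun k => θ * a x k + θ * a x' k - θ * b k) z) := fun z => by
    have h : dot (fun k => θ * a x k + θ * a x' k - θ * b k) z =
        θ * dot (a x) z + θ * dot (a x') z - θ * dot b z := by
      simp only [dot, Finset.mul_sum, ← Finset.sum_add_distrib, ← Finset.sum_sub_distrib]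
      exact Finset.sum_congr rfl fun k _ => by ring
    rw [ker, ker, invKer, h, ← Real.exp_add, ← Real.exp_add, ← Real.exp_add]
    ring_nf
  simp only [e, integral_const_mul, mgf_dot]
  rw [← Real.exp_add]
  congr 1
  simp only [dot, Finset.mul_sum, Finset.sum_div, ← Finset.sum_sub_distrib, ← Finset.sum_add_distrib]
  exact Finset.sum_congr rfl fun k _ => by ring

lemma varW_centred (K : Matrix (Fin n) (Fin n) ℝ) (b : Fin n → ℝ) (f : Cfg n → ℝ) (m : ℝ) :
    varW K b f = varW K b fun x => f x - m := by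
  have h1 : ∑ x, Ising.wt K b x = 1 := sum_wt K b
  simp only [varW, Ising.avg, sub_sq, mul_add, mul_sub, Finset.sum_add_distrib,
    Finset.sum_sub_distrib]
  have e1 : ∀ x, Ising.wt K b x * (2 * f x * m) = 2 * m * (Ising.wt K b x * f x) := fun x => by ring
  simp only [e1, ← Finset.sum_mul, ← Finset.mul_sum]
  have h1' : (∑ x, Ising.wt (fun i j => K i j) b x) = 1 := h1
  linear_combination (-(m ^ 2) + m ^ 2 * ((∑ x, Ising.wt K b x) + 1) -
    2 * m * ∑ x, Ising.wt K b x * f x) * h1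

/-- the lost variance as a Gaussian integral -/
lemma var_drop (hJ : Ctl Λ c J B) (s θ : ℝ) (y : Fin n → ℝ) (f : Cfg n → ℝ) :
    varW ((1 - s) • J) y f -
        kern J B s θ y (fun Y => varW ((1 - (s + θ ^ 2)) • J) Y f) =
      ∫ z, mix (fun x => w0 J s y x * (f x - Ising.avg ((1 - s) • J) y f)) (sig B) θ z ^ 2 /
        mix (w0 J s y) (sig B) θ z ∂gauss (Fin n) := by
  set m := Ising.avg ((1 - s) • J) y f with hm
  set g := fun x => f x - m with hg
  have hg0 : Ising.avg ((1 - s) • J) y g = 0 := by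
    have h1 : ∑ x, Ising.wt ((1 - s) • J) y x = 1 := sum_wt _ _
    simp only [hg, hm, Ising.avg, mul_sub, Finset.sum_sub_distrib, ← Finset.sum_mul]
    linear_combination -(∑ x, Ising.wt ((1 - s) • J) y x * f x) * h1
  obtain ⟨M, hM⟩ : ∃ M, ∀ x, |g x| ≤ M :=
    ⟨∑ x, |g x|, fun x => Finset.single_le_sum (f := fun x => |g x|) (fun _ _ => abs_nonneg _)
      (Finset.mem_univ x)⟩
  have hsq : ∀ x, |g x ^ 2| ≤ M ^ 2 := fun x => by
    rw [abs_pow]; exact pow_le_pow_left₀ (abs_nonneg _) (hM x) 2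
  set K' := (1 - (s + θ ^ 2)) • J
  have hb : ∀ Y, |(-1 : ℝ) * Ising.avg K' Y g ^ 2| ≤ M ^ 2 := fun Y => by
    rw [neg_one_mul, abs_neg, abs_pow]
    exact pow_le_pow_left₀ (abs_nonneg _) (abs_avg_le K' Y hM) 2
  have e : (fun Y => varW K' Y f) =
      fun Y => Ising.avg K' Y (fun x => g x ^ 2) + (-1 : ℝ) * Ising.avg K' Y g ^ 2 := funext fun Y => by
    rw [varW_centred K' Y f m, varW]; ring
  rw [varW_centred _ y f m, e, kern_add J B s θ y (measurable_avg K' _) (abs_avg_le K' · hsq)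
    (((measurable_avg K' g).pow_const 2).const_mul _) hb,
    show kern J B s θ y (fun Y => Ising.avg K' Y fun x => g x ^ 2) =
      Ising.avg ((1 - s) • J) y (fun x => g x ^ 2) from kern_avg hJ s θ y _,
    kern_smul, varW, hg0]
  rw [show Ising.avg ((1 - s) • J) y (fun x => g x ^ 2) - 0 ^ 2 -
      (Ising.avg ((1 - s) • J) y (fun x => g x ^ 2) +
        -1 * kern J B s θ y fun Y => Ising.avg K' Y g ^ 2) =
      kern J B s θ y fun Y => Ising.avg K' Y g ^ 2 by ring, kern]
  refine integral_congr_ae (Filter.Eventually.of_forall fun z => ?_)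
  have h1 : mix (Ising.wt ((1 - s) • J) y) (sig B) θ z * Ising.avg K' (y + θ • B *ᵥ z) g =
      mix (fun x => Ising.wt ((1 - s) • J) y x * g x) (sig B) θ z := avg_step hJ s θ y z g
  have hpos := mix_pos' J B s θ y z
  show mix (Ising.wt ((1 - s) • J) y) (sig B) θ z *
      Ising.avg K' (y + θ • B *ᵥ z) g ^ 2 =
    mix (fun x => w0 J s y x * g x) (sig B) θ z ^ 2 / mix (w0 J s y) (sig B) θ z
  rw [eq_div_iff hpos.ne', show mix (fun x => w0 J s y x * g x) (sig B) θ z =
    mix (fun x => Ising.wt ((1 - s) • J) y x * g x) (sig B) θ z from rfl, ← h1]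
  ring

lemma stepVar_bound (hJ : Ctl Λ c J B) (hΛ : 0 < Λ) (s θ : ℝ) (y : Fin n → ℝ)
    (hn : θ ^ 2 * n ≤ 1) (f : Cfg n → ℝ) :
    varW ((1 - s) • J) y f - kern J B s θ y (fun Y => varW ((1 - (s + θ ^ 2)) • J) Y f) ≤
      (1 + Λ * Real.exp Λ * (θ ^ 2 * n)) *
        (θ ^ 2 * (covVec ((1 - s) • J) y f ⬝ᵥ (J + c • 1) *ᵥ covVec ((1 - s) • J) y f) +
          16 * Λ ^ 2 * Real.exp (4 * Λ) * (θ ^ 2 * n) ^ 2 * varW ((1 - s) • J) y f) := by
  rw [var_drop hJ]
  set μ := w0 J s y
  set g := fun x => f x - Ising.avg ((1 - s) • J) y f with hg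
  set a : Cfg n → Fin n → ℝ := sig B
  set b : Fin n → ℝ := fun k => ∑ x, μ x * a x k
  have hμ : ∀ x, 0 ≤ μ x := fun x => (Ising.wt_pos _ _ x).le
  have hμ1 : ∑ x, μ x = 1 := sum_wt _ _
  have hg0 : ∑ x, μ x * g x = 0 := by
    simp only [hg, Ising.avg, mul_sub, Finset.sum_sub_distrib, ← Finset.sum_mul]
    linear_combination -(∑ x, μ x * f x) * hμ1
  set N := fun z => mix (fun x => μ x * g x) a θ z with hN
  -- Jensen
  set E0 := Real.exp (θ ^ 2 / 2 * (Λ * n)) with hE0
  have hlow : ∀ z, N z ^ 2 / mix μ a θ z ≤ E0 * (N z ^ 2 * invKer θ b z) := fun z => by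
    have hj := convexOn_exp.map_sum_le (t := Finset.univ) (w := μ)
      (p := fun x => θ * dot (a x) z - θ ^ 2 / 2 * ∑ k, a x k ^ 2) (fun x _ => hμ x) hμ1
      (fun x _ => Set.mem_univ _)
    simp only [smul_eq_mul] at hj
    have hmid : ∑ x, μ x * (θ * dot (a x) z - θ ^ 2 / 2 * ∑ k, a x k ^ 2) =
        θ * dot b z - θ ^ 2 / 2 * ∑ x, μ x * ∑ k, a x k ^ 2 := by
      simp only [mul_sub, Finset.sum_sub_distrib, mul_left_comm (μ _), ← Finset.mul_sum]
      congr 2
      simp only [b, dot, Finset.mul_sum, Finset.sum_mul]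
      rw [Finset.sum_comm]
      exact Finset.sum_congr rfl fun k _ => Finset.sum_congr rfl fun x _ => by ring
    rw [hmid] at hj
    have hbar : θ ^ 2 / 2 * ∑ x, μ x * ∑ k, a x k ^ 2 ≤ θ ^ 2 / 2 * (Λ * n) := by
      refine mul_le_mul_of_nonneg_left ?_ (by positivity)
      calc ∑ x, μ x * ∑ k, a x k ^ 2 ≤ ∑ x, μ x * (Λ * n) := Finset.sum_le_sum fun x _ =>
            mul_le_mul_of_nonneg_left (sig_sq_le hJ hΛ x) (hμ x)
        _ = Λ * n := by rw [← Finset.sum_mul, hμ1, one_mul]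
    have hb0 : 0 ≤ θ ^ 2 / 2 * ∑ k, b k ^ 2 := by positivity
    have h1 : 1 ≤ E0 * (mix μ a θ z * invKer θ b z) := by
      have h2 : Real.exp (θ * dot b z - θ ^ 2 / 2 * ∑ x, μ x * ∑ k, a x k ^ 2) ≤ mix μ a θ z := hj
      have h3 : 0 ≤ E0 * invKer θ b z := mul_nonneg (Real.exp_pos _).le (Real.exp_pos _).le
      refine le_trans ?_ ((mul_le_mul_of_nonneg_left h2 h3).trans_eq (by ring))
      rw [hE0, invKer, ← Real.exp_add, ← Real.exp_add]
      exact Real.one_le_exp (by linarith)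
    rw [div_le_iff₀ (mix_pos' J B s θ y z)]
    calc N z ^ 2 = N z ^ 2 * 1 := (mul_one _).symm
      _ ≤ N z ^ 2 * (E0 * (mix μ a θ z * invKer θ b z)) :=
          mul_le_mul_of_nonneg_left h1 (sq_nonneg _)
      _ = _ := by ring
  -- the exact integral
  set ξ : Cfg n → Fin n → ℝ := fun x k => a x k - b k
  set R := fun x x' => θ ^ 2 * dot (ξ x) (ξ x')
  have hI : ∫ z, N z ^ 2 * invKer θ b z ∂gauss (Fin n) =
      ∑ x, ∑ x', μ x * g x * (μ x' * g x') * Real.exp (R x x') := by
    have e : ∀ z, N z ^ 2 * invKer θ b z = ∑ x, ∑ x', μ x * g x * (μ x' * g x') *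
        (ker a θ z x * ker a θ z x' * invKer θ b z) := fun z => by
      simp only [N, mix, sq]
      rw [Finset.sum_mul_sum, Finset.sum_mul]
      refine Finset.sum_congr rfl fun x _ => ?_
      rw [Finset.sum_mul]
      exact Finset.sum_congr rfl fun x' _ => by ring
    have iterm : ∀ x x', Integrable (fun z => μ x * g x * (μ x' * g x') *
        (ker a θ z x * ker a θ z x' * invKer θ b z)) (gauss (Fin n)) := fun x x' =>
      ((((GMix.adm_ker a θ x).mul (GMix.adm_ker a θ x')).mul (adm_invKer θ b)).const_mul _).integrable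
    simp only [e]
    rw [integral_finsetSum _ fun x _ => integrable_finsetSum _ fun x' _ => iterm x x']
    refine Finset.sum_congr rfl fun x _ => ?_
    rw [integral_finsetSum _ fun x' _ => iterm x x']
    exact Finset.sum_congr rfl fun x' _ => by rw [integral_const_mul, integral_pair]
  set X := covVec ((1 - s) • J) y f ⬝ᵥ (J + c • 1) *ᵥ covVec ((1 - s) • J) y f with hX
  have hu : ∀ k, ∑ x, μ x * g x * ξ x k = (Bᵀ *ᵥ covVec ((1 - s) • J) y f) k := fun k => by
    have hcov : ∀ i, covVec ((1 - s) • J) y f i = ∑ x, μ x * g x * spin (x i) := fun i => by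
      simp only [covVec, hg, Ising.avg, mul_sub, sub_mul, Finset.sum_sub_distrib]
      congr 1
      · exact Finset.sum_congr rfl fun x _ => (mul_assoc _ _ _).symm
      · rw [Finset.mul_sum]
        exact Finset.sum_congr rfl fun x _ => by ring
    simp only [ξ, mul_sub, Finset.sum_sub_distrib, ← Finset.sum_mul, hg0, zero_mul, sub_zero, a,
      sig, Matrix.mulVec, dotProduct, Matrix.transpose_apply, svec, Finset.mul_sum, hcov]
    rw [Finset.sum_comm]
    exact Finset.sum_congr rfl fun i _ => Finset.sum_congr rfl fun x _ => by ring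
  have hlin : ∑ x, ∑ x', μ x * g x * (μ x' * g x') * R x x' = θ ^ 2 * X := by
    have hXk : X = ∑ k, (∑ x, μ x * g x * ξ x k) * ∑ x, μ x * g x * ξ x k := by
      simp only [hu]
      rw [hX, ← hJ.factor, ← Matrix.mulVec_mulVec, Matrix.dotProduct_mulVec,
        ← Matrix.mulVec_transpose]
      rfl
    rw [hXk]
    simp only [R, dot, Finset.mul_sum]
    rw [eq_comm, Finset.sum_comm]
    refine Finset.sum_congr rfl fun x _ => ?_
    rw [Finset.sum_comm]
    refine Finset.sum_congr rfl fun k _ => ?_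
    rw [Finset.sum_mul, Finset.mul_sum]
    exact Finset.sum_congr rfl fun x' _ => by ring
  have hX0 : 0 ≤ X := by
    rw [hX, ← hJ.factor, ← Matrix.mulVec_mulVec, Matrix.dotProduct_mulVec,
      ← Matrix.mulVec_transpose]
    exact Finset.sum_nonneg fun k _ => mul_self_nonneg _
  have hzero : ∑ x, ∑ x', μ x * g x * (μ x' * g x') = 0 := by
    simp only [← Finset.mul_sum, hg0, mul_zero, Finset.sum_const_zero]
  have hξ : ∀ x, ∑ k, ξ x k ^ 2 ≤ 4 * (Λ * n) := fun x => by
    have hb : ∑ k, b k ^ 2 ≤ Λ * n := by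
      calc ∑ k, b k ^ 2 ≤ ∑ k, ∑ x, μ x * a x k ^ 2 := Finset.sum_le_sum fun k _ => by
            have := (even_two.convexOn_pow (𝕜 := ℝ)).map_sum_le (t := Finset.univ) (w := μ)
              (p := fun x => a x k) (fun x _ => hμ x) hμ1 (fun x _ => Set.mem_univ _)
            simpa [b] using this
        _ = ∑ x, μ x * ∑ k, a x k ^ 2 := by
            rw [Finset.sum_comm]; simp only [Finset.mul_sum]
        _ ≤ ∑ x, μ x * (Λ * n) := Finset.sum_le_sum fun x _ =>
            mul_le_mul_of_nonneg_left (sig_sq_le hJ hΛ x) (hμ x)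
        _ = Λ * n := by rw [← Finset.sum_mul, hμ1, one_mul]
    calc ∑ k, ξ x k ^ 2 ≤ ∑ k, (2 * a x k ^ 2 + 2 * b k ^ 2) := Finset.sum_le_sum fun k _ => by
          simp only [ξ]; linarith [sq_nonneg (a x k + b k)]
      _ = 2 * (∑ k, a x k ^ 2) + 2 * ∑ k, b k ^ 2 := by
          rw [Finset.sum_add_distrib, Finset.mul_sum, Finset.mul_sum]
      _ ≤ 4 * (Λ * n) := by linarith [sig_sq_le hJ hΛ x]
  have hR : ∀ x x', |R x x'| ≤ θ ^ 2 * (4 * (Λ * n)) := fun x x' => by
    simp only [R, abs_mul, abs_of_nonneg (sq_nonneg θ)]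
    refine mul_le_mul_of_nonneg_left ?_ (sq_nonneg θ)
    refine (Finset.abs_sum_le_sum_abs _ _).trans ?_
    calc ∑ k, |ξ x k * ξ x' k| ≤ ∑ k, (ξ x k ^ 2 + ξ x' k ^ 2) / 2 :=
          Finset.sum_le_sum fun k _ => by
            rw [abs_le]; constructor <;>
              linarith [sq_nonneg (ξ x k + ξ x' k), sq_nonneg (ξ x k - ξ x' k)]
      _ = ((∑ k, ξ x k ^ 2) + ∑ k, ξ x' k ^ 2) / 2 := by
          rw [← Finset.sum_div, Finset.sum_add_distrib]
      _ ≤ 4 * (Λ * n) := by linarith [hξ x, hξ x']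
  set V := varW ((1 - s) • J) y f with hV
  have hVsum : V = ∑ x, μ x * g x ^ 2 := by
    rw [hV, varW_centred _ y f (Ising.avg ((1 - s) • J) y f), varW]
    show (∑ x, μ x * g x ^ 2) - (∑ x, μ x * g x) ^ 2 = _
    rw [hg0]; ring
  have hV0 : 0 ≤ V := hVsum ▸ Finset.sum_nonneg fun x _ => mul_nonneg (hμ x) (sq_nonneg _)
  have hL1 : (∑ x, μ x * |g x|) ^ 2 ≤ V := by
    have := (even_two.convexOn_pow (𝕜 := ℝ)).map_sum_le (t := Finset.univ) (w := μ)
      (p := fun x => |g x|) (fun x _ => hμ x) hμ1 (fun x _ => Set.mem_univ _)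
    simpa [hVsum, sq_abs] using this
  set C := 16 * Λ ^ 2 * Real.exp (4 * Λ) * (θ ^ 2 * n) ^ 2 with hC
  have hI2 : ∑ x, ∑ x', μ x * g x * (μ x' * g x') * Real.exp (R x x') ≤ θ ^ 2 * X + C * V := by
    have hsplit : ∑ x, ∑ x', μ x * g x * (μ x' * g x') * Real.exp (R x x') =
        θ ^ 2 * X + ∑ x, ∑ x', μ x * g x * (μ x' * g x') * (Real.exp (R x x') - 1 - R x x') := by
      simp only [mul_sub, mul_one, Finset.sum_sub_distrib, hlin, hzero]
      ring
    rw [hsplit]
    refine add_le_add le_rfl ?_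
    calc ∑ x, ∑ x', μ x * g x * (μ x' * g x') * (Real.exp (R x x') - 1 - R x x') ≤
          ∑ x, ∑ x', μ x * |g x| * (μ x' * |g x'|) * C := by
          refine Finset.sum_le_sum fun x _ => Finset.sum_le_sum fun x' _ => ?_
          have hS : |R x x'| ≤ 4 * Λ := (hR x x').trans (by
            calc θ ^ 2 * (4 * (Λ * n)) = 4 * Λ * (θ ^ 2 * n) := by ring
              _ ≤ 4 * Λ * 1 := mul_le_mul_of_nonneg_left hn (by positivity)
              _ = 4 * Λ := mul_one _)
          obtain ⟨t0, t1⟩ := GMix.exp_taylor_one hS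
          refine (le_abs_self _).trans ?_
          rw [abs_mul, abs_mul, abs_mul, abs_mul, abs_of_nonneg (hμ x), abs_of_nonneg (hμ x'),
            abs_of_nonneg t0]
          refine mul_le_mul_of_nonneg_left (t1.trans ?_) (by
            have := hμ x; have := hμ x'; positivity)
          rw [hC, ← sq_abs (R x x')]
          calc |R x x'| ^ 2 * Real.exp (4 * Λ) ≤ (θ ^ 2 * (4 * (Λ * n))) ^ 2 * Real.exp (4 * Λ) :=
                mul_le_mul_of_nonneg_right (pow_le_pow_left₀ (abs_nonneg _) (hR x x') 2)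
                  (Real.exp_pos _).le
            _ = _ := by ring
      _ = (∑ x, μ x * |g x|) ^ 2 * C := by rw [sq, Finset.sum_mul_sum]; simp only [Finset.sum_mul]
      _ ≤ V * C := mul_le_mul_of_nonneg_right hL1 (by positivity)
      _ = C * V := mul_comm _ _
  have hEle : E0 ≤ 1 + Λ * Real.exp Λ * (θ ^ 2 * n) := by
    set v := θ ^ 2 / 2 * (Λ * (n : ℝ)) with hv
    have hv0 : 0 ≤ v := by positivity
    have h0 : v ≤ Λ * (θ ^ 2 * n) := by
      have : 0 ≤ Λ * (θ ^ 2 * n) := by positivity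
      linarith [show v = Λ * (θ ^ 2 * n) / 2 by rw [hv]; ring]
    have h1 := GMix.exp_sub_one_le v
    have h2 : v * Real.exp v ≤ Λ * (θ ^ 2 * n) * Real.exp Λ :=
      mul_le_mul h0 (Real.exp_le_exp.2 (h0.trans
        ((mul_le_mul_of_nonneg_left hn hΛ.le).trans_eq (mul_one Λ)))) (Real.exp_pos _).le
        (by positivity)
    rw [hE0]
    linarith
  have iN : Integrable (fun z => E0 * (N z ^ 2 * invKer θ b z)) (gauss (Fin n)) :=
    ((((GMix.adm_mix _ a θ).pow 2).mul (adm_invKer θ b)).const_mul E0).integrable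
  have i0 : Integrable (fun z => N z ^ 2 / mix μ a θ z) (gauss (Fin n)) :=
    iN.mono' (((continuous_mix _ a θ).pow 2).div (continuous_mix μ a θ)
      fun z => (mix_pos' J B s θ y z).ne').aestronglyMeasurable
      (Filter.Eventually.of_forall fun z => by
        rw [Real.norm_eq_abs,
          abs_of_nonneg (div_nonneg (sq_nonneg _) (mix_pos' J B s θ y z).le)]
        exact hlow z)
  refine (integral_mono i0 iN hlow).trans ?_
  rw [integral_const_mul, hI]
  exact (mul_le_mul_of_nonneg_left hI2 (Real.exp_pos _).le).trans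
    (mul_le_mul_of_nonneg_right hEle (by positivity))

end StepVarProof

open StepVarProof in
/-- One short step loses at most the first-order term plus a second-order error. -/
theorem stepVar : StepVar := by
  intro Λ hΛ
  set K1 := Λ * Real.exp Λ with hK1
  set K2 := 16 * Λ ^ 2 * Real.exp (4 * Λ) with hK2
  refine ⟨K1 + (1 + K1) * K2 + 1, by positivity, fun n c J B hJ s θ y _ hn f => ?_⟩
  have h := stepVar_bound hJ hΛ s θ y hn f
  set X := covVec ((1 - s) • J) y f ⬝ᵥ (J + c • 1) *ᵥ covVec ((1 - s) • J) y f with hX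
  have hX0 : 0 ≤ X := by
    rw [hX, ← hJ.factor, ← Matrix.mulVec_mulVec, Matrix.dotProduct_mulVec,
      ← Matrix.mulVec_transpose]
    exact Finset.sum_nonneg fun k _ => mul_self_nonneg _
  have hV : 0 ≤ varW ((1 - s) • J) y f := by
    have h1 : ∑ x, Ising.wt ((1 - s) • J) y x = 1 := sum_wt _ _
    have := (even_two.convexOn_pow (𝕜 := ℝ)).map_sum_le (t := Finset.univ)
      (w := fun x => Ising.wt ((1 - s) • J) y x) (p := f) (fun x _ => (Ising.wt_pos _ _ x).le) h1
      (fun x _ => Set.mem_univ _)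
    exact sub_nonneg.2 this
  set r := θ ^ 2 * (n : ℝ) with hr
  have hr0 : 0 ≤ r := by positivity
  set V := varW ((1 - s) • J) y f
  have e1 : (1 + K1 * r) * (θ ^ 2 * X) ≤ θ ^ 2 * (1 + (K1 + (1 + K1) * K2 + 1) * r) * X := by
    have : 0 ≤ ((1 + K1) * K2 + 1) * r * (θ ^ 2 * X) := by positivity
    linarith
  have e2 : (1 + K1 * r) * (K2 * r ^ 2 * V) ≤ (K1 + (1 + K1) * K2 + 1) * r ^ 2 * V := by
    have a1 : 1 + K1 * r ≤ 1 + K1 := by
      linarith [(mul_le_mul_of_nonneg_left hn (show 0 ≤ K1 by positivity)).trans_eq (mul_one K1)]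
    have a2 := mul_le_mul_of_nonneg_right a1 (show 0 ≤ K2 * r ^ 2 * V by positivity)
    have a3 : 0 ≤ (K1 + 1) * (r ^ 2 * V) := by positivity
    linarith
  linarith

end Vale.Agent.P150.PartB
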