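import Vale.Agent.P150.Fast.PartB.BlockSpec
import Vale.Agent.P150.Fast.PartB.FBound
import Vale.Agent.P150.Fast.PartB.KernelFacts
import Vale.Agent.P150.Fast.PartB.StepVar
import Vale.Agent.P150.Tensor

/-!
# P150, Part B: `VarBlock` and `ProductBase`

Over a grid of tiny steps from `τ` to `e` the bound `ψ + β · leak` propagates backwards, as the leak
is an exact martingale. Where the leak is above the threshold the bound is trivial; below it the
crude covariance bound feeds one step, and where `β · leak < 1` the step bootstraps to a slope of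
order `L`.
-/

open MeasureTheory Matrix
open scoped Matrix.Norms.L2Operator

namespace Vale.Agent.P150.PartB

open Vale.Agent.P150.Fast

namespace VarBlockAux

variable {n : ℕ}

lemma sqrt_sq_sum (v : Fin n → ℝ) (x : Cfg n) : linF v x ^ 2 ≤ n * ∑ i, v i ^ 2 := by
  have h := Finset.sum_mul_sq_le_sq_mul_sq Finset.univ v fun i => spin (x i)
  refine h.trans (le_of_eq ?_)
  simp [sq, spin_mul_self, mul_comm]

/-- the trivial bound -/
lemma var_le_sq (J : Matrix (Fin n) (Fin n) ℝ) (b : Fin n → ℝ) {f : Cfg n → ℝ} {R : ℝ}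
    (hf : ∀ x, f x ^ 2 ≤ R) : varW J b f ≤ R := by
  refine (sub_le_self _ (sq_nonneg _)).trans ((FB.avg_mono J b hf).trans_eq ?_)
  exact FB.avg_const J b R

lemma var_nonneg (J : Matrix (Fin n) (Fin n) ℝ) (b : Fin n → ℝ) (f : Cfg n → ℝ) :
    0 ≤ varW J b f :=
  FB.varW_nonneg J b f

lemma abs_var_le (J : Matrix (Fin n) (Fin n) ℝ) (b : Fin n → ℝ) {f : Cfg n → ℝ} {R : ℝ}
    (hf : ∀ x, f x ^ 2 ≤ R) : |varW J b f| ≤ R :=
  abs_le.2 ⟨by linarith [var_nonneg J b f, var_le_sq J b hf], var_le_sq J b hf⟩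

lemma abs_le_of_var {R a : ℝ} (h : 0 ≤ a) (h' : a ≤ R) : |a| ≤ R := by rwa [abs_of_nonneg h]

lemma measurable_varW (J : Matrix (Fin n) (Fin n) ℝ) (f : Cfg n → ℝ) :
    Measurable fun Y => varW J Y f :=
  (measurable_avg J _).sub ((measurable_avg J f).pow_const 2)

lemma measurable_dir (J : Matrix (Fin n) (Fin n) ℝ) (f : Cfg n → ℝ) :
    Measurable fun Y => Ising.dir J Y f := by
  have hw : ∀ x : Cfg n, Measurable fun Y : Fin n → ℝ => Ising.wt J Y x := fun x => by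
    have := measurable_avg J (Pi.single x 1)
    simpa [Ising.avg, Pi.single_apply] using this
  have hm : ∀ (i : Fin n) (x : Cfg n), Measurable fun Y : Fin n → ℝ => Ising.mag J Y i x := fun i x =>
    ((continuous_iff_continuousAt.2 fun a => (Ising.hasDerivAt_tanh' a).continuousAt).comp
      (by unfold Ising.fld; fun_prop : Continuous fun Y : Fin n → ℝ => Ising.fld J Y i x)).measurable
  exact Finset.measurable_sum _ fun i _ => Finset.measurable_sum _ fun x _ =>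
    (hw x).mul ((measurable_const.sub ((hm i x).pow_const 2)).mul_const _)

lemma dir_nonneg (J : Fin n → Fin n → ℝ) (b : Fin n → ℝ) (f : Cfg n → ℝ) : 0 ≤ Ising.dir J b f :=
  Finset.sum_nonneg fun i _ => Finset.sum_nonneg fun x _ =>
    mul_nonneg (Ising.wt_pos J b x).le (mul_nonneg (Ising.mag_sq J b i x).1 (sq_nonneg _))

lemma abs_dir_le (J : Fin n → Fin n → ℝ) (b : Fin n → ℝ) (f : Cfg n → ℝ) :
    |Ising.dir J b f| ≤ ∑ i, ∑ x, Ising.dd i f x ^ 2 := by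
  rw [abs_of_nonneg (dir_nonneg J b f)]
  refine Finset.sum_le_sum fun i _ => Finset.sum_le_sum fun x _ => ?_
  have hw : Ising.wt J b x ≤ 1 := by
    rw [← Ising.wt_sum J b]
    exact Finset.single_le_sum (fun y _ => (Ising.wt_pos J b y).le) (Finset.mem_univ x)
  calc Ising.wt J b x * ((1 - Ising.mag J b i x ^ 2) * Ising.dd i f x ^ 2)
      ≤ 1 * (1 * Ising.dd i f x ^ 2) :=
        mul_le_mul hw (mul_le_mul_of_nonneg_right (Ising.mag_sq J b i x).2 (sq_nonneg _))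
          (mul_nonneg (Ising.mag_sq J b i x).1 (sq_nonneg _)) zero_le_one
    _ = _ := by ring

/-- covariances are paid for by a covariance bound and the variance -/
lemma covVec_le (J : Matrix (Fin n) (Fin n) ℝ) (b : Fin n → ℝ) {X : ℝ}
    (hX : ∀ w, varW J b (linF w) ≤ X * ∑ i, w i ^ 2) (f : Cfg n → ℝ) :
    ∑ i, covVec J b f i ^ 2 ≤ X * varW J b f := by
  set u := covVec J b f
  set N := ∑ i, u i ^ 2
  have hN : 0 ≤ N := Finset.sum_nonneg fun i _ => sq_nonneg _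
  have hV := var_nonneg J b f
  have e : N = Ising.avg J b (fun x => f x * linF u x) - Ising.avg J b f * Ising.avg J b (linF u) := by
    have e2 : ∀ i, u i ^ 2 = u i * (Ising.avg J b (fun x => f x * spin (x i)) -
        Ising.avg J b f * Ising.avg J b fun x => spin (x i)) := fun i => by
      rw [sq]; exact congrArg (u i * ·) rfl
    simp only [N, e2, linF, mul_sub, Finset.sum_sub_distrib, Ising.avg, Finset.mul_sum]
    congr 1
    · rw [Finset.sum_comm]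
      exact Finset.sum_congr rfl fun x _ => Finset.sum_congr rfl fun i _ => by ring
    · refine Eq.trans ?_ Finset.sum_comm
      refine Finset.sum_congr rfl fun i _ => ?_
      simp only [Finset.sum_mul, Finset.mul_sum]
      exact Finset.sum_congr rfl fun a _ => Finset.sum_congr rfl fun b _ => by ring
  have h := FB.abs_cov_le (fun i j => J i j) b f (linF u)
  have hsq : N ^ 2 ≤ varW J b f * varW J b (linF u) := by
    have h' : |N| ≤ Real.sqrt (varW J b f) * Real.sqrt (varW J b (linF u)) := by rw [e]; exact h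
    have := pow_le_pow_left₀ (abs_nonneg N) h' 2
    rwa [sq_abs, mul_pow, Real.sq_sqrt hV, Real.sq_sqrt (var_nonneg J b _)] at this
  rcases hN.eq_or_lt with h0 | h0
  · rw [← h0]
    rcases eq_or_ne n 0 with rfl | hn
    · have : varW J b f = 0 := by
        have hc : f = fun _ => f fun i => i.elim0 :=
          funext fun x => congrArg f (funext fun i => i.elim0)
        rw [hc]
        show Ising.avg (fun i j => J i j) b (fun _ => (f fun i => i.elim0) ^ 2) -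
          Ising.avg (fun i j => J i j) b (fun _ => f fun i => i.elim0) ^ 2 = 0
        rw [FB.avg_const, FB.avg_const, sub_self]
      rw [this, mul_zero]
    · have hpos : (0 : ℝ) < ∑ _i : Fin n, (1 : ℝ) ^ 2 := by
        simp only [one_pow, Finset.sum_const, Finset.card_univ, Fintype.card_fin, nsmul_eq_mul, mul_one]
        exact Nat.cast_pos.2 (Nat.pos_of_ne_zero hn)
      exact mul_nonneg (nonneg_of_mul_nonneg_left ((var_nonneg J b _).trans (hX fun _ => 1)) hpos) hV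
  · refine le_of_mul_le_mul_left ?_ h0
    rw [← sq]
    exact hsq.trans ((mul_le_mul_of_nonneg_left (hX u) hV).trans (le_of_eq (by ring)))

variable {Λ c : ℝ} {J B : Matrix (Fin n) (Fin n) ℝ} {e : ℝ} {S : Set (Fin n → ℝ)}

lemma indicator_bound (S : Set (Fin n → ℝ)) (Y : Fin n → ℝ) :
    0 ≤ Sᶜ.indicator (1 : (Fin n → ℝ) → ℝ) Y ∧ Sᶜ.indicator (1 : (Fin n → ℝ) → ℝ) Y ≤ 1 := by
  by_cases h : Y ∈ Sᶜ <;> simp [h]

lemma leak_bound (τ : ℝ) (hS : MeasurableSet S) (Y : Fin n → ℝ) :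
    0 ≤ leak J B e τ S Y ∧ leak J B e τ S Y ≤ 1 := by
  have hm : Measurable (Sᶜ.indicator (1 : (Fin n → ℝ) → ℝ)) := measurable_const.indicator hS.compl
  have hb : ∀ Y, |Sᶜ.indicator (1 : (Fin n → ℝ) → ℝ) Y| ≤ 1 := fun Y =>
    abs_le_of_var (indicator_bound S Y).1 (indicator_bound S Y).2
  have h0 := kern_mono J B τ (Real.sqrt (e - τ)) Y (F := fun _ => 0) (M := 0) measurable_const
    (fun _ => by simp) hm hb fun Z => (indicator_bound S Z).1
  have h1 := kern_mono J B τ (Real.sqrt (e - τ)) Y hm hb (G := fun _ => 1) (M' := 1) measurable_const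
    (fun _ => by simp) fun Z => (indicator_bound S Z).2
  rw [kern_const] at h0 h1
  exact ⟨h0, h1⟩

lemma measurable_leak (τ : ℝ) (hS : MeasurableSet S) : Measurable fun Y => leak J B e τ S Y :=
  measurable_kern J B τ _ (measurable_const.indicator hS.compl)

/-- the leak is a martingale -/
lemma leak_step (hJ : Ctl Λ c J B) (hS : MeasurableSet S) {τ θ : ℝ} (hθ : 0 ≤ θ) (hτ : τ + θ ^ 2 ≤ e)
    (Y : Fin n → ℝ) :
    kern J B τ θ Y (fun Z => leak J B e (τ + θ ^ 2) S Z) = leak J B e τ S Y := by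
  have hm : Measurable (Sᶜ.indicator (1 : (Fin n → ℝ) → ℝ)) := measurable_const.indicator hS.compl
  refine (kern_tower hJ τ θ (Real.sqrt (e - (τ + θ ^ 2))) hθ (Real.sqrt_nonneg _) Y hm
    (fun Z => abs_le_of_var (indicator_bound S Z).1 (indicator_bound S Z).2)).trans ?_
  rw [Real.sq_sqrt (by linarith), show θ ^ 2 + (e - (τ + θ ^ 2)) = e - τ by ring]
  rfl

/-- the one-step hypothesis with constant `KS` -/
def OneStep (J B : Matrix (Fin n) (Fin n) ℝ) (c KS : ℝ) : Prop :=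
  ∀ (s θ : ℝ) (y : Fin n → ℝ), 0 ≤ θ → θ ^ 2 * n ≤ 1 → ∀ f : Cfg n → ℝ,
    varW ((1 - s) • J) y f ≤
      kern J B s θ y (fun Y => varW ((1 - (s + θ ^ 2)) • J) Y f) +
        θ ^ 2 * (1 + KS * (θ ^ 2 * n)) *
          (covVec ((1 - s) • J) y f ⬝ᵥ (J + c • 1) *ᵥ covVec ((1 - s) • J) y f) +
        KS * (θ ^ 2 * n) ^ 2 * varW ((1 - s) • J) y f

/-- one step of the induction, given a covariance bound at the start of the step -/
lemma step_le {KS : ℝ} (hΛ : 0 < Λ) (hstep : OneStep J B c KS)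
    (hJ : Ctl Λ c J B) (hKS : 0 ≤ KS) {s θ X R : ℝ} {y : Fin n → ℝ} (hθ : 0 ≤ θ)
    (hn : θ ^ 2 * n ≤ 1) (hK1 : KS * (θ ^ 2 * n) ≤ 1) (hK2 : KS * (θ ^ 2 * n) ^ 2 ≤ 2 * Λ * θ ^ 2)
    (hX : ∀ w, varW ((1 - s) • J) y (linF w) ≤ X * ∑ i, w i ^ 2) (hX0 : 0 ≤ X)
    (hq : 2 * Λ * θ ^ 2 * (X + 1) ≤ 1 / 2) (f : Cfg n → ℝ) (hR : 0 ≤ R)
    (hk : kern J B s θ y (fun Y => varW ((1 - (s + θ ^ 2)) • J) Y f) ≤ R) :
    varW ((1 - s) • J) y f ≤ (1 + 2 * (2 * Λ * θ ^ 2 * (X + 1))) * R := by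
  set q := 2 * Λ * θ ^ 2 * (X + 1) with hq'
  have hq0 : 0 ≤ q := by positivity
  set V := varW ((1 - s) • J) y f
  have hV : 0 ≤ V := var_nonneg _ _ _
  set u := covVec ((1 - s) • J) y f
  have hA : u ⬝ᵥ (J + c • 1) *ᵥ u ≤ Λ * (X * V) :=
    ((le_abs_self _).trans (hJ.opLe_A.quad u)).trans
      (mul_le_mul_of_nonneg_left (covVec_le _ _ hX f) hΛ.le)
  have h2 : θ ^ 2 * (1 + KS * (θ ^ 2 * n)) * (u ⬝ᵥ (J + c • 1) *ᵥ u) ≤ θ ^ 2 * 2 * (Λ * (X * V)) := by
    refine (mul_le_mul_of_nonneg_left hA (by positivity)).trans ?_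
    exact mul_le_mul_of_nonneg_right (mul_le_mul_of_nonneg_left (by linarith) (sq_nonneg θ))
      (by positivity)
  have h3 := mul_le_mul_of_nonneg_right hK2 hV
  have h : V ≤ R + q * V := by
    have := hstep s θ y hθ hn f
    rw [hq', show 2 * Λ * θ ^ 2 * (X + 1) * V = θ ^ 2 * 2 * (Λ * (X * V)) + 2 * Λ * θ ^ 2 * V by ring]
    linarith
  have hV2 : (1 - q) * V ≤ (1 - q) * ((1 + 2 * q) * R) := by
    have : 0 ≤ q * (1 - 2 * q) * R := mul_nonneg (mul_nonneg hq0 (by linarith)) hR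
    linarith
  exact le_of_mul_le_mul_left hV2 (by linarith)

/-- a bound by the Dirichlet form and the leak moves one step back -/
lemma transfer (hJ : Ctl Λ c J B) (hS : MeasurableSet S) {τ θ : ℝ} (hθ : 0 ≤ θ) (hτ : τ + θ ^ 2 ≤ e)
    {f : Cfg n → ℝ} {R p a d : ℝ} (hf : ∀ x, f x ^ 2 ≤ R) (hp : 0 ≤ p) (ha : 0 ≤ a) (hd : 0 ≤ d)
    (h : ∀ Z, varW ((1 - (τ + θ ^ 2)) • J) Z f ≤
      p * Ising.dir ((1 - (τ + θ ^ 2)) • J) Z f + (a + d * leak J B e (τ + θ ^ 2) S Z))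
    (Y : Fin n → ℝ) :
    kern J B τ θ Y (fun Z => varW ((1 - (τ + θ ^ 2)) • J) Z f) ≤
      p * Ising.dir ((1 - τ) • J) Y f + (a + d * leak J B e τ S Y) := by
  set D := fun Z => p * Ising.dir ((1 - (τ + θ ^ 2)) • J) Z f
  set G := fun Z => a + d * leak J B e (τ + θ ^ 2) S Z
  have hl := fun Z => leak_bound (J := J) (B := B) (e := e) (τ + θ ^ 2) hS Z
  have hlm : Measurable fun Z => leak J B e (τ + θ ^ 2) S Z := measurable_leak _ hS
  have hla : ∀ Z, |leak J B e (τ + θ ^ 2) S Z| ≤ 1 := fun Z => abs_le_of_var (hl Z).1 (hl Z).2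
  have hDm : Measurable D := (measurable_dir _ f).const_mul p
  have hGm : Measurable G := (hlm.const_mul d).const_add a
  have hDb : ∀ Z, |D Z| ≤ p * ∑ i, ∑ x, Ising.dd i f x ^ 2 := fun Z => by
    simp only [D, abs_mul, abs_of_nonneg hp]
    exact mul_le_mul_of_nonneg_left (abs_dir_le _ _ f) hp
  have hGb : ∀ Z, |G Z| ≤ a + d := fun Z => by
    refine abs_le_of_var (add_nonneg ha (mul_nonneg hd (hl Z).1)) ?_
    exact add_le_add le_rfl (mul_le_of_le_one_right hd (hl Z).2)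
  refine (kern_mono J B τ θ Y (measurable_varW _ _) (fun Z => abs_var_le _ Z hf) (G := fun Z => D Z + G Z)
    (hDm.add hGm) (fun Z => (abs_add_le _ _).trans (add_le_add (hDb Z) (hGb Z))) h).trans ?_
  rw [kern_add J B τ θ Y hDm hDb hGm hGb]
  refine add_le_add ?_ (le_of_eq ?_)
  · rw [kern_smul]
    exact mul_le_mul_of_nonneg_left (kern_dir hJ τ θ Y f) hp
  · rw [kern_affine J B τ θ Y a d hlm hla, leak_step hJ hS hθ hτ]

/-- constants of the grid: the step `h = θ²` is small against everything -/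
structure Fine (Λ KS L ν θ : ℝ) (n : ℕ) : Prop where
  pos : 0 ≤ θ
  n1 : θ ^ 2 * n ≤ 1
  k1 : KS * (θ ^ 2 * n) ≤ 1
  k2 : KS * (θ ^ 2 * n) ^ 2 ≤ 2 * Λ * θ ^ 2
  qν : 2 * Λ * θ ^ 2 * (ν + 1) ≤ 1 / 2
  qL : 2 * Λ * θ ^ 2 * (4 * L + 5) ≤ 1 / 2

variable {KS L ν θ τ : ℝ}

/-- one step back of the covariance bound `ψ + β · leak` -/
lemma cov_back (hΛ : 0 < Λ) (hKS : 0 ≤ KS) (hstep : OneStep J B c KS) (hJ : Ctl Λ c J B)
    (hS : MeasurableSet S) (hL : 0 ≤ L) (hν : 0 ≤ ν) (hF : Fine Λ KS L ν θ n) (hτ : τ + θ ^ 2 ≤ e)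
    {ψ β θ₀ : ℝ} (hψ : 0 ≤ ψ) (hψ2 : ψ ≤ 2 * L) (hβ0 : 0 ≤ β) (hβ : (n : ℝ) ≤ β * θ₀)
    (ih : ∀ Z v, varW ((1 - (τ + θ ^ 2)) • J) Z (linF v) ≤
      (ψ + β * leak J B e (τ + θ ^ 2) S Z) * ∑ i, v i ^ 2) (Y : Fin n → ℝ)
    (hcrude : leak J B e τ S Y ≤ θ₀ → ∀ v, varW ((1 - τ) • J) Y (linF v) ≤ ν * ∑ i, v i ^ 2)
    (v : Fin n → ℝ) :
    varW ((1 - τ) • J) Y (linF v) ≤
      (ψ * (1 + 2 * (2 * Λ * θ ^ 2 * (4 * L + 5))) +
        β * (1 + (2 * (2 * Λ * θ ^ 2 * (ν + 1)) * (2 * L + 2) + 2 * (2 * Λ * θ ^ 2 * (4 * L + 5)))) *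
          leak J B e τ S Y) * ∑ i, v i ^ 2 := by
  set qν := 2 * Λ * θ ^ 2 * (ν + 1) with hqν
  set qL := 2 * Λ * θ ^ 2 * (4 * L + 5) with hqL
  set g := 2 * qν * (2 * L + 2) + 2 * qL with hg
  set l := leak J B e τ S Y
  have hqν0 : 0 ≤ qν := by positivity
  have hqL0 : 0 ≤ qL := by positivity
  have hqν1 : qν ≤ 1 / 2 := hF.qν
  have hl : 0 ≤ l := (leak_bound _ hS Y).1
  have hg0 : 0 ≤ g := by positivity
  have hsum : ∀ w : Fin n → ℝ, 0 ≤ ∑ i, w i ^ 2 := fun w => Finset.sum_nonneg fun i _ => sq_nonneg _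
  by_cases hbig : θ₀ < l
  · refine (var_le_sq _ _ fun x => sqrt_sq_sum v x).trans (mul_le_mul_of_nonneg_right ?_ (hsum v))
    have h1 : β * θ₀ ≤ β * l := mul_le_mul_of_nonneg_left hbig.le hβ0
    have h2 : 0 ≤ ψ * (1 + 2 * qL) := by positivity
    have h3 : 0 ≤ β * g * l := by positivity
    linarith
  have hker : ∀ w : Fin n → ℝ, kern J B τ θ Y (fun Z => varW ((1 - (τ + θ ^ 2)) • J) Z (linF w)) ≤
      (ψ + β * l) * ∑ i, w i ^ 2 := fun w => by
    refine (transfer hJ hS hF.pos hτ (p := 0) (a := ψ * ∑ i, w i ^ 2) (d := β * ∑ i, w i ^ 2)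
      (fun x => sqrt_sq_sum w x) le_rfl (mul_nonneg hψ (hsum w)) (mul_nonneg hβ0 (hsum w))
      (fun Z => (ih Z w).trans_eq (by ring)) Y).trans_eq ?_
    ring
  have step : ∀ X, 0 ≤ X → 2 * Λ * θ ^ 2 * (X + 1) ≤ 1 / 2 →
      (∀ w, varW ((1 - τ) • J) Y (linF w) ≤ X * ∑ i, w i ^ 2) →
      ∀ w, varW ((1 - τ) • J) Y (linF w) ≤
        (1 + 2 * (2 * Λ * θ ^ 2 * (X + 1))) * (ψ + β * l) * ∑ i, w i ^ 2 :=
    fun X hX0 hq hX w => (step_le hΛ hstep hJ hKS hF.pos hF.n1 hF.k1 hF.k2 hX hX0 hq (linF w)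
      (mul_nonneg (by positivity) (hsum w)) (hker w)).trans_eq (by ring)
  have first := step ν hν hqν1 (hcrude (not_lt.1 hbig))
  rcases le_or_gt 1 (β * l) with hone | hone
  · refine (first v).trans (mul_le_mul_of_nonneg_right ?_ (hsum v))
    rw [← hqν, hg]
    have h1 : 2 * qν * (ψ + β * l) ≤ 2 * qν * ((2 * L + 2) * (β * l)) := by
      refine mul_le_mul_of_nonneg_left ?_ (by linarith)
      linarith [mul_le_mul_of_nonneg_left hone (by linarith : (0 : ℝ) ≤ 2 * L + 1)]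
    have h2 : 0 ≤ ψ * (2 * qL) := by positivity
    have h3 : 0 ≤ 2 * qL * (β * l) := by positivity
    linarith
  · have hX : ∀ w, varW ((1 - τ) • J) Y (linF w) ≤ (4 * L + 4) * ∑ i, w i ^ 2 := fun w =>
      (first w).trans (mul_le_mul_of_nonneg_right (by
        rw [← hqν]
        refine (mul_le_mul (by linarith : 1 + 2 * qν ≤ 2) (by linarith : ψ + β * l ≤ 2 * L + 2)
          (by positivity) zero_le_two).trans_eq ?_
        ring) (hsum w))
    have second := step (4 * L + 4) (by linarith)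
      (by rw [show 4 * L + 4 + 1 = 4 * L + 5 by ring]; exact hF.qL) hX
    refine (second v).trans (mul_le_mul_of_nonneg_right ?_ (hsum v))
    rw [show 4 * L + 4 + 1 = 4 * L + 5 by ring, ← hqL, hg]
    have : 0 ≤ 2 * qν * (2 * L + 2) * (β * l) := by positivity
    linarith

/-- one step back of the weak Poincaré inequality -/
lemma wp_back (hΛ : 0 < Λ) (hKS : 0 ≤ KS) (hstep : OneStep J B c KS) (hJ : Ctl Λ c J B)
    (hS : MeasurableSet S) (hL : 0 ≤ L) (hF : Fine Λ KS L ν θ n) (hτ : τ + θ ^ 2 ≤ e)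
    {f : Cfg n → ℝ} {R p a d b₁ : ℝ} (hf : ∀ x, f x ^ 2 ≤ R) (hp : 0 ≤ p) (ha : 0 ≤ a) (hd : b₁ ≤ d)
    (hb₁ : 0 ≤ b₁) (ih : ∀ Z, varW ((1 - (τ + θ ^ 2)) • J) Z f ≤
      p * Ising.dir ((1 - (τ + θ ^ 2)) • J) Z f + (a + d * leak J B e (τ + θ ^ 2) S Z) * R)
    (Y : Fin n → ℝ)
    (hvar : ∀ v, varW ((1 - τ) • J) Y (linF v) ≤ (2 * L + 1 + b₁ * leak J B e τ S Y) * ∑ i, v i ^ 2) :
    varW ((1 - τ) • J) Y f ≤
      p * (1 + 2 * (2 * Λ * θ ^ 2 * (4 * L + 5))) * Ising.dir ((1 - τ) • J) Y f +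
        (a * (1 + 2 * (2 * Λ * θ ^ 2 * (4 * L + 5))) +
          d * (1 + 2 * (2 * Λ * θ ^ 2 * (4 * L + 5))) * leak J B e τ S Y) * R := by
  set r := 1 + 2 * (2 * Λ * θ ^ 2 * (4 * L + 5)) with hr'
  set l := leak J B e τ S Y
  have hl : 0 ≤ l := (leak_bound _ hS Y).1
  have hq : 0 ≤ 2 * Λ * θ ^ 2 * (4 * L + 5) := by positivity
  have hr : 1 ≤ r := by linarith
  have hd0 : 0 ≤ d := hb₁.trans hd
  have hD := dir_nonneg ((1 - τ) • J) Y f
  have hR : 0 ≤ R := (sq_nonneg (f fun _ => true)).trans (hf _)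
  rcases le_or_gt 1 (b₁ * l) with hone | hone
  · refine (var_le_sq _ _ hf).trans ?_
    have h1 : 0 ≤ p * r * Ising.dir ((1 - τ) • J) Y f := mul_nonneg (mul_nonneg hp (by linarith)) hD
    have h2 : 1 ≤ d * r * l := by
      have := mul_le_mul (hone.trans (mul_le_mul_of_nonneg_right hd hl)) hr zero_le_one
        (mul_nonneg hd0 hl)
      linarith
    have h3 : 0 ≤ a * r := mul_nonneg ha (by linarith)
    linarith [mul_le_mul_of_nonneg_right (show 1 ≤ a * r + d * r * l by linarith) hR]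
  · have hker := transfer hJ hS hF.pos hτ (p := p) (a := a * R) (d := d * R) hf hp (mul_nonneg ha hR)
      (mul_nonneg hd0 hR) (fun Z => (ih Z).trans_eq (by ring)) Y
    have hX : ∀ w, varW ((1 - τ) • J) Y (linF w) ≤ (4 * L + 4) * ∑ i, w i ^ 2 := fun w =>
      (hvar w).trans (mul_le_mul_of_nonneg_right (by linarith) (Finset.sum_nonneg fun i _ => sq_nonneg _))
    refine (step_le hΛ hstep hJ hKS hF.pos hF.n1 hF.k1 hF.k2 hX (by linarith)
      (by rw [show 4 * L + 4 + 1 = 4 * L + 5 by ring]; exact hF.qL) f ?_ hker).trans_eq ?_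
    · exact add_nonneg (mul_nonneg hp hD) (add_nonneg (mul_nonneg ha hR) (by positivity))
    · rw [show 4 * L + 4 + 1 = 4 * L + 5 by ring, ← hr']
      ring

/-- the grid is fine enough -/
lemma exists_grid (δ A : ℝ) : ∃ M : ℕ, 0 < M ∧ δ * A ≤ M := by
  obtain ⟨M, hM⟩ := exists_nat_ge (δ * A)
  exact ⟨M + 1, Nat.succ_pos M, hM.trans (by simp)⟩

lemma one_add_pow_le {g : ℝ} (hg : 0 ≤ g) {k M : ℕ} (hk : k ≤ M) {E : ℝ} (hE : M * g ≤ E) :
    (1 + g) ^ k ≤ Real.exp E := by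
  refine (pow_le_pow_right₀ (by linarith) hk).trans ((pow_le_pow_left₀ (by linarith)
    (by linarith [Real.add_one_le_exp g] : 1 + g ≤ Real.exp g) M).trans ?_)
  rw [← Real.exp_nat_mul]
  exact Real.exp_le_exp.2 hE

lemma exp_le_two {x : ℝ} (hx : x ≤ 1 / 2) : Real.exp x ≤ 2 := by
  rcases lt_or_ge x 0 with h | h
  · exact (Real.exp_le_one_iff.2 h.le).trans one_le_two
  have := Real.exp_bound_div_one_sub_of_interval h (by linarith)
  refine this.trans ?_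
  rw [div_le_iff₀ (by linarith)]
  linarith

variable {θ₀ P e₀ b₁ : ℝ}

/-- both bounds at all times of the grid -/
lemma on_grid (hΛ : 0 < Λ) (hKS : 0 ≤ KS) (hstep : OneStep J B c KS) (hJ : Ctl Λ c J B)
    (hS : MeasurableSet S) (hL : 0 ≤ L) (hν : 0 ≤ ν) (hP : 0 ≤ P) (he₀ : 0 ≤ e₀) (hθ₀ : 0 < θ₀)
    (hθ₁ : θ₀ ≤ 1) (hF : Fine Λ KS L ν θ n) {M : ℕ}
    (hpow : ∀ k ≤ M, (1 + 2 * (2 * Λ * θ ^ 2 * (4 * L + 5))) ^ k ≤ 2)
    (hb : ∀ k ≤ M, ((n : ℝ) + 1) / θ₀ * (1 + (2 * (2 * Λ * θ ^ 2 * (ν + 1)) * (2 * L + 2) +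
      2 * (2 * Λ * θ ^ 2 * (4 * L + 5)))) ^ k ≤ b₁)
    (hend : ∀ Y ∈ S, (∀ v, varW ((1 - e) • J) Y (linF v) ≤ L * ∑ i, v i ^ 2) ∧
      WP ((1 - e) • J) Y P e₀)
    (hcrude : ∀ k ≤ M, ∀ Y, leak J B e (e - k * θ ^ 2) S Y ≤ θ₀ →
      ∀ v, varW ((1 - (e - k * θ ^ 2)) • J) Y (linF v) ≤ ν * ∑ i, v i ^ 2) :
    ∀ k ≤ M, ∀ Y,
      (∀ v, varW ((1 - (e - k * θ ^ 2)) • J) Y (linF v) ≤
        (2 * L + 1 + b₁ * leak J B e (e - k * θ ^ 2) S Y) * ∑ i, v i ^ 2) ∧
      ∀ (f : Cfg n → ℝ) (R : ℝ), (∀ x, |f x| ≤ R) →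
        varW ((1 - (e - k * θ ^ 2)) • J) Y f ≤
          P * (1 + 2 * (2 * Λ * θ ^ 2 * (4 * L + 5))) ^ k *
            Ising.dir ((1 - (e - k * θ ^ 2)) • J) Y f +
          (e₀ * (1 + 2 * (2 * Λ * θ ^ 2 * (4 * L + 5))) ^ k +
            b₁ * (1 + 2 * (2 * Λ * θ ^ 2 * (4 * L + 5))) ^ k * leak J B e (e - k * θ ^ 2) S Y) *
            R ^ 2 := by
  have hν' : 0 ≤ 2 * (2 * Λ * θ ^ 2 * (ν + 1)) * (2 * L + 2) := by positivity
  have hL' : 0 ≤ 2 * (2 * Λ * θ ^ 2 * (4 * L + 5)) := by positivity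
  set r := 1 + 2 * (2 * Λ * θ ^ 2 * (4 * L + 5)) with hr
  set γ := 1 + (2 * (2 * Λ * θ ^ 2 * (ν + 1)) * (2 * L + 2) +
      2 * (2 * Λ * θ ^ 2 * (4 * L + 5))) with hγ
  have hr1 : 1 ≤ r := by linarith only [hr, hL']
  have hγ1 : 1 ≤ γ := by linarith only [hγ, hL', hν']
  have hn : (0 : ℝ) ≤ n := Nat.cast_nonneg n
  have hβn : ∀ k, (n : ℝ) + 1 ≤ ((n : ℝ) + 1) / θ₀ * γ ^ k * θ₀ := fun k => by
    rw [div_mul_eq_mul_div, div_mul_cancel₀ _ hθ₀.ne']
    exact le_mul_of_one_le_right (by positivity) (one_le_pow₀ hγ1)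
  have hβ0 : ∀ k, (n : ℝ) + 1 ≤ ((n : ℝ) + 1) / θ₀ * γ ^ k := fun k =>
    (hβn k).trans (mul_le_of_le_one_right (by positivity) hθ₁)
  have hb₁ : (n : ℝ) + 1 ≤ b₁ := (hβ0 0).trans (hb 0 (Nat.zero_le M))
  have ht : ∀ k : ℕ, e - ((k + 1 : ℕ) : ℝ) * θ ^ 2 + θ ^ 2 = e - k * θ ^ 2 := fun k => by
    push_cast; ring
  have hle : ∀ k : ℕ, e - ((k + 1 : ℕ) : ℝ) * θ ^ 2 + θ ^ 2 ≤ e := fun k => by
    rw [ht]; exact sub_le_self _ (by positivity)
  have h0 : e - ((0 : ℕ) : ℝ) * θ ^ 2 = e := by simp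
  have hℓ0 : ∀ Y, leak J B e e S Y = Sᶜ.indicator 1 Y := fun Y => by
    simp only [leak, sub_self, Real.sqrt_zero, kern_zero]
  have main : ∀ k ≤ M, ∀ Y v, varW ((1 - (e - k * θ ^ 2)) • J) Y (linF v) ≤
      (L * r ^ k + ((n : ℝ) + 1) / θ₀ * γ ^ k * leak J B e (e - k * θ ^ 2) S Y) * ∑ i, v i ^ 2 := by
    intro k
    induction k with
    | zero =>
      intro _ Y v
      rw [h0, hℓ0, pow_zero, pow_zero, mul_one, mul_one]
      by_cases hY : Y ∈ S
      · rw [Set.indicator_of_notMem (Set.notMem_compl_iff.2 hY), mul_zero, add_zero]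
        exact (hend Y hY).1 v
      · refine (var_le_sq _ _ fun x => sqrt_sq_sum v x).trans (mul_le_mul_of_nonneg_right ?_
          (Finset.sum_nonneg fun i _ => sq_nonneg _))
        rw [Set.indicator_of_mem (Set.mem_compl hY), Pi.one_apply, mul_one]
        have h1 := hβ0 0
        rw [pow_zero, mul_one] at h1
        linarith only [h1, hL]
    | succ k ih =>
      intro hk Y v
      have hkM : k ≤ M := (Nat.le_succ k).trans hk
      have hψ : L * r ^ k ≤ 2 * L := by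
        linarith only [mul_le_mul_of_nonneg_left (hpow k hkM) hL]
      have h := cov_back hΛ hKS hstep hJ hS hL hν hF (hle k) (ψ := L * r ^ k)
        (β := ((n : ℝ) + 1) / θ₀ * γ ^ k) (θ₀ := θ₀) (by positivity) hψ
        (by positivity) (by linarith only [hβn k])
        (fun Z w => by rw [ht]; exact ih hkM Z w) Y (hcrude (k + 1) hk Y) v
      rw [← hr, ← hγ] at h
      refine h.trans_eq ?_
      rw [pow_succ r k, pow_succ γ k]
      ring
  have hvar : ∀ k ≤ M, ∀ Y v, varW ((1 - (e - k * θ ^ 2)) • J) Y (linF v) ≤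
      (2 * L + 1 + b₁ * leak J B e (e - k * θ ^ 2) S Y) * ∑ i, v i ^ 2 := fun k hk Y v =>
    (main k hk Y v).trans (mul_le_mul_of_nonneg_right (add_le_add
      (by linarith only [mul_le_mul_of_nonneg_left (hpow k hk) hL])
      (mul_le_mul_of_nonneg_right (hb k hk) (leak_bound _ hS Y).1))
      (Finset.sum_nonneg fun i _ => sq_nonneg _))
  have poin : ∀ k ≤ M, ∀ Y (f : Cfg n → ℝ) (R : ℝ), (∀ x, |f x| ≤ R) →
      varW ((1 - (e - k * θ ^ 2)) • J) Y f ≤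
        P * r ^ k * Ising.dir ((1 - (e - k * θ ^ 2)) • J) Y f +
        (e₀ * r ^ k + b₁ * r ^ k * leak J B e (e - k * θ ^ 2) S Y) * R ^ 2 := by
    intro k
    induction k with
    | zero =>
      intro _ Y f R hf
      rw [h0, hℓ0, pow_zero, mul_one, mul_one, mul_one]
      by_cases hY : Y ∈ S
      · rw [Set.indicator_of_notMem (Set.notMem_compl_iff.2 hY), mul_zero, add_zero]
        exact (hend Y hY).2 f R hf
      · refine (var_le_sq _ _ fun x => sq_le_sq' (abs_le.1 (hf x)).1 (abs_le.1 (hf x)).2).trans ?_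
        rw [Set.indicator_of_mem (Set.mem_compl hY), Pi.one_apply, mul_one]
        have h1 : 0 ≤ P * Ising.dir ((1 - e) • J) Y f := mul_nonneg hP (dir_nonneg _ _ f)
        have h2 : 1 * R ^ 2 ≤ (e₀ + b₁) * R ^ 2 :=
          mul_le_mul_of_nonneg_right (by linarith only [hb₁, he₀, hn]) (sq_nonneg R)
        refine le_trans ?_ (add_le_add h1 h2)
        rw [zero_add, one_mul]
    | succ k ih =>
      intro hk Y f R hf
      have hkM : k ≤ M := (Nat.le_succ k).trans hk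
      have hb0 : 0 ≤ b₁ := by linarith only [hb₁, hn]
      have h := wp_back hΛ hKS hstep hJ hS hL hF (hle k) (f := f) (R := R ^ 2)
        (fun x => sq_le_sq' (abs_le.1 (hf x)).1 (abs_le.1 (hf x)).2) (p := P * r ^ k)
        (a := e₀ * r ^ k) (d := b₁ * r ^ k) (b₁ := b₁) (by positivity) (by positivity)
        (le_mul_of_one_le_right hb0 (one_le_pow₀ hr1)) hb0
        (fun Z => by rw [ht]; exact ih hkM Z f R hf) Y (hvar (k + 1) hk Y)
      rw [← hr] at h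
      refine h.trans_eq ?_
      rw [pow_succ r k, ← mul_assoc, ← mul_assoc, ← mul_assoc]
      rfl
  exact fun k hk Y => ⟨hvar k hk Y, poin k hk Y⟩

lemma grid_fine (hΛ : 0 < Λ) (hKS : 0 ≤ KS) (hL : 0 ≤ L) (hν : 0 ≤ ν) {δ : ℝ} (hδ : 0 ≤ δ) (n : ℕ) :
    ∃ M : ℕ, ∃ θ : ℝ, (M : ℝ) * θ ^ 2 = δ ∧ Fine Λ KS L ν θ n := by
  obtain ⟨M, hM0, hM⟩ := exists_grid δ
    ((n : ℝ) + KS * n + KS * n ^ 2 / Λ + 4 * Λ * (ν + 1) + 4 * Λ * (4 * L + 5) + 1)
  have hM' : (0 : ℝ) < M := Nat.cast_pos.2 hM0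
  have hn : (0 : ℝ) ≤ n := Nat.cast_nonneg n
  refine ⟨M, Real.sqrt (δ / M), ?_, ?_⟩
  · rw [Real.sq_sqrt (div_nonneg hδ hM'.le)]; field_simp
  have fine : ∀ a, a ≤ (n : ℝ) + KS * n + KS * n ^ 2 / Λ + 4 * Λ * (ν + 1) +
      4 * Λ * (4 * L + 5) + 1 → Real.sqrt (δ / M) ^ 2 * a ≤ 1 := fun a ha => by
    rw [Real.sq_sqrt (div_nonneg hδ hM'.le), div_mul_eq_mul_div, div_le_one hM']
    exact (mul_le_mul_of_nonneg_left ha hδ).trans hM
  set θ := Real.sqrt (δ / M)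
  have p1 : 0 ≤ KS * (n : ℝ) := mul_nonneg hKS hn
  have p2 : 0 ≤ KS * (n : ℝ) ^ 2 / Λ := by positivity
  have p3 : 0 ≤ 4 * Λ * (ν + 1) := by positivity
  have p4 : 0 ≤ 4 * Λ * (4 * L + 5) := by positivity
  refine ⟨Real.sqrt_nonneg _, fine n (by linarith), ?_, ?_, ?_, ?_⟩
  · rw [mul_left_comm]; exact fine _ (by linarith)
  · have h := fine (KS * n ^ 2 / Λ) (by linarith)
    have h' : KS * (θ ^ 2 * n) ^ 2 = Λ * θ ^ 2 * (θ ^ 2 * (KS * n ^ 2 / Λ)) := by field_simp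
    rw [h']
    have : 0 ≤ Λ * θ ^ 2 := by positivity
    linarith [mul_le_mul_of_nonneg_left h this]
  · linarith [fine (4 * Λ * (ν + 1)) (by linarith)]
  · linarith [fine (4 * Λ * (4 * L + 5)) (by linarith)]

lemma rate_le (hΛ : 0 < Λ) (hL : 0 ≤ L) (hν : 0 ≤ ν) {δ h : ℝ} (hδ : 0 ≤ δ) (hh : δ ≤ h) :
    4 * Λ * ((ν + 1) * (2 * L + 2) + (4 * L + 5)) * δ ≤ (40 * Λ + 2) * (ν + 1) * (L + 1) * h := by
  have h2 : 0 ≤ (ν + 1) * (L + 1) := by positivity
  have h3 : 0 ≤ ν * (L + 1) := by positivity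
  refine mul_le_mul ?_ hh hδ (by positivity)
  have h4 : 4 * Λ * ((ν + 1) * (2 * L + 2) + (4 * L + 5)) ≤ 4 * Λ * (7 * ((ν + 1) * (L + 1))) :=
    mul_le_mul_of_nonneg_left (by linarith) (by positivity)
  linarith [mul_le_mul_of_nonneg_right (show 28 * Λ ≤ 40 * Λ + 2 by linarith) h2]

lemma coef_le (n : ℕ) (hθ₀ : 0 < θ₀) (E : ℝ) :
    2 * (((n : ℝ) + 1) / θ₀ * Real.exp E) ≤ (n + 2 : ℝ) ^ 9 / θ₀ * Real.exp E := by
  rw [← mul_assoc, ← mul_div_assoc]
  refine mul_le_mul_of_nonneg_right (div_le_div_of_nonneg_right ?_ hθ₀.le) (Real.exp_pos _).le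
  have hn : (0 : ℝ) ≤ n := Nat.cast_nonneg n
  have h : (n + 2 : ℝ) ^ 2 ≤ (n + 2 : ℝ) ^ 9 := pow_le_pow_right₀ (by linarith) (by norm_num)
  have h' : (0 : ℝ) ≤ (n + 1) ^ 2 := sq_nonneg _
  linarith

end VarBlockAux

open VarBlockAux

/-- Covariance bound and weak Poincaré inequality over one block. -/
theorem varBlock : VarBlock := by
  intro Λ hΛ
  obtain ⟨KS, hKS, hstep⟩ := stepVar Λ hΛ
  refine ⟨40 * Λ + 2, by positivity, fun n c J B hJ s e L ν P e₀ θ₀ S hs hse he hL hν hP he₀ _ hθ₀ hθ₁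
    hS hK hend hcrude => ?_⟩
  intro b τ hτ Y₀
  have hd0 : 0 ≤ e - τ := sub_nonneg.2 hτ.2
  have hds : e - τ ≤ e - s := sub_le_sub_left hτ.1 e
  obtain ⟨M, θ, hMθ, hF⟩ := grid_fine hΛ hKS.le hL hν hd0 n
  have hqL0 : 0 ≤ 2 * (2 * Λ * θ ^ 2 * (4 * L + 5)) := by positivity
  have hg0 : 0 ≤ 2 * (2 * Λ * θ ^ 2 * (ν + 1)) * (2 * L + 2) +
      2 * (2 * Λ * θ ^ 2 * (4 * L + 5)) := by positivity
  have hEL : (M : ℝ) * (2 * (2 * Λ * θ ^ 2 * (4 * L + 5))) ≤ 20 * Λ * (L + 1) * (e - τ) := by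
    rw [show (M : ℝ) * (2 * (2 * Λ * θ ^ 2 * (4 * L + 5))) =
      4 * Λ * (4 * L + 5) * ((M : ℝ) * θ ^ 2) by ring, hMθ]
    refine mul_le_mul_of_nonneg_right ?_ hd0
    linarith only [mul_nonneg hΛ.le hL]
  have hhalf : 20 * Λ * (L + 1) * (e - τ) ≤ 1 / 2 := by
    have h0 : 0 ≤ (L + 1) * (e - τ) := by positivity
    have h1 : 40 * Λ * ((L + 1) * (e - τ)) ≤ (40 * Λ + 2) * ((L + 1) * (e - τ)) :=
      mul_le_mul_of_nonneg_right (by linarith only) h0
    have h2 : (40 * Λ + 2) * ((L + 1) * (e - τ)) ≤ (40 * Λ + 2) * ((L + 1) * (e - s)) := by gcongr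
    linarith only [h1, h2, hK]
  have hpow : ∀ k ≤ M, (1 + 2 * (2 * Λ * θ ^ 2 * (4 * L + 5))) ^ k ≤ 2 := fun k hk =>
    (one_add_pow_le hqL0 hk hEL).trans (exp_le_two hhalf)
  set E := (40 * Λ + 2) * (ν + 1) * (L + 1) * (e - s) with hEdef
  have hEg : (M : ℝ) * (2 * (2 * Λ * θ ^ 2 * (ν + 1)) * (2 * L + 2) +
      2 * (2 * Λ * θ ^ 2 * (4 * L + 5))) ≤ E := by
    rw [show (M : ℝ) * (2 * (2 * Λ * θ ^ 2 * (ν + 1)) * (2 * L + 2) +
        2 * (2 * Λ * θ ^ 2 * (4 * L + 5))) =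
      4 * Λ * ((ν + 1) * (2 * L + 2) + (4 * L + 5)) * ((M : ℝ) * θ ^ 2) by ring, hMθ]
    exact rate_le hΛ hL hν hd0 hds
  set b₁ := ((n : ℝ) + 1) / θ₀ * Real.exp E with hb₁
  have hb₁0 : 0 ≤ b₁ := by positivity
  have hbb : 2 * b₁ ≤ b := coef_le n hθ₀ E
  have htm : ∀ k ≤ M, e - k * θ ^ 2 ∈ Set.Icc s e := fun k hk => by
    have h1 : (k : ℝ) * θ ^ 2 ≤ e - τ :=
      (mul_le_mul_of_nonneg_right (Nat.cast_le.2 hk) (sq_nonneg θ)).trans_eq hMθ
    exact ⟨by linarith only [h1, hτ.1], sub_le_self _ (by positivity)⟩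
  have h := on_grid (b₁ := b₁) hΛ hKS.le (hstep n c J B hJ) hJ hS hL hν hP he₀ hθ₀ hθ₁ hF hpow
    (fun k hk => mul_le_mul_of_nonneg_left (one_add_pow_le hg0 hk hEg) (by positivity)) hend
    (fun k hk => hcrude _ (htm k hk)) M le_rfl Y₀
  rw [show e - (M : ℝ) * θ ^ 2 = τ by rw [hMθ]; ring] at h
  obtain ⟨hv, hp⟩ := h
  have hl := (leak_bound (J := J) (B := B) (e := e) τ hS Y₀).1
  have hr2 := hpow M le_rfl
  refine ⟨fun v => (hv v).trans (mul_le_mul_of_nonneg_right (add_le_add le_rfl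
    (mul_le_mul_of_nonneg_right (by linarith only [hbb, hb₁0]) hl))
    (Finset.sum_nonneg fun i _ => sq_nonneg _)), fun f R hf => ?_⟩
  refine (hp f R hf).trans (add_le_add (mul_le_mul_of_nonneg_right (mul_le_mul_of_nonneg_left ?_ hP)
    (dir_nonneg _ _ f)) (mul_le_mul_of_nonneg_right (add_le_add ?_ ?_) (sq_nonneg R)))
  · refine one_add_pow_le hqL0 le_rfl (hEL.trans ?_)
    have : 0 ≤ (L + 1) * (e - τ) := by positivity
    linarith only [mul_le_mul_of_nonneg_right (show 20 * Λ ≤ 40 * Λ + 2 by linarith) this]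
  · rw [mul_comm (40 * Λ + 2) e₀]
    exact mul_le_mul_of_nonneg_left (hr2.trans (by linarith only [hΛ])) he₀
  · refine mul_le_mul_of_nonneg_right ?_ hl
    have h1 := mul_le_mul_of_nonneg_left hr2 hb₁0
    have h2 : 0 ≤ P * b := mul_nonneg hP (by linarith only [hbb, hb₁0])
    linarith only [h1, h2, hbb]

/-- The terminal time is a product measure. -/
theorem productBase : ProductBase := by
  intro n β J Y hd
  set K : Fin n → Fin n → ℝ := (1 - (1 : ℝ)) • J with hK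
  have hK0 : ∀ i j, K i j = 0 := fun i j => by simp [hK]
  have hs : ∀ i j, K i j = K j i := fun i j => by rw [hK0, hK0]
  have hd' : ∀ i, K i i = 0 := fun i => hK0 i i
  have hgood : Ising.Good K 0 0 :=
    { symm := hs, diag := hd'
      op := fun v => by simp [hK0]
      row2 := fun i => by simp [hK0]
      small := fun i j => by simp [hK0]
      row3 := fun i => by simp [hK0] }
  have hmag : ∀ i x, Ising.mag K Y i x = Real.tanh (Y i) := fun i x => by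
    simp [Ising.mag, Ising.fld, hK0]
  have hqb : ∀ i x, Ising.qb Y K i (fun z => spin (z i)) x = Real.tanh (Y i) := fun i x => by
    rw [Ising.qb_eq, hmag]; simp [spin]; ring
  have hmean : mean J 1 Y = fun i => Real.tanh (Y i) := funext fun i => by
    show ∑ x, Ising.wt K Y x * spin (x i) = _
    have h := Ising.avg_qb_mul (b := Y) (J := K) hs hd' i (fun _ => 1) (fun z => spin (z i))
      fun _ _ => rfl
    simp only [one_mul, hqb, ← Finset.sum_mul, Ising.wt_sum] at h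
    exact h.symm
  have hvarP : ∀ f, varW ((1 - (1 : ℝ)) • J) Y f ≤ Ising.dir K Y f := fun f => by
    have h := Ising.poincare (b := Y) hgood (by norm_num) f
    simp only [sub_zero, mul_zero, one_mul] at h
    exact h
  have hcov : cov J 1 Y = dMat (mean J 1 Y) := by
    ext i j
    show ∑ x, Ising.wt K Y x * (spin (x i) * spin (x j)) - mean J 1 Y i * mean J 1 Y j = _
    rcases eq_or_ne i j with rfl | hij
    · simp only [spin_mul_self, mul_one, Ising.wt_sum, dMat, Matrix.diagonal_apply_eq]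
      ring
    · have h := Ising.avg_qb_mul (b := Y) (J := K) hs hd' i (fun z => spin (z j)) (fun z => spin (z i))
        fun z v => by simp [Function.update_of_ne hij.symm]
      simp only [hqb] at h
      rw [dMat, Matrix.diagonal_apply_ne _ hij, sub_eq_zero]
      rw [show mean J 1 Y i = Real.tanh (Y i) from congrFun hmean i,
        show mean J 1 Y j = ∑ x, Ising.wt K Y x * spin (x j) from rfl, Finset.mul_sum]
      refine Eq.trans (Finset.sum_congr rfl fun x _ => by ring) (h.symm.trans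
        (Finset.sum_congr rfl fun x _ => by ring))
  refine ⟨fun f R _ => ?_, fun v => (hvarP (linF v)).trans ?_, hmean, hcov, ?_, ?_, ?_⟩
  · rw [one_mul, zero_mul, add_zero]
    exact hvarP f
  · refine Finset.sum_le_sum fun i _ => le_of_le_of_eq (Finset.sum_le_sum (g := fun x =>
      Ising.wt K Y x * v i ^ 2) fun x _ => mul_le_mul_of_nonneg_left ?_ (Ising.wt_pos K Y x).le) ?_
    · have hdd : Ising.dd i (linF v) x = v i := by
        simp only [Ising.dd, linF, ← Finset.sum_sub_distrib]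
        rw [Finset.sum_eq_single i (fun k _ hk => by simp [Function.update_of_ne hk]) (by simp)]
        simp [spin]
      rw [hdd]
      exact mul_le_of_le_one_left (sq_nonneg _) (Ising.mag_sq K Y i x).2
    · rw [← Finset.sum_mul, Ising.wt_sum, one_mul]
  · ext i j
    simp only [fMat, hcov, Matrix.of_apply, Matrix.zero_apply, dMat]
    split_ifs with h
    · rfl
    · rw [Matrix.diagonal_apply_ne _ h, zero_div]
  · have : vMat β 1 J (mean J 1 Y) = 0 := by simp [vMat, aCoef]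
    rw [hMat, this, zero_mul, neg_zero]
  · funext i
    simp [resM, hmean, aCoef, Real.artanh_tanh]

end Vale.Agent.P150.PartB
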