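import Vale.Agent.P150.Fast.PartB.InductionSpec
import Vale.Agent.P150.Fast.PartB.StepRes
import Vale.Agent.P150.Fast.PartB.LocCap
import Vale.Agent.P150.Fast.PartB.VarBlock
import Vale.Agent.P150.Fast.PartB.FBound
import Vale.Agent.P150.Fast.PartB.ParamsSpec

/-!
# P150, Part B: elementary facts used by the macro induction
-/

open MeasureTheory Matrix
open scoped Matrix.Norms.L2Operator

namespace Vale.Agent.P150.PartB.Ind

open Vale.Agent.P150.Fast

variable {n : ℕ} {Λ c : ℝ} {J B : Matrix (Fin n) (Fin n) ℝ}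

lemma tanh_lip (a b : ℝ) : |Real.tanh a - Real.tanh b| ≤ |a - b| := by
  have := Convex.norm_image_sub_le_of_norm_hasDerivWithin_le (s := Set.univ)
    (fun z _ => (Ising.hasDerivAt_tanh' z).hasDerivWithinAt) (C := 1)
    (fun z _ => by
      have h1 : 0 < 1 - Real.tanh z ^ 2 := by
        have := (sq_lt_one_iff_abs_lt_one _).2 (Ising.tanh_abs_lt z); linarith
      rw [Real.norm_eq_abs, abs_of_pos h1]
      linarith [sq_nonneg (Real.tanh z)])
    convex_univ (Set.mem_univ b) (Set.mem_univ a)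
  simpa using this

lemma nrm_mono {v w : Fin n → ℝ} (h : ∀ i, |v i| ≤ |w i|) : nrm v ≤ nrm w :=
  Real.sqrt_le_sqrt (Finset.sum_le_sum fun i _ => sq_le_sq.2 (h i))

lemma nrm_tri (a b d : Fin n → ℝ) :
    nrm (fun i => a i - d i) ≤ nrm (fun i => a i - b i) + nrm (fun i => b i - d i) := by
  refine le_trans (le_of_eq ?_) (nrm_add_le _ _)
  congr 1; funext i; ring

lemma nrm_comm (a b : Fin n → ℝ) : nrm (fun i => a i - b i) = nrm fun i => b i - a i := by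
  simp only [nrm, sub_sq_comm]

lemma abs_le_nrm (v : Fin n → ℝ) (i : Fin n) : |v i| ≤ nrm v := by
  rw [← Real.sqrt_sq_eq_abs]
  exact Real.sqrt_le_sqrt (Finset.single_le_sum (f := fun j => v j ^ 2) (fun _ _ => sq_nonneg _)
    (Finset.mem_univ i))

lemma fnrm_le_norm (M : Matrix (Fin n) (Fin n) ℝ) : fnrm M ≤ Real.sqrt n * ‖M‖ := by
  rw [OpNorm.fnrm_eq]
  refine (Real.sqrt_le_sqrt ((OpNorm.opLe_iff_norm_le.2 le_rfl : OpNorm.OpLe M ‖M‖).fsq_le)).trans ?_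
  rw [Fintype.card_fin, Real.sqrt_mul (Nat.cast_nonneg n), Real.sqrt_sq (norm_nonneg _)]

lemma fnrm_add_le (M N : Matrix (Fin n) (Fin n) ℝ) : fnrm (M + N) ≤ fnrm M + fnrm N := by
  simp only [OpNorm.fnrm_eq]; exact OpNorm.sqrt_fsq_add M N

/-- the variance of a linear statistic is the quadratic form of the covariance -/
lemma varW_linF (s : ℝ) (Y v : Fin n → ℝ) :
    varW ((1 - s) • J) Y (linF v) = v ⬝ᵥ cov J s Y *ᵥ v := by
  rw [varW, LocCapProof.avg_linF]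
  have h2 : Ising.avg ((1 - s) • J) Y (fun x => linF v x ^ 2) =
      ∑ i, ∑ j, v i * v j * Ising.avg ((1 - s) • J) Y fun x => spin (x i) * spin (x j) := by
    have e : ∀ x : Cfg n, linF v x ^ 2 = ∑ i, ∑ j, v i * v j * (spin (x i) * spin (x j)) := fun x => by
      rw [linF, pow_two, Finset.sum_mul_sum]
      exact Finset.sum_congr rfl fun i _ => Finset.sum_congr rfl fun j _ => by ring
    simp only [e, Ising.avg, Finset.mul_sum]
    rw [Finset.sum_comm]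
    refine Finset.sum_congr rfl fun i _ => ?_
    rw [Finset.sum_comm]
    exact Finset.sum_congr rfl fun j _ => Finset.sum_congr rfl fun x _ => by ring
  rw [h2, sq, Finset.sum_mul_sum]
  simp only [dotProduct, Matrix.mulVec, cov, Matrix.of_apply, Finset.mul_sum, ← Finset.sum_sub_distrib,
    mean]
  exact Finset.sum_congr rfl fun i _ => Finset.sum_congr rfl fun j _ => by ring

lemma norm_cov_le (hJ : Ctl Λ c J B) (s : ℝ) (Y : Fin n → ℝ) : ‖cov J s Y‖ ≤ 1 + ‖fMat J s Y‖ := by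
  rw [StepProof.cov_eq hJ s Y]
  refine (norm_add_le _ _).trans (add_le_add (StepProof.norm_dMat_le hJ s Y) ?_)
  calc ‖dMat (mean J s Y) * fMat J s Y * dMat (mean J s Y)‖
      ≤ ‖dMat (mean J s Y)‖ * ‖fMat J s Y‖ * ‖dMat (mean J s Y)‖ :=
        (norm_mul_le _ _).trans (mul_le_mul_of_nonneg_right (norm_mul_le _ _) (norm_nonneg _))
    _ ≤ 1 * ‖fMat J s Y‖ * 1 := by
        gcongr <;> exact StepProof.norm_dMat_le hJ s Y
    _ = _ := by ring

lemma varW_le (hJ : Ctl Λ c J B) (s : ℝ) (Y v : Fin n → ℝ) :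
    varW ((1 - s) • J) Y (linF v) ≤ (1 + ‖fMat J s Y‖) * ∑ i, v i ^ 2 := by
  rw [varW_linF]
  have h := OpNorm.opLe_iff_norm_le.2 (norm_cov_le hJ s Y)
  refine (le_abs_self _).trans ((abs_dot_le_nrm v (cov J s Y *ᵥ v)).trans ?_)
  have h2 : nrm (cov J s Y *ᵥ v) ≤ (1 + ‖fMat J s Y‖) * nrm v := by
    rw [OpNorm.nrm_eq, OpNorm.nrm_eq, ← Real.sqrt_sq h.1, ← Real.sqrt_mul (sq_nonneg _)]
    exact Real.sqrt_le_sqrt (h.2 v)
  calc nrm v * nrm (cov J s Y *ᵥ v) ≤ nrm v * ((1 + ‖fMat J s Y‖) * nrm v) :=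
        mul_le_mul_of_nonneg_left h2 (nrm_nonneg v)
    _ = (1 + ‖fMat J s Y‖) * nrm v ^ 2 := by ring
    _ = _ := by rw [nrm, Real.sq_sqrt (Finset.sum_nonneg fun i _ => sq_nonneg _)]

/-- `1 - m²` is at least `exp(-2 (|y|_∞ + Λ √n))` -/
lemma one_sub_sq_ge (hJ : Ctl Λ c J B) {s Ys : ℝ} (hs : s ∈ Set.Icc (0 : ℝ) 1) (Y : Fin n → ℝ)
    (hY : ∀ i, |Y i| ≤ Ys) (i : Fin n) :
    Real.exp (-(2 * (Ys + Λ * Real.sqrt n))) ≤ 1 - mean J s Y i ^ 2 := by
  have hΛ : 0 ≤ Λ := le_trans (add_nonneg (norm_nonneg _) (abs_nonneg _)) hJ.op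
  have h0 : 0 ≤ Λ * Real.sqrt n := by positivity
  set a := |Y i| + |1 - s| * (Λ * Real.sqrt n)
  have ha : a ≤ Ys + Λ * Real.sqrt n := by
    refine add_le_add (hY i) (mul_le_of_le_one_left h0 ?_)
    rw [abs_of_nonneg (by linarith [hs.2])]; linarith [hs.1]
  have ha0 : 0 ≤ a := by positivity
  have hm : mean J s Y i ^ 2 ≤ Real.tanh a ^ 2 := by
    rw [← sq_abs (mean J s Y i)]
    exact pow_le_pow_left₀ (abs_nonneg _) (StepProof.abs_mean_le hJ s Y i) 2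
  calc Real.exp (-(2 * (Ys + Λ * Real.sqrt n))) ≤ Real.exp (-(2 * |a|)) := by
        rw [abs_of_nonneg ha0]; exact Real.exp_le_exp.2 (by linarith)
    _ ≤ 1 - Real.tanh a ^ 2 := (FB.sech_bounds a).1
    _ ≤ _ := by linarith

lemma mem_thick_add {W : Set (Fin n → ℝ)} {Z v : Fin n → ℝ} {a b : ℝ} (hZ : Z ∈ thick W a)
    (hv : nrm v ≤ b) : Z + v ∈ thick W (a + b) := by
  obtain ⟨w, hw, hlt⟩ := hZ
  refine ⟨w, hw, lt_of_le_of_lt ?_ (add_lt_add_of_lt_of_le hlt hv)⟩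
  refine le_trans (le_of_eq ?_) (nrm_add_le _ _)
  congr 1; funext i; simp [Pi.add_apply]; ring

lemma thick_mono {W : Set (Fin n → ℝ)} {a b : ℝ} (h : a ≤ b) : thick W a ⊆ thick W b :=
  fun _ ⟨w, hw, hlt⟩ => ⟨w, hw, hlt.trans_le h⟩

/-- monotonicity of a weak Poincaré inequality -/
lemma wp_mono {K : Matrix (Fin n) (Fin n) ℝ} {b : Fin n → ℝ} {P P' e e' : ℝ} (h : WP K b P e)
    (hP : P ≤ P') (he : e ≤ e') : WP K b P' e' := fun f M hM =>
  (h f M hM).trans (add_le_add (mul_le_mul_of_nonneg_right hP (VarBlockAux.dir_nonneg _ _ _))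
    (mul_le_mul_of_nonneg_right he (sq_nonneg M)))

end Vale.Agent.P150.PartB.Ind
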