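import Vale.Agent.P150.Fast.PartB.MacroSpec
import Vale.Agent.P150.Fast.PartB.InductionTools

/-!
# P150, Part B: the invariant at time one (`MacroBase`)
-/

open MeasureTheory Matrix
open scoped Matrix.Norms.L2Operator

namespace Vale.Agent.P150.PartB.Macro

variable {n : ℕ}

/-- at time one the Jacobian is `diag (1/(1-m²))` -/
lemma coer_one {a β : ℝ} (ha : a ≤ 1) (J : Matrix (Fin n) (Fin n) ℝ) {m : Fin n → ℝ}
    (hm : ∀ i, |m i| < 1) : Coer a β 1 J m := by
  intro v
  have e : kHat β 1 J m = diagonal fun i => 1 / (1 - m i ^ 2) := by simp [kHat, vMat, aCoef]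
  rw [e, Finset.mul_sum]
  refine Finset.sum_le_sum fun i _ => ?_
  rw [Matrix.mulVec_diagonal]
  have h : 0 < 1 - m i ^ 2 := by have := (sq_lt_one_iff_abs_lt_one _).2 (hm i); linarith
  have h1 : a ≤ 1 / (1 - m i ^ 2) := by
    rw [le_div_iff₀ h]
    rcases le_total a 0 with ha0 | ha0
    · exact (mul_nonpos_of_nonpos_of_nonneg ha0 h.le).trans zero_le_one
    · exact mul_le_one₀ ha h.le (by linarith [sq_nonneg (m i)])
  calc a * v i ^ 2 ≤ 1 / (1 - m i ^ 2) * v i ^ 2 := mul_le_mul_of_nonneg_right h1 (sq_nonneg _)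
    _ = _ := by ring

/-- The invariant holds at time one. -/
theorem macroBase : MacroBase := by
  intro β c Λ η L₀ P KV KF K ε ρ Lk c₀ ε₂ κ N n J B cand hS W hW Y hY
  obtain ⟨hWP, hvar, hmean, -, hF, hH, hres⟩ := productBase n β J Y hS.ctl.diag
  have hm : ∀ i, |mean J 1 Y i| < 1 := fun i => by rw [hmean]; exact Ising.tanh_abs_lt _
  have hco : Coer (η / 2) β 1 J (mean J 1 Y) := coer_one (by linarith [hS.eta.1, hS.eta.2]) J hm
  have hL := hS.con.hbound n J B hS.ctl 1 (Set.right_mem_Icc.2 zero_le_one) _ hm hco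
  refine ⟨fun v => (hvar v).trans (le_mul_of_one_le_left (Finset.sum_nonneg fun i _ => sq_nonneg _)
      (by linarith [norm_nonneg (hMat β 1 J (mean J 1 Y))])), ?_, hco, ?_, ?_, ?_, ?_⟩
  · rw [show KV * (L₀ + 1) * (1 - 1) = 0 by ring, Real.exp_zero]; exact hWP
  · obtain ⟨w, hw, hlt⟩ := hY
    set z := cand 1 w
    have hsn := Real.sqrt_nonneg (n : ℝ)
    have hres' : nrm (fun i => z i - w i) ≤ η * ρ / 8 * Real.sqrt n := by
      refine le_trans (le_of_eq ?_) (hW w hw).res
      congr 1; funext i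
      simp [tapRes, aCoef, z]
    have h1 : nrm (fun i => mean J 1 Y i - Real.tanh (z i)) ≤
        nrm (fun i => Y i - w i) + nrm fun i => z i - w i := by
      rw [hmean, Ind.nrm_comm z w]
      exact (Ind.nrm_mono fun i => Ind.tanh_lip _ _).trans (Ind.nrm_tri Y w z)
    have hL1 := hS.candLip 1 (Set.right_mem_Icc.2 zero_le_one) 1 (Set.right_mem_Icc.2 zero_le_one) w Y
    rw [sub_self, abs_zero, zero_mul, zero_add, Ind.nrm_comm w Y] at hL1
    refine (Ind.nrm_tri _ (fun i => Real.tanh (z i)) _).trans ?_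
    refine (add_le_add (h1.trans (add_le_add hlt.le hres'))
      (hL1.trans (mul_le_mul_of_nonneg_left hlt.le hS.lip.le))).trans ?_
    have hr : 0 ≤ Par.rmax K ε₂ (1 / N) := by
      have hK : 0 ≤ K := zero_le_one.trans hS.con.one
      have := hS.epos.2
      simp only [Par.rmax, Par.pmax]; positivity
    have hk : 0 ≤ Par.kmax N κ := by
      have := hS.kappa
      simp only [Par.kmax]; positivity
    have h2 : Par.kmax N κ ≤ (Par.kmax N κ + Par.rmax K ε₂ (1 / N)) / η := by
      rw [le_div_iff₀ hS.eta.1]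
      exact (mul_le_of_le_one_right hk hS.eta.2).trans (le_add_of_nonneg_right hr)
    have h3 : η * ρ / 8 ≤ ρ / 8 :=
      div_le_div_of_nonneg_right (mul_le_of_le_one_left hS.rho.le hS.eta.2) (by norm_num)
    have h4 := mul_le_mul_of_nonneg_right
      (show Par.kmax N κ + η * ρ / 8 + Lk * Par.kmax N κ ≤ ρ / 4 by linarith [hS.ok.centre]) hsn
    refine le_trans (le_of_eq ?_) h4
    simp only [Par.kmax]; ring
  · rw [hF, hH, sub_zero, norm_zero]
  · rw [hF, hH, sub_zero]; simp [fnrm]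
  · rw [hres]; simp [nrm]

end Vale.Agent.P150.PartB.Macro
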