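import Vale.Agent.P150.Fast.PartB.ParamsSpec

/-!
# P150, Part B: choice of the scalar parameters

`ε₀` comes from `dmax`, then `ε₂` is small against `ρ, c₀, η`, then the blocks are short, then the
shift step is small; afterwards every condition on the dimension holds eventually.
-/

open Filter Topology

noncomputable section

namespace Vale.Agent.P150.PartB.Par

lemma ysup_div_tendsto : Tendsto (fun n : ℕ => (ysup n + 1) / n) atTop (𝓝 0) := by
  have h1 : Tendsto (fun n : ℕ => (n : ℝ) ^ (-(2 / 5) : ℝ)) atTop (𝓝 0) :=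
    (tendsto_rpow_neg_atTop (by norm_num : (0 : ℝ) < 2 / 5)).comp tendsto_natCast_atTop_atTop
  have h2 : Tendsto (fun n : ℕ => (n : ℝ) ^ (-(1 / 2) : ℝ)) atTop (𝓝 0) :=
    (tendsto_rpow_neg_atTop (by norm_num : (0 : ℝ) < 1 / 2)).comp tendsto_natCast_atTop_atTop
  have h3 := tendsto_const_div_atTop_nhds_zero_nat (1 : ℝ)
  have hsum := (h1.add h2).add h3
  simp only [add_zero] at hsum
  refine hsum.congr' ?_
  filter_upwards [eventually_gt_atTop 0] with n hn
  have hn' : (0 : ℝ) < n := Nat.cast_pos.2 hn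
  rw [ysup, Real.sqrt_eq_rpow, add_div, add_div]
  congr 1
  congr 1
  · rw [show (-(2 / 5) : ℝ) = 3 / 5 - 1 by norm_num, Real.rpow_sub hn', Real.rpow_one]
  · rw [show (-(1 / 2) : ℝ) = 1 / 2 - 1 by norm_num, Real.rpow_sub hn', Real.rpow_one]

lemma sqrt_le_ysup (n : ℕ) : Real.sqrt n ≤ ysup n + 1 := by
  have : 0 ≤ (n : ℝ) ^ (3 / 5 : ℝ) := by positivity
  unfold ysup
  linarith

lemma one_le_ysup_add_one (n : ℕ) : 1 ≤ ysup n + 1 := by
  have : 0 ≤ ysup n := by unfold ysup; positivity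
  linarith

/-- a negative rate beats every polynomial and every sublinear exponent -/
lemma eventually_exp_le {a : ℝ} (ha : a < 0) (b : ℝ) (j : ℕ) {δ : ℝ} (hδ : 0 < δ) :
    ∀ᶠ n : ℕ in atTop, (n + 2 : ℝ) ^ j * Real.exp (a * n + b * (ysup n + 1)) ≤ δ := by
  set r := Real.exp (a / 2) with hr
  have hr1 : r < 1 := Real.exp_lt_one_iff.2 (by linarith)
  have hgeo := tendsto_pow_const_mul_const_pow_of_lt_one j (Real.exp_pos (a / 2)).le hr1
  have hb := ysup_div_tendsto.const_mul b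
  rw [mul_zero] at hb
  filter_upwards [hb.eventually_le_const (show 0 < -a / 2 by linarith),
    hgeo.eventually_le_const (show 0 < δ / 3 ^ j by positivity), eventually_gt_atTop 0]
    with n hn1 hn2 hn
  have hn' : (0 : ℝ) < n := Nat.cast_pos.2 hn
  rw [← mul_div_assoc, div_le_iff₀ hn'] at hn1
  have he : Real.exp (a * n + b * (ysup n + 1)) ≤ r ^ n := by
    rw [hr, ← Real.exp_nat_mul]
    exact Real.exp_le_exp.2 (by linarith)
  have hp : (n + 2 : ℝ) ^ j ≤ 3 ^ j * (n : ℝ) ^ j := by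
    rw [← mul_pow]
    have : (1 : ℝ) ≤ n := Nat.one_le_cast.2 hn
    exact pow_le_pow_left₀ (by positivity) (by linarith) j
  calc (n + 2 : ℝ) ^ j * Real.exp (a * n + b * (ysup n + 1))
      ≤ 3 ^ j * (n : ℝ) ^ j * r ^ n := mul_le_mul hp he (Real.exp_pos _).le (by positivity)
    _ = 3 ^ j * ((n : ℝ) ^ j * r ^ n) := by ring
    _ ≤ 3 ^ j * (δ / 3 ^ j) := mul_le_mul_of_nonneg_left hn2 (by positivity)
    _ = δ := by field_simp

section Constants

variable {K Λ η ε ρ Lk c₀ : ℝ}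

lemma exists_ok (hK : 1 ≤ K) (hΛ : 0 < Λ) (hη : 0 < η) (hε : 0 < ε)
    (hεe : ε * (4 * K * Real.exp K) ≤ 1) (hρ : 0 < ρ) (hc : 0 < c₀) :
    ∃ ε₂ > 0, ∃ N : ℕ, 0 < N ∧ ∃ κ : ℝ, 0 < κ ∧ Ok K Λ η ε ρ Lk c₀ ε₂ κ N := by
  have hK0 : 0 < K := by linarith
  set q : ℝ := 1000 * (K * (K + 1)) with hq
  have hq0 : 0 < q := by positivity
  -- a target for the modulus
  set δ : ℝ := min (min (1 / 4) (ρ / 24)) (min 1 (c₀ / (64 * q))) with hδ
  have hδ0 : 0 < δ := by positivity
  -- the candidate `ε₂`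
  have c1 : Continuous fun e => modR K Λ η e 0 0 := by
    unfold modR dist land rmax pmax; fun_prop
  have m0 : modR K Λ η 0 0 0 = 0 := by simp [modR, dist, land, rmax, pmax]
  have cr : Continuous fun e => rmax K e 0 := by unfold rmax pmax; fun_prop
  have r0 : rmax K 0 0 = 0 := by simp [rmax, pmax]
  have cp : Continuous fun e => pmax K e 0 := by unfold pmax; fun_prop
  have p0 : pmax K 0 0 = 0 := by simp [pmax]
  have ev1 : ∀ᶠ e in 𝓝[>] (0 : ℝ), (modR K Λ η e 0 0 < δ ∧ rmax K e 0 / η < ρ / 8 ∧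
      pmax K e 0 < 1 ∧ e < 1) := by
    refine nhdsWithin_le_nhds ?_
    have t2 := (cr.div_const η).tendsto 0
    simp only [r0, zero_div] at t2
    exact ((c1.tendsto 0).eventually_lt_const (by rw [m0]; exact hδ0)).and
      ((t2.eventually_lt_const (show 0 < ρ / 8 by positivity)).and
        (((cp.tendsto 0).eventually_lt_const (by rw [p0]; exact one_pos)).and
          (eventually_lt_nhds one_pos)))
  obtain ⟨ε₂, ⟨he1, he2, he3, he4⟩, hε₂⟩ := (ev1.and self_mem_nhdsWithin).exists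
  refine ⟨ε₂, hε₂, ?_⟩
  -- short blocks
  have th : Tendsto (fun N : ℕ => (1 / N : ℝ)) atTop (𝓝 0) :=
    tendsto_const_div_atTop_nhds_zero_nat 1
  have hd0 : dmax K ε 0 < 1 / 2 := by
    have : dmax K ε 0 = ε * (K * Real.exp K) := by simp [dmax]; ring
    rw [this]
    linarith
  have f1 : Continuous fun h => modR K Λ η ε₂ h 0 := by unfold modR dist land rmax pmax; fun_prop
  have f2 : Continuous fun h => rmax K ε₂ h / η := by unfold rmax pmax; fun_prop
  have f3 : Continuous fun h => pmax K ε₂ h := by unfold pmax; fun_prop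
  have f4 : Continuous fun h => dmax K ε h := by unfold dmax; fun_prop
  have f5 : Continuous fun h => land Λ h := by unfold land; fun_prop
  have f6 : Continuous fun h => Lk * (h + dist Λ h 0) := by unfold dist land; fun_prop
  have f7 : Continuous fun h => K * (K + 1) * h + K * h := by fun_prop
  have ε1 : ε < 1 := by
    have : (1 : ℝ) ≤ Real.exp K := Real.one_le_exp hK0.le
    have h1 : (1 : ℝ) ≤ K * Real.exp K := by nlinarith
    nlinarith [mul_le_mul_of_nonneg_left h1 hε.le]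
  have ev2 : ∀ᶠ N : ℕ in atTop, modR K Λ η ε₂ (1 / N) 0 < δ ∧ rmax K ε₂ (1 / N) / η < ρ / 8 ∧
      pmax K ε₂ (1 / N) < 1 ∧ dmax K ε (1 / N) < 1 ∧ land Λ (1 / N) < 1 ∧
      Lk * (1 / N + dist Λ (1 / N) 0) < ρ / 2 ∧
      K * (K + 1) * (1 / N : ℝ) + K * (1 / N : ℝ) < min (η / 4) (min (1 - ε) (1 - ε₂)) ∧ 0 < N := by
    have a1 := ((f1.tendsto 0).comp th).eventually_lt_const he1
    have a2 := ((f2.tendsto 0).comp th).eventually_lt_const he2
    have a3 := ((f3.tendsto 0).comp th).eventually_lt_const he3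
    have a4 := ((f4.tendsto 0).comp th).eventually_lt_const (show dmax K ε 0 < 1 by linarith)
    have a5 := ((f5.tendsto 0).comp th).eventually_lt_const (show land Λ 0 < 1 by simp [land])
    have a6 := ((f6.tendsto 0).comp th).eventually_lt_const
      (show Lk * (0 + dist Λ 0 0) < ρ / 2 by simp [dist, land]; positivity)
    have a7 := ((f7.tendsto 0).comp th).eventually_lt_const
      (show K * (K + 1) * 0 + K * 0 < min (η / 4) (min (1 - ε) (1 - ε₂)) by
        simp only [mul_zero, add_zero, lt_min_iff]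
        exact ⟨by linarith, by linarith, by linarith⟩)
    exact a1.and (a2.and (a3.and (a4.and (a5.and (a6.and (a7.and (eventually_gt_atTop 0)))))))
  obtain ⟨N, b1, b2, b3, b4, b5, b6, b7, hN⟩ := ev2.exists
  refine ⟨N, hN, ?_⟩
  set h : ℝ := 1 / N with hh
  have hh0 : 0 < h := by
    have : (0 : ℝ) < N := Nat.cast_pos.2 hN
    positivity
  -- a small shift
  have g1 : Continuous fun k => modR K Λ η ε₂ h k := by unfold modR dist land; fun_prop
  have g2 : Continuous fun k => kmax N k + land Λ h := by unfold kmax; fun_prop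
  have g3 : Continuous fun k => Lk * (h + dist Λ h k + 3 * kmax N k) := by
    unfold dist kmax; fun_prop
  have g4 : Continuous fun k => (kmax N k + rmax K ε₂ h) / η + Lk * kmax N k := by
    unfold kmax; fun_prop
  have g5 : Continuous fun k => 2 * kmax N k + 3 * k := by unfold kmax; fun_prop
  have ev3 : ∀ᶠ k in 𝓝[>] (0 : ℝ), modR K Λ η ε₂ h k < δ ∧ kmax N k + land Λ h < 1 ∧
      Lk * (h + dist Λ h k + 3 * kmax N k) < ρ / 2 ∧
      (kmax N k + rmax K ε₂ h) / η + Lk * kmax N k < ρ / 8 ∧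
      2 * kmax N k + 3 * k < c₀ * h / 32 := by
    refine nhdsWithin_le_nhds ?_
    exact ((g1.tendsto 0).eventually_lt_const b1).and
      (((g2.tendsto 0).eventually_lt_const (show kmax N 0 + land Λ h < 1 by
          simpa [kmax] using b5)).and
      (((g3.tendsto 0).eventually_lt_const
          (show Lk * (h + dist Λ h 0 + 3 * kmax N 0) < ρ / 2 by simpa [kmax] using b6)).and
      (((g4.tendsto 0).eventually_lt_const
          (show (kmax N 0 + rmax K ε₂ h) / η + Lk * kmax N 0 < ρ / 8 by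
            simpa [kmax] using b2)).and
      ((g5.tendsto 0).eventually_lt_const
          (show 2 * kmax N 0 + 3 * 0 < c₀ * h / 32 by simp [kmax]; positivity)))))
  obtain ⟨κ, ⟨d1, d2, d3, d4, d5⟩, hκ⟩ := (ev3.and self_mem_nhdsWithin).exists
  replace hκ : 0 < κ := hκ
  have hpos : 0 < modR K Λ η ε₂ h κ := by
    have h1 : 0 ≤ rmax K ε₂ h := by
      have : 0 < ε₂ := hε₂
      unfold rmax pmax; positivity
    have h2 : 0 < dist Λ h κ := by unfold dist land; positivity
    unfold modR; positivity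
  refine ⟨κ, hκ, ?_⟩
  have hδ1 : δ ≤ 1 / 4 := (min_le_left _ _).trans (min_le_left _ _)
  have hδ2 : δ ≤ ρ / 24 := (min_le_left _ _).trans (min_le_right _ _)
  have hδ3 : δ ≤ 1 := (min_le_right _ _).trans (min_le_left _ _)
  have hδ4 : δ ≤ c₀ / (64 * q) := (min_le_right _ _).trans (min_le_right _ _)
  have hkk : 0 ≤ kmax N κ := by unfold kmax; positivity
  have hK1 : 0 ≤ K * (K + 1) * h := by positivity
  have hKh : 0 ≤ K * h := by positivity
  simp only [lt_min_iff] at b7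
  obtain ⟨b7a, b7b, b7c⟩ := b7
  refine ⟨?_, ?_, ?_, ?_, b4.le, b3.le, ?_, hpos, d2.le, ?_, d4.le, ?_, ?_⟩
  all_goals rw [← hh]
  · have : (0 : ℝ) < ε₂ := hε₂
    linarith
  · linarith
  · linarith
  · linarith
  · linarith
  · linarith
  · linarith [mul_pos hc hh0]
  · have hsq : modR K Λ η ε₂ h κ ^ 2 ≤ δ := by nlinarith
    have h1 : 1000 * modR K Λ η ε₂ h κ ^ 2 * (K * (K + 1)) ≤ q * δ := by
      calc 1000 * modR K Λ η ε₂ h κ ^ 2 * (K * (K + 1))
          = q * modR K Λ η ε₂ h κ ^ 2 := by rw [hq]; ring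
        _ ≤ q * δ := mul_le_mul_of_nonneg_left hsq hq0.le
    have h2 : q * δ ≤ c₀ / 64 := by
      calc q * δ ≤ q * (c₀ / (64 * q)) := mul_le_mul_of_nonneg_left hδ4 hq0.le
        _ = c₀ / 64 := by field_simp
    have h3 := mul_le_mul_of_nonneg_right (h1.trans h2) hh0.le
    linarith only [h3, d5, hkk, mul_pos hc hh0]

lemma amp_eq {ε₂ κ h : ℝ} (n : ℕ) :
    amp K Λ η ε₂ h κ n = (n + 2 : ℝ) ^ 9 *
      Real.exp ((3 * κ + 1000 * modR K Λ η ε₂ h κ ^ 2 * (K * (K + 1)) * h) * n +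
        2 * K * (K + 1) * h) := by
  unfold amp cap thV
  rw [Real.exp_neg, div_inv_eq_mul, mul_assoc, ← Real.exp_add]
  congr 2
  ring

/-- the two terms of `wp` -/
lemma wp_le {ε₂ κ : ℝ} {N n : ℕ} (hK : 1 ≤ K) (A : ℝ)
    (hA : A = 3 * κ + 1000 * modR K Λ η ε₂ (1 / N) κ ^ 2 * (K * (K + 1)) * (1 / N : ℝ))
    (t1 : K * (N * K ^ N * (K + 1)) * ((n + 2 : ℝ) ^ 9 *
      Real.exp ((A + 2 * kmax N κ + -(c₀ * (1 / N : ℝ) / 2)) * n +
        ((K + 4) * K + 2 * K * (K + 1) * (1 / N : ℝ)) * (ysup n + 1))) ≤ 1 / 2)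
    (t2 : (K + 1) * ((n + 2 : ℝ) ^ 9 *
      Real.exp ((A + -(c₀ * (1 / N : ℝ) / 4)) * n +
        ((K + 4) * K + 2 * K * (K + 1) * (1 / N : ℝ)) * (ysup n + 1))) ≤ 1 / 2) :
    (K * errMax K Λ η ε₂ c₀ κ N n +
      (K + 1) * amp K Λ η ε₂ (1 / N) κ n *
        (Real.exp (2 * K * Real.sqrt n) * th2 c₀ (1 / N) n)) *
      Real.exp (K * (ysup n + K + Real.sqrt n + 1)) ≤ 1 := by
  have hK0 : 0 < K := by linarith only [hK]
  have hys := sqrt_le_ysup n
  have hy1 := one_le_ysup_add_one n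
  set y : ℝ := ysup n + 1
  have hC : K * (ysup n + K + Real.sqrt n + 1) ≤ (K + 2) * K * y := by
    have h1 : K * Real.sqrt n ≤ K * y := mul_le_mul_of_nonneg_left hys hK0.le
    have h2 : K * K * 1 ≤ K * K * y := mul_le_mul_of_nonneg_left hy1 (by positivity)
    linarith only [h1, h2, show ysup n + 1 = y from rfl,
      show K * (ysup n + K + Real.sqrt n + 1) = K * y + K * K + K * Real.sqrt n by
        simp only [y]; ring]
  have hE : 0 ≤ 2 * K * (K + 1) * (1 / N : ℝ) := by positivity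
  have hEy : 2 * K * (K + 1) * (1 / N : ℝ) ≤ 2 * K * (K + 1) * (1 / N : ℝ) * y :=
    le_mul_of_one_le_right hE hy1
  have hKy : 2 * K * Real.sqrt n ≤ 2 * K * y := mul_le_mul_of_nonneg_left hys (by positivity)
  have hKy0 : 0 ≤ K * y := by positivity
  set E : ℝ := 2 * K * (K + 1) * (1 / N : ℝ)
  have hS1 : A * n + E + (2 * kmax N κ * n + -(c₀ * (1 / N : ℝ) / 2 * n)) +
      K * (ysup n + K + Real.sqrt n + 1) ≤
      (A + 2 * kmax N κ + -(c₀ * (1 / N : ℝ) / 2)) * n + ((K + 4) * K + E) * y := by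
    linarith only [hC, hEy, hKy0]
  have hS2 : A * n + E + (2 * K * Real.sqrt n + -(c₀ * (1 / N : ℝ) / 4 * n)) +
      K * (ysup n + K + Real.sqrt n + 1) ≤
      (A + -(c₀ * (1 / N : ℝ) / 4)) * n + ((K + 4) * K + E) * y := by
    linarith only [hC, hEy, hKy]
  have hP : 0 ≤ K * (N * K ^ N * (K + 1)) := by positivity
  have hp9 : (0 : ℝ) ≤ (n + 2 : ℝ) ^ 9 := by positivity
  have k1 := (mul_le_mul_of_nonneg_left
    (mul_le_mul_of_nonneg_left (Real.exp_le_exp.2 hS1) hp9) hP).trans t1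
  have k2 := (mul_le_mul_of_nonneg_left
    (mul_le_mul_of_nonneg_left (Real.exp_le_exp.2 hS2) hp9)
    (by positivity : (0 : ℝ) ≤ K + 1)).trans t2
  simp only [Real.exp_add] at k1 k2
  have e : amp K Λ η ε₂ (1 / N) κ n = (n + 2 : ℝ) ^ 9 * (Real.exp (A * n) * Real.exp E) := by
    rw [amp_eq, ← Real.exp_add, hA]
  unfold errMax thr th2
  rw [e]
  linarith only [k1, k2]

lemma eventually_okN (hK : 1 ≤ K) (hΛ : 0 < Λ) {ε₂ κ : ℝ} {N : ℕ} (hN : 0 < N) (hκ : 0 < κ)
    (hc : 0 < c₀) (ok : Ok K Λ η ε ρ Lk c₀ ε₂ κ N) :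
    ∀ᶠ n : ℕ in atTop, OkN K Λ η c₀ ε₂ κ N n := by
  have hN' : (0 : ℝ) < N := Nat.cast_pos.2 hN
  have hch : 0 < c₀ * (1 / N : ℝ) := by positivity
  have hm0 : 0 < modR K Λ η ε₂ (1 / N) κ := ok.rpos
  have hK0 : 0 < K := by linarith only [hK]
  set A : ℝ := 3 * κ + 1000 * modR K Λ η ε₂ (1 / N) κ ^ 2 * (K * (K + 1)) * (1 / N : ℝ) with hA
  set S : ℝ := (K + 4) * K + 2 * K * (K + 1) * (1 / N : ℝ) with hS
  have rate : A ≤ c₀ * (1 / N : ℝ) / 16 := ok.rate
  have shift := ok.shift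
  have hκ' : 3 * κ ≤ A := by
    rw [hA]; exact le_add_of_nonneg_right (by positivity)
  have hP : 0 < K * (N * K ^ N * (K + 1)) := by positivity
  have hcast := tendsto_natCast_atTop_atTop (R := ℝ)
  have e_tail := eventually_exp_le (show (-1 : ℝ) < 0 by norm_num) 0 0
    (lt_min hm0 (show (0 : ℝ) < 1 / 4 by norm_num))
  have e_land := eventually_exp_le
    (show -(c₀ * (1 / N : ℝ) / 4) < 0 by linarith only [hch]) 0 0
    (show (0 : ℝ) < 1 / 4 by norm_num)
  have e_shift := eventually_exp_le (show -κ < 0 by linarith only [hκ]) 0 0 hm0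
  have e_cap := eventually_exp_le
    (show -(κ * modR K Λ η ε₂ (1 / N) κ) < 0 by linarith only [mul_pos hκ hm0]) 0 1
    (show 0 < 1 / (8 * (1 + 2 / modR K Λ η ε₂ (1 / N) κ)) by positivity)
  have e_zone := eventually_exp_le
    (show -(c₀ * (1 / N : ℝ) / 4) + 3 * κ < 0 by linarith only [hκ', rate, hch]) (2 * K) 0 one_pos
  have e_wp1 := eventually_exp_le
    (show A + 2 * kmax N κ + -(c₀ * (1 / N : ℝ) / 2) < 0 by linarith only [rate, shift, hch]) S 9
    (show 0 < 1 / (2 * (K * (N * K ^ N * (K + 1)))) by positivity)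
  have e_wp2 := eventually_exp_le
    (show A + -(c₀ * (1 / N : ℝ) / 4) < 0 by linarith only [rate, hch]) S 9
    (show 0 < 1 / (2 * (K + 1)) by positivity)
  have e_deep := eventually_exp_le
    (show 2 * kmax N κ + -(c₀ * (1 / N : ℝ) / 4) < 0 by linarith only [shift, hch])
    (16 * (1 + Λ)) 20 (show 0 < (1 / N : ℝ) ^ 6 / K by positivity)
  have e_prob := eventually_exp_le (show -(c₀ / 4) < 0 by linarith only [hc]) 0 0
    (show (0 : ℝ) < 1 / (N + 1) by positivity)
  filter_upwards [eventually_gt_atTop 0, hcast.eventually_ge_atTop ((N : ℝ) ^ 2),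
    hcast.eventually_ge_atTop ((K / κ) ^ 2),
    ysup_div_tendsto.eventually_le_const (show (0 : ℝ) < 1 by norm_num),
    e_tail, e_land, e_shift, e_cap, e_zone, e_wp1, e_wp2, e_deep, e_prob]
    with n hn hnN hnK hfield t_tail t_land t_shift t_cap t_zone t_wp1 t_wp2 t_deep t_prob
  simp only [pow_zero, one_mul, zero_mul, add_zero, pow_one, neg_mul] at t_tail t_land t_shift
  simp only [zero_mul, add_zero, pow_one, neg_mul] at t_cap
  simp only [pow_zero, one_mul] at t_zone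
  simp only [pow_zero, one_mul, zero_mul, add_zero, neg_mul] at t_prob
  rw [le_min_iff] at t_tail
  have hn' : (0 : ℝ) < n := Nat.cast_pos.2 hn
  have hys := sqrt_le_ysup n
  refine
    { pos := hn
      mesh := ?_
      tail := t_tail.1
      land := ?_
      shiftR := t_shift
      capTail := ?_
      small := ?_
      zone := ?_
      wp := wp_le hK A hA ?_ ?_
      field := ?_
      deep := ?_
      deep' := ?_
      prob := ?_ }
  · rw [one_div, one_div]
    exact inv_anti₀ hN' ((Real.le_sqrt' hN').2 hnN)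
  · unfold th2
    linarith only [t_tail.2, t_land]
  · have h2 : (n : ℝ) * Real.exp (-(κ * modR K Λ η ε₂ (1 / N) κ * n)) ≤
        1 / (8 * (1 + 2 / modR K Λ η ε₂ (1 / N) κ)) :=
      le_trans (mul_le_mul_of_nonneg_right (le_add_of_nonneg_right zero_le_two)
        (Real.exp_pos _).le) t_cap
    calc _ = 8 * (1 + 2 / modR K Λ η ε₂ (1 / N) κ) *
          (n * Real.exp (-(κ * modR K Λ η ε₂ (1 / N) κ * n))) := by ring
      _ ≤ 8 * (1 + 2 / modR K Λ η ε₂ (1 / N) κ) *
          (1 / (8 * (1 + 2 / modR K Λ η ε₂ (1 / N) κ))) :=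
          mul_le_mul_of_nonneg_left h2 (by positivity)
      _ = 1 := mul_one_div_cancel (by positivity)
  · have h1 : K / κ ≤ Real.sqrt n := (Real.le_sqrt' (by positivity)).2 hnK
    rw [div_le_iff₀ hκ] at h1
    linarith only [h1]
  · unfold th2 thV
    rw [← Real.exp_add, Real.exp_le_exp]
    have h1 := Real.exp_le_one_iff.1 t_zone
    have h2 : 2 * K * Real.sqrt n ≤ 2 * K * (ysup n + 1) :=
      mul_le_mul_of_nonneg_left hys (by positivity)
    linarith only [h1, h2]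
  · calc K * (N * K ^ N * (K + 1)) * _
        ≤ K * (N * K ^ N * (K + 1)) * (1 / (2 * (K * (N * K ^ N * (K + 1))))) :=
          mul_le_mul_of_nonneg_left t_wp1 hP.le
      _ = 1 / 2 := by field_simp
  · calc (K + 1) * _ ≤ (K + 1) * (1 / (2 * (K + 1))) :=
          mul_le_mul_of_nonneg_left t_wp2 (by positivity)
      _ = 1 / 2 := by field_simp
  · rw [div_le_iff₀ hn', one_mul] at hfield
    exact hfield
  · unfold thr th2 low
    rw [← Real.exp_add, ← Real.exp_nat_mul]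
    have hΛy : Λ * Real.sqrt n ≤ Λ * (ysup n + 1) := mul_le_mul_of_nonneg_left hys hΛ.le
    have hle : 2 * kmax N κ * n + -(c₀ * (1 / N : ℝ) / 2 * n) ≤
        (2 * kmax N κ + -(c₀ * (1 / N : ℝ) / 4)) * n + 16 * (1 + Λ) * (ysup n + 1) +
          (-(c₀ * (1 / N : ℝ) / 4 * n) + (8 : ℕ) * -(2 * (ysup n + Λ * Real.sqrt n))) := by
      push_cast
      linarith only [hΛy]
    have hexp := Real.exp_le_exp.2 hle
    rw [Real.exp_add, Real.exp_add, Real.exp_add (-(c₀ * (1 / N : ℝ) / 4 * n))] at hexp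
    have h3 := mul_le_mul_of_nonneg_left t_deep hK0.le
    rw [show K * ((1 / N : ℝ) ^ 6 / K) = (1 / N : ℝ) ^ 6 by field_simp] at h3
    rw [Real.exp_add]
    refine le_trans (mul_le_mul_of_nonneg_right hexp (by positivity)) ?_
    refine le_trans (le_of_eq ?_) (le_trans (mul_le_mul_of_nonneg_right h3
      (show 0 ≤ Real.exp (-(c₀ * (1 / N : ℝ) / 4 * n)) *
        Real.exp ((8 : ℕ) * -(2 * (ysup n + Λ * Real.sqrt n))) by positivity)) (le_of_eq ?_))
    · ring
    · ring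
  · unfold thr th2
    rw [← Real.exp_add, Real.exp_le_exp]
    have := mul_le_mul_of_nonneg_right
      (show 2 * kmax N κ ≤ c₀ * (1 / N : ℝ) / 4 by linarith only [shift, hch]) hn'.le
    linarith only [this]
  · have h1 : (N + 1 : ℝ) * Real.exp (-(c₀ / 4 * n)) ≤ 1 := by
      rw [mul_comm]
      exact (le_div_iff₀ (by positivity)).1 t_prob
    calc (N + 1 : ℝ) * Real.exp (-(c₀ / 2 * n))
        = (N + 1 : ℝ) * Real.exp (-(c₀ / 4 * n)) * Real.exp (-(c₀ / 4 * n)) := by
          rw [mul_assoc, ← Real.exp_add]; ring_nf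
      _ ≤ 1 * Real.exp (-(c₀ / 4 * n)) := mul_le_mul_of_nonneg_right h1 (Real.exp_pos _).le
      _ = _ := one_mul _

end Constants

theorem parExists : Exists := by
  intro K Λ η hK hΛ hη _
  refine ⟨1 / (4 * K * Real.exp K), by positivity, fun ε hε hle ρ Lk c₀ hρ _ hc => ?_⟩
  have hεe : ε * (4 * K * Real.exp K) ≤ 1 := (le_div_iff₀ (by positivity)).1 hle
  obtain ⟨ε₂, hε₂, N, hN, κ, hκ, ok⟩ := exists_ok (Lk := Lk) hK hΛ hη hε hεe hρ hc
  obtain ⟨n₀, hn₀⟩ := eventually_atTop.1 (eventually_okN hK hΛ hN hκ hc ok)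
  exact ⟨ε₂, hε₂, N, hN, κ, hκ, ok, n₀, hn₀⟩

end Vale.Agent.P150.PartB.Par
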