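import Vale.Agent.P150.Fast.PartB.PsiLip
import Vale.Agent.P150.Fast.PartB.BlockSpec

/-!
# P150, Part B: the drift of the TAP resolvent

The second-order coefficients of `kHat` along a displacement of `m`, averaged against a covariance
`P = D p D`, give `D (psiMain + O(n^{-1/2})) D`.
-/

open Matrix Vale.Agent.P150.Fast
open scoped Matrix.Norms.L2Operator

namespace Vale.Agent.P150.PartB

namespace Drift

variable {n : ℕ}

lemma sqLin_rankOne (β t : ℝ) (m d : Fin n → ℝ) (R : Matrix (Fin n) (Fin n) ℝ) (hR : R.IsSymm) :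
    lMat β t m d * R * lMat β t m d = sqLin β t m R (vecMulVec d d) := by
  set κ := 2 * aCoef β t / n
  set A := diagonal fun j => cvec m j * d j with hA
  set G := (m ⬝ᵥ d) • (1 : Matrix (Fin n) (Fin n) ℝ) + vecMulVec m d + vecMulVec d m with hG
  have hT : Rᵀ = R := hR
  have hAT : Aᵀ = A := diagonal_transpose _
  have hGT : Gᵀ = G := by
    rw [hG, Matrix.transpose_add, Matrix.transpose_add, Matrix.transpose_smul, Matrix.transpose_one,
      transpose_vecMulVec, transpose_vecMulVec]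
    abel
  have hsymm : ∀ u w, u ⬝ᵥ R *ᵥ w = R *ᵥ u ⬝ᵥ w := fun u w => by
    rw [dotProduct_mulVec, ← Matrix.mulVec_transpose, hT]
  have hvec : ∀ u : Fin n → ℝ, u ᵥ* R = R *ᵥ u := fun u => by
    rw [← Matrix.mulVec_transpose, hT]
  have hcomm : ∀ u w, u ⬝ᵥ R *ᵥ w = w ⬝ᵥ R *ᵥ u := fun u w => by rw [hsymm, dotProduct_comm]
  have hAA : A * R * A = diagDiag m R (vecMulVec d d) := by
    ext i j
    simp only [hA, diagDiag, Matrix.diagonal_mul, Matrix.mul_diagonal, Matrix.hadamard_apply,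
      vecMulVec_apply]
    ring
  have hAG : A * R * G = diagRest m R (vecMulVec d d) := by
    ext i j
    simp only [hG, hA, diagRest, Matrix.mul_add, Matrix.mul_smul, Matrix.mul_one,
      Matrix.mul_vecMulVec, Matrix.add_apply, Matrix.smul_apply, smul_eq_mul, Matrix.diagonal_mul,
      Matrix.vecMulVec_mulVec, MulOpposite.op_smul, Pi.smul_apply, Matrix.vecMulVec_mul,
      vecMulVec_apply, ← Matrix.mulVec_mulVec, Matrix.mulVec_diagonal, hvec, dotProduct_comm d m]
    simp only [MulOpposite.smul_eq_mul_unop, MulOpposite.unop_op, Pi.smul_apply]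
    ring
  have hGA : G * R * A = (diagRest m R (vecMulVec d d))ᵀ := by
    rw [← hAG, Matrix.transpose_mul, Matrix.transpose_mul, hAT, hGT, hT, Matrix.mul_assoc]
  have hl : ∀ u v : Fin n → ℝ, vecMulVec u v * R = vecMulVec u (R *ᵥ v) := fun u v => by
    rw [Matrix.vecMulVec_mul, hvec]
  have hr : ∀ u v : Fin n → ℝ, R * vecMulVec u v = vecMulVec (R *ᵥ u) v := fun u v =>
    Matrix.mul_vecMulVec _ _ _
  have hvv : ∀ u v x y : Fin n → ℝ, vecMulVec u v * vecMulVec x y = (v ⬝ᵥ x) • vecMulVec u y := fun u v x y => by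
    ext i j
    simp only [Matrix.mul_apply, vecMulVec_apply, Matrix.smul_apply, smul_eq_mul, dotProduct, Finset.sum_mul]
    exact Finset.sum_congr rfl fun k _ => by ring
  have hPu : ∀ u, vecMulVec d d *ᵥ u = (d ⬝ᵥ u) • d := fun u => by
    ext i
    simp only [Matrix.mulVec, dotProduct, vecMulVec_apply, Pi.smul_apply, smul_eq_mul, Finset.sum_mul]
    exact Finset.sum_congr rfl fun k _ => by ring
  have hGG : G * R * G = restRest m R (vecMulVec d d) := by
    have htr : trace (R * vecMulVec d d) = R *ᵥ d ⬝ᵥ d := by rw [hr, trace_vecMulVec]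
    ext i j
    simp only [hG, restRest, htr, trace_vecMulVec, hPu, Matrix.mul_add, Matrix.add_mul, Matrix.mul_smul, Matrix.smul_mul,
      Matrix.mul_one, Matrix.one_mul, hl, hr, hvv, Matrix.mulVec_smul,
      Matrix.add_apply, Matrix.smul_apply, smul_eq_mul, Pi.smul_apply, vecMulVec_apply,
      dotProduct_smul, smul_dotProduct, ← hsymm, hcomm m d, dotProduct_comm m d]
    ring
  have e : (diagRest m R (vecMulVec d d))ᵀ = G * R * A := hGA.symm
  show (A - κ • G) * R * (A - κ • G) = _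
  rw [sqLin, e, ← hAA, ← hAG, ← hGG]
  simp only [κ, Matrix.sub_mul, Matrix.mul_sub, Matrix.smul_mul,
    Matrix.mul_smul, smul_add, smul_smul, sq]
  module

/-! ### Norm bounds -/

lemma norm_vecMulVec_le (u v : Fin n → ℝ) : ‖vecMulVec u v‖ ≤ nrm u * nrm v :=
  OpNorm.opLe_iff_norm_le.1 (OpNorm.opLe_rankOne u v)

lemma norm_diag_le {v : Fin n → ℝ} {b : ℝ} (hb : 0 ≤ b) (h : ∀ i, |v i| ≤ b) : ‖diagonal v‖ ≤ b :=
  OpNorm.opLe_iff_norm_le.1 (OpNorm.opLe_diagonal hb h)

lemma nrm_mulVec_le {X : Matrix (Fin n) (Fin n) ℝ} {x b : ℝ} {u : Fin n → ℝ} (hX : ‖X‖ ≤ x)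
    (hu : nrm u ≤ b) : nrm (X *ᵥ u) ≤ x * b := by
  have hx : 0 ≤ x := (norm_nonneg X).trans hX
  have h := Real.sqrt_le_sqrt ((OpNorm.opLe_iff_norm_le.2 hX).2 u)
  rw [Real.sqrt_mul (sq_nonneg x), Real.sqrt_sq hx] at h
  exact h.trans (mul_le_mul_of_nonneg_left hu hx)

lemma abs_le_nrm (u : Fin n → ℝ) (i : Fin n) : |u i| ≤ nrm u :=
  Real.abs_le_sqrt (Finset.single_le_sum (fun k _ => sq_nonneg (u k)) (Finset.mem_univ i))

lemma abs_dot_le_nrm {u v : Fin n → ℝ} {a b : ℝ} (hu : nrm u ≤ a) (hv : nrm v ≤ b) :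
    |u ⬝ᵥ v| ≤ a * b :=
  (OpNorm.abs_dot_le u v).trans (mul_le_mul hu hv (Real.sqrt_nonneg _) ((Real.sqrt_nonneg _).trans hu))

lemma restRest_bound {r π : ℝ} {m : Fin n → ℝ} {R P : Matrix (Fin n) (Fin n) ℝ}
    (hm : nrm m ≤ Real.sqrt n) (hR : ‖R‖ ≤ r) (hP : ‖P‖ ≤ π) :
    ‖restRest m R P - trace (R * P) • vecMulVec m m‖ ≤ 8 * (n * r * π) := by
  set s := Real.sqrt n
  have hs : s * s = n := Real.mul_self_sqrt (Nat.cast_nonneg n)
  have hs0 : 0 ≤ s := Real.sqrt_nonneg _
  have hr0 : 0 ≤ r := (norm_nonneg R).trans hR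
  have hπ0 : 0 ≤ π := (norm_nonneg P).trans hP
  have hRm := nrm_mulVec_le hR hm
  have hPm := nrm_mulVec_le hP hm
  have hRPm := nrm_mulVec_le hR hPm
  have hPRm := nrm_mulVec_le hP hRm
  have hv : ∀ {u v : Fin n → ℝ} {a b : ℝ}, nrm u ≤ a → nrm v ≤ b → a * b ≤ n * r * π →
      ‖vecMulVec u v‖ ≤ n * r * π := fun {u v a b} hu hv h =>
    (norm_vecMulVec_le u v).trans
      ((mul_le_mul hu hv (Real.sqrt_nonneg _) ((Real.sqrt_nonneg _).trans hu)).trans h)
  have h1 : ‖(m ⬝ᵥ P *ᵥ m) • R‖ ≤ n * r * π := by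
    rw [norm_smul, Real.norm_eq_abs]
    exact (mul_le_mul (abs_dot_le_nrm hm hPm) hR (norm_nonneg _) (by positivity)).trans_eq
      (by rw [← hs]; ring)
  have h2 : ‖(m ⬝ᵥ R *ᵥ m) • P‖ ≤ n * r * π := by
    rw [norm_smul, Real.norm_eq_abs]
    exact (mul_le_mul (abs_dot_le_nrm hm hRm) hP (norm_nonneg _) (by positivity)).trans_eq
      (by rw [← hs]; ring)
  rw [restRest, add_sub_cancel_right]
  refine (norm_add_le _ _).trans ((add_le_add ((norm_add_le _ _).trans (add_le_add
    ((norm_add_le _ _).trans (add_le_add ((norm_add_le _ _).trans (add_le_add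
      ((norm_add_le _ _).trans (add_le_add ((norm_add_le _ _).trans (add_le_add
        ((norm_add_le _ _).trans (add_le_add h1 (hv hRm hPm ?_))) (hv hPm hRm ?_))) (hv hRPm hm ?_)))
      (hv hm hRPm ?_))) (hv hPRm hm ?_))) (hv hm hPRm ?_))) h2).trans_eq (by ring))
  all_goals exact le_of_eq (by rw [← hs]; ring)

/-- the diagonal parts of the first variation against `P = D p D` -/
lemma diagDiag_eq (m : Fin n → ℝ) (hm : ∀ i, 1 - m i ^ 2 ≠ 0) (H p : Matrix (Fin n) (Fin n) ℝ) :
    diagDiag m (dMat m + dMat m * H * dMat m) (dMat m * p * dMat m) =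
      diagonal (fun j => 4 * m j ^ 2 * p j j / (1 - m j ^ 2))
        + (4 : ℝ) • (diagonal m * (H ⊙ p) * diagonal m) := by
  ext i j
  have hi := hm i
  have hj := hm j
  rcases eq_or_ne i j with rfl | h
  · simp only [diagDiag, dMat, cvec, Matrix.add_apply, Matrix.smul_apply, smul_eq_mul,
      Matrix.diagonal_mul, Matrix.mul_diagonal, Matrix.hadamard_apply, Matrix.diagonal_apply_eq]
    field_simp
    ring
  · simp only [diagDiag, dMat, cvec, Matrix.add_apply, Matrix.smul_apply, smul_eq_mul,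
      Matrix.diagonal_mul, Matrix.mul_diagonal, Matrix.hadamard_apply, Matrix.diagonal_apply_ne _ h]
    field_simp
    ring

/-- the middle factor of the drift minus its main part -/
lemma middle_eq (β t : ℝ) (J : Matrix (Fin n) (Fin n) ℝ) (m : Fin n → ℝ) (hm : ∀ i, 1 - m i ^ 2 ≠ 0)
    (H p : Matrix (Fin n) (Fin n) ℝ) :
    let R := dMat m + dMat m * H * dMat m
    let P := dMat m * p * dMat m
    let T := diagonal (fun j => cvec m j * (P *ᵥ m) j) * R + diagonal (fun j => cvec m j * (R *ᵥ m) j) * P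
    sqLin β t m R P - tMat β t J m - qLin β t m P - xMain β t J m H p =
      (2 * aCoef β t / n) • P - (2 * aCoef β t / n) • (T + Tᵀ)
        + (2 * aCoef β t / n) ^ 2 • (restRest m R P - trace (R * P) • vecMulVec m m) := by
  intro R P T
  set κ := 2 * aCoef β t / (n : ℝ) with hκ
  have hq : qLin β t m P = diagonal (fun i => p i i) + diagonal (fun j => 4 * m j ^ 2 * p j j / (1 - m j ^ 2))
      - (aCoef β t * trP m p) • (1 : Matrix (Fin n) (Fin n) ℝ) - κ • P := by
    have htr : trace P = ∑ i, (1 - m i ^ 2) ^ 2 * p i i := by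
      simp only [P, trace, Matrix.diag, dMat, Matrix.mul_diagonal, Matrix.diagonal_mul]
      exact Finset.sum_congr rfl fun i _ => by ring
    have e : (fun j => (1 / (1 - m j ^ 2) ^ 2 + 4 * m j ^ 2 / (1 - m j ^ 2) ^ 3) * P j j) =
        fun j => p j j + 4 * m j ^ 2 * p j j / (1 - m j ^ 2) := funext fun j => by
      have hj := hm j
      simp only [P, dMat, Matrix.mul_diagonal, Matrix.diagonal_mul]
      field_simp
    rw [qLin, trP, htr, e, mul_div_assoc, Matrix.diagonal_add]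
  have hv : (fun j => cvec m j * (P * R) j j) = (2 : ℝ) • cross m H p := by
    funext j
    have hj := hm j
    have e : P * R = dMat m * (p * dMat m * (1 + dMat m * H)) * dMat m := by
      simp only [P, R]; noncomm_ring
    rw [e]
    simp only [Pi.smul_apply, cross, cvec, smul_eq_mul, dMat, Matrix.mul_diagonal, Matrix.diagonal_mul]
    field_simp
  have hD : diagRest m R P = T + (2 : ℝ) • vecMulVec (cross m H p) m := by
    rw [diagRest, hv, Matrix.smul_vecMulVec]
    simp only [T]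
    abel
  have hx : 2 * aCoef' β t / (n : ℝ) + (2 * aCoef β t) ^ 2 * trace (R * P) / (n : ℝ) ^ 2 =
      2 * aCoef' β t / (n : ℝ) + κ ^ 2 * trace (R * P) := by rw [hκ, div_pow]; ring
  have hy : 2 * (2 * aCoef β t) / (n : ℝ) = 2 * κ := by rw [hκ]; ring
  rw [sqLin, diagDiag_eq m hm, hq, tMat, xMain, hx, hy, hD, shiftCoef, Matrix.transpose_add,
    Matrix.transpose_smul, transpose_vecMulVec]
  module

end Drift

open Drift in
/-- The second-order coefficients of the resolvent, averaged against `P = D p D`, are the main drift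
up to `O(n^{-1/2})`. -/
theorem driftAlgebra : DriftAlgebra := by
  intro β c Λ K₀ hβ hβ1 hΛ hK₀
  set r := 1 + K₀ with hr
  set π := r * Λ * r with hπ
  refine ⟨r * r * (2 * π + 48 * (π * r)), by positivity, ?_⟩
  intro n J B hC t ht m H F hm hH hF hHn hFn R P
  set D := dMat m with hD
  set p := pMat (J + c • 1) m F with hp
  set s := Real.sqrt n with hs
  have hs0 : 0 ≤ s := Real.sqrt_nonneg _
  have hm1 : ∀ i, |1 - m i ^ 2| ≤ 1 ∧ 1 - m i ^ 2 ≠ 0 := fun i => by
    have h := abs_lt.1 (hm i)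
    have h2 : m i ^ 2 < 1 := by nlinarith
    exact ⟨abs_le.2 ⟨by linarith, by linarith [sq_nonneg (m i)]⟩, by linarith⟩
  have hDn : ‖D‖ ≤ 1 := norm_diag_le zero_le_one fun i => (hm1 i).1
  have hone : ‖(1 : Matrix (Fin n) (Fin n) ℝ)‖ ≤ 1 := PsiLip.norm_one_le
  have hfac : ∀ {X : Matrix (Fin n) (Fin n) ℝ}, ‖X‖ ≤ K₀ → ‖1 + X * D‖ ≤ r ∧ ‖1 + D * X‖ ≤ r :=
    fun {X} hX => by
      have h0 : ‖X‖ * ‖D‖ ≤ K₀ := (mul_le_of_le_one_right (norm_nonneg _) hDn).trans hX
      exact ⟨(norm_add_le _ _).trans (add_le_add hone ((norm_mul_le _ _).trans h0)),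
        (norm_add_le _ _).trans (add_le_add hone ((norm_mul_le _ _).trans ((mul_comm _ _).trans_le h0)))⟩
  have hr0 : 0 ≤ r := by positivity
  have hπ0 : 0 ≤ π := by positivity
  have hA : ‖J + c • (1 : Matrix (Fin n) (Fin n) ℝ)‖ ≤ Λ := by
    refine (norm_add_le _ _).trans (le_trans (add_le_add le_rfl ?_) hC.op)
    rw [norm_smul, Real.norm_eq_abs]
    exact mul_le_of_le_one_right (abs_nonneg c) hone
  have hpn : ‖p‖ ≤ π := by
    refine (norm_mul_le _ _).trans (mul_le_mul ((norm_mul_le _ _).trans ?_) (hfac hFn).2 (norm_nonneg _)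
      (by positivity))
    exact mul_le_mul (hfac hFn).1 hA (norm_nonneg _) hr0
  have hRD : R = D * (1 + H * D) := by simp only [R, ← hD]; noncomm_ring
  have hDR : R = (1 + D * H) * D := by simp only [R, ← hD]; noncomm_ring
  have hRn : ‖R‖ ≤ r := by
    rw [hRD]
    exact (norm_mul_le _ _).trans
      ((mul_le_of_le_one_left (norm_nonneg _) hDn).trans (hfac hHn).1)
  have hPn : ‖P‖ ≤ π := by
    show ‖D * p * D‖ ≤ π
    exact (norm_mul_le _ _).trans ((mul_le_of_le_one_right (norm_nonneg _) hDn).trans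
      ((norm_mul_le _ _).trans ((mul_le_of_le_one_left (norm_nonneg _) hDn).trans hpn)))
  have hmn : nrm m ≤ s := by
    refine Real.sqrt_le_sqrt ((Finset.sum_le_sum fun i _ => (sq_le_one_iff_abs_le_one _).2 (hm i).le).trans
      (by simp))
  set a := aCoef β t
  have ha : |a| ≤ 1 := (PsiLip.coef_bounds (by rw [abs_of_nonneg hβ]; exact hβ1.le) ht).2.1
  set E₀ := Drift.sqLin β t m R P - Drift.tMat β t J m - Drift.qLin β t m P - xMain β t J m H p with hE₀
  have hdiag : ∀ {u : Fin n → ℝ} {b : ℝ}, nrm u ≤ b → 0 ≤ b →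
      ‖diagonal (fun j => 2 * m j * u j)‖ ≤ 2 * b := fun {u b} hu hb =>
    norm_diag_le (by positivity) fun j => by
      rw [abs_mul, abs_mul, abs_two]
      exact mul_le_mul (mul_le_of_le_one_right two_pos.le (hm j).le) ((abs_le_nrm u j).trans hu)
        (abs_nonneg _) two_pos.le
  have hT₁ : ‖diagonal (fun j => cvec m j * (P *ᵥ m) j) * R‖ ≤ 2 * (π * s) * r := by
    have e : diagonal (fun j => cvec m j * (P *ᵥ m) j) * R =
        diagonal (fun j => 2 * m j * ((p * D) *ᵥ m) j) * (1 + H * D) := by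
      rw [hRD, hD, dMat, ← Matrix.mul_assoc, Matrix.diagonal_mul_diagonal]
      congr 2
      funext j
      have hj := (hm1 j).2
      simp only [P, hp, dMat, Matrix.mul_assoc, ← Matrix.mulVec_mulVec, Matrix.mulVec_diagonal, cvec]
      field_simp
    rw [e]
    exact (norm_mul_le _ _).trans (mul_le_mul (hdiag (nrm_mulVec_le ((norm_mul_le _ _).trans
      ((mul_le_of_le_one_right (norm_nonneg _) hDn).trans hpn)) hmn) (by positivity)) (hfac hHn).1
      (norm_nonneg _) (by positivity))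
  have hT₂ : ‖diagonal (fun j => cvec m j * (R *ᵥ m) j) * P‖ ≤ 2 * (r * s) * π := by
    have e : diagonal (fun j => cvec m j * (R *ᵥ m) j) * P =
        diagonal (fun j => 2 * m j * ((1 + H * D) *ᵥ m) j) * (p * D) := by
      show diagonal _ * (D * p * D) = _
      rw [hRD, Matrix.mul_assoc D, ← Matrix.mul_assoc (diagonal _), hD, dMat, Matrix.diagonal_mul_diagonal]
      congr 2
      funext j
      have hj := (hm1 j).2
      simp only [← Matrix.mulVec_mulVec, Matrix.mulVec_diagonal, cvec]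
      field_simp
    rw [e]
    exact (norm_mul_le _ _).trans (mul_le_mul (hdiag (nrm_mulVec_le (hfac hHn).1 hmn) (by positivity))
      ((norm_mul_le _ _).trans ((mul_le_of_le_one_right (norm_nonneg _) hDn).trans hpn))
      (norm_nonneg _) (by positivity))
  have hE : ‖E₀‖ ≤ (2 * π + 48 * (π * r)) / s := by
    rw [hE₀, middle_eq β t J m (fun i => (hm1 i).2) H p]
    set T := diagonal (fun j => cvec m j * (P *ᵥ m) j) * R + diagonal (fun j => cvec m j * (R *ᵥ m) j) * P
    have hT : ‖T‖ ≤ 4 * (π * r * s) := ((norm_add_le _ _).trans (add_le_add hT₁ hT₂)).trans_eq (by ring)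
    have hTt : ‖Tᵀ‖ ≤ 4 * (π * r * s) :=
      OpNorm.opLe_iff_norm_le.1 (OpNorm.opLe_iff_norm_le.2 hT).transpose
    have hκ : |2 * a / (n : ℝ)| ≤ 2 / n := by
      rw [abs_div, abs_mul, abs_two, Nat.abs_cast]
      exact div_le_div_of_nonneg_right (mul_le_of_le_one_right two_pos.le ha) (Nat.cast_nonneg n)
    refine (norm_add_le _ _).trans (((add_le_add (norm_sub_le _ _) le_rfl).trans ?_))
    rw [norm_smul, norm_smul, norm_smul, Real.norm_eq_abs, Real.norm_eq_abs, abs_pow]
    refine (add_le_add (add_le_add (mul_le_mul hκ hPn (norm_nonneg _) (by positivity))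
      (mul_le_mul hκ ((norm_add_le _ _).trans (add_le_add hT hTt)) (norm_nonneg _) (by positivity)))
      (mul_le_mul (pow_le_pow_left₀ (abs_nonneg _) hκ 2)
        (restRest_bound hmn hRn hPn) (norm_nonneg _) (by positivity))).trans ?_
    rcases Nat.eq_zero_or_pos n with rfl | hn
    · simp [hs]
    have hs1 : 1 ≤ s := Real.one_le_sqrt.2 (by exact_mod_cast hn)
    rw [show (n : ℝ) = s * s from (Real.mul_self_sqrt (Nat.cast_nonneg n)).symm]
    have hs' : 0 < s := zero_lt_one.trans_le hs1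
    rw [le_div_iff₀ hs']
    field_simp
    linarith [mul_le_mul_of_nonneg_right hs1 (mul_nonneg hπ0 hr0),
      mul_le_mul_of_nonneg_right hs1 hπ0, mul_nonneg hπ0 hr0]
  refine ⟨(1 + H * D) * E₀ * (1 + D * H), ?_, ?_⟩
  · refine (norm_mul_le _ _).trans ((mul_le_mul ((norm_mul_le _ _).trans (mul_le_mul (hfac hHn).1 hE
      (norm_nonneg _) hr0)) (hfac hHn).2 (norm_nonneg _) (by positivity)).trans_eq ?_)
    ring
  · have hRXR : ∀ X, R * X * R = D * ((1 + H * D) * X * (1 + D * H)) * D := fun X => by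
      conv_lhs => arg 1; arg 1; rw [hRD]
      conv_lhs => arg 2; rw [hDR]
      noncomm_ring
    show -(R * (Drift.tMat β t J m + Drift.qLin β t m P) * R) + R * Drift.sqLin β t m R P * R + D * p * D = _
    rw [hRXR, hRXR, hE₀, psiMain]
    noncomm_ring

end Vale.Agent.P150.PartB
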