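import Vale.Agent.P150.Fast.PartB.StepTools

/-!
# P150, Part B: the expected displacement of the inverse Jacobian over one short step
-/

open MeasureTheory Matrix
open scoped Matrix.Norms.L2Operator

namespace Vale.Agent.P150.PartB

variable {n : ℕ}

/-- the identity `L R L = sqLin (d dᵀ)` (proved in `Drift.lean`) -/
def SqRank : Prop :=
  ∀ (n : ℕ) (β t : ℝ) (m d : Fin n → ℝ) (R : Matrix (Fin n) (Fin n) ℝ), R.IsSymm →
    Drift.lMat β t m d * R * Drift.lMat β t m d = Drift.sqLin β t m R (vecMulVec d d)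

lemma quadMap_rankOne (hS : SqRank) (β t : ℝ) (m d : Fin n → ℝ) (R : Matrix (Fin n) (Fin n) ℝ)
    (hR : R.IsSymm) :
    quadMap β t m R (vecMulVec d d) = R * Drift.lMat β t m d * R * Drift.lMat β t m d * R
      - R * Drift.qLin β t m (vecMulVec d d) * R := by
  show R * ((Drift.sqLin β t m R (vecMulVec d d) - Drift.qLin β t m (vecMulVec d d)) * R) = _
  rw [← hS n β t m d R hR]
  noncomm_ring

lemma aCoef_bound {β t : ℝ} (hβ : 0 ≤ β) (hβ1 : β < 1) (ht : t ∈ Set.Icc (0 : ℝ) 1) :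
    |aCoef β t| ≤ 1 ∧ |aCoef' β t| ≤ 2 := by
  have h1 : β ^ 2 ≤ 1 := pow_le_one₀ hβ hβ1.le
  have h2 : (1 - t) ^ 2 ≤ 1 := pow_le_one₀ (by linarith [ht.2]) (by linarith [ht.1])
  refine ⟨?_, ?_⟩
  · rw [aCoef, abs_of_nonneg (by positivity)]
    exact mul_le_one₀ h1 (sq_nonneg _) h2
  · rw [aCoef', abs_of_nonpos (by nlinarith [ht.2, sq_nonneg β])]
    nlinarith [ht.1, ht.2, sq_nonneg β]

lemma nrm_sq {ι : Type*} [Fintype ι] (v : ι → ℝ) : nrm v ^ 2 = ∑ i, v i ^ 2 :=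
  Real.sq_sqrt (Finset.sum_nonneg fun _ _ => sq_nonneg _)

lemma abs_le_nrm (v : Fin n → ℝ) (i : Fin n) : |v i| ≤ nrm v :=
  abs_le_of_sq_le_sq ((Finset.single_le_sum (fun j _ => sq_nonneg (v j)) (Finset.mem_univ i)).trans_eq
    (nrm_sq v).symm) (nrm_nonneg v)

/-- crude norms of the coefficients -/
lemma coef_norms {β t l Λ c : ℝ} {J B : Matrix (Fin n) (Fin n) ℝ} (hJ : Ctl Λ c J B) (hβ : 0 ≤ β)
    (hβ1 : β < 1) (ht : t ∈ Set.Icc (0 : ℝ) 1) (hl : 0 < l) (hl1 : l ≤ 1) {m : Fin n → ℝ}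
    (hm : ∀ i, |m i| < 1) (hlm : ∀ i, l ≤ 1 - m i ^ 2) (d : Fin n → ℝ) :
    ‖Drift.tMat β t J m‖ ≤ n * (6 + Λ) ∧
      ‖Drift.lMat β t m d‖ ≤ 8 * (n + 1 : ℝ) ^ 2 / l ^ 2 * nrm d ∧
      ‖Drift.qLin β t m (vecMulVec d d)‖ ≤ 8 * (n + 1 : ℝ) / l ^ 3 * nrm d ^ 2 := by
  obtain ⟨ha, ha'⟩ := aCoef_bound hβ hβ1 ht
  rcases Nat.eq_zero_or_pos n with rfl | hn
  · have h0 := nrm_nonneg d
    rw [Subsingleton.elim (Drift.tMat β t J m) 0, Subsingleton.elim (Drift.lMat β t m d) 0,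
      Subsingleton.elim (Drift.qLin β t m (vecMulVec d d)) 0, norm_zero]
    refine ⟨by simp, ?_, ?_⟩ <;> positivity
  have hn1 : (1 : ℝ) ≤ n := Nat.one_le_cast.2 hn
  have hd := abs_le_nrm d
  have hu := nrm_nonneg d
  have hm1 : ∀ i, |m i| ≤ 1 := fun i => (hm i).le
  have hq : |1 - qv m| ≤ 1 := by
    have h0 : 0 ≤ qv m := div_nonneg (Finset.sum_nonneg fun i _ => sq_nonneg _) (Nat.cast_nonneg n)
    have h1 : qv m ≤ 1 := by
      rw [qv, div_le_one (by linarith)]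
      refine (Finset.sum_le_card_nsmul _ _ 1 fun i _ => (sq_le_one_iff_abs_le_one _).2 (hm1 i)).trans ?_
      simp
    rw [abs_le]; constructor <;> linarith
  have hdelta : ∀ i j : Fin n, |(1 : Matrix (Fin n) (Fin n) ℝ) i j| ≤ 1 := fun i j => by
    rw [Matrix.one_apply]; split_ifs <;> simp
  have hk : ∀ x : ℝ, |2 * x / (n : ℝ)| ≤ 2 * |x| := fun x => by
    rw [abs_div, abs_mul, abs_two, Nat.abs_cast, div_le_iff₀ (by linarith)]
    exact le_mul_of_one_le_right (by positivity) hn1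
  have h2n : 2 * (n : ℝ) ≤ (n + 1 : ℝ) ^ 2 := by nlinarith
  refine ⟨norm_le_entries _ fun i j => ?_, ?_, ?_⟩
  · simp only [Drift.tMat, Matrix.add_apply, Matrix.sub_apply, Matrix.smul_apply, smul_eq_mul,
      vecMulVec_apply]
    have hJ' : |J i j| ≤ Λ := (abs_entry_le_norm J i j).trans ((le_add_of_nonneg_right (abs_nonneg c)).trans hJ.op)
    refine (abs_sub _ _).trans ?_
    refine (add_le_add (abs_add_le _ _) le_rfl).trans ?_
    rw [abs_mul, abs_mul, abs_mul, abs_mul]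
    have h1 : |aCoef' β t| * |1 - qv m| * |(1 : Matrix (Fin n) (Fin n) ℝ) i j| ≤ 2 * 1 * 1 := by
      gcongr
      exact hdelta i j
    have h2 : |2 * aCoef' β t / (n : ℝ)| * (|m i| * |m j|) ≤ 4 * (1 * 1) := by
      refine mul_le_mul ((hk _).trans (by linarith)) (mul_le_mul (hm1 i) (hm1 j) (abs_nonneg _) zero_le_one)
        (by positivity) (by norm_num)
    linarith
  · refine (norm_le_entries (b := 8 * (n + 1 : ℝ) / l ^ 2 * nrm d) _ fun i j => ?_).trans ?_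
    · simp only [Drift.lMat, Matrix.add_apply, Matrix.sub_apply, Matrix.smul_apply, smul_eq_mul,
        vecMulVec_apply, Matrix.diagonal_apply]
      have hl2 : 1 ≤ 1 / l ^ 2 := by
        rw [le_div_iff₀ (by positivity), one_mul]; exact pow_le_one₀ hl.le hl1
      have hc : |if i = j then Drift.cvec m i * d i else 0| ≤ 2 / l ^ 2 * nrm d := by
        split_ifs
        · rw [abs_mul]
          refine mul_le_mul ?_ (hd i) (abs_nonneg _) (by positivity)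
          rw [Drift.cvec, abs_div, abs_mul, abs_two, abs_pow, abs_of_nonneg (hl.le.trans (hlm i))]
          exact div_le_div₀ (by norm_num) (by linarith [hm1 i])
            (by positivity) (pow_le_pow_left₀ hl.le (hlm i) 2)
        · simp only [abs_zero]; positivity
      have hdot : |m ⬝ᵥ d| ≤ (n : ℝ) * nrm d := by
        refine (Finset.abs_sum_le_sum_abs _ _).trans ((Finset.sum_le_sum fun k _ =>
          show |m k * d k| ≤ nrm d by
            rw [abs_mul]; exact (mul_le_mul (hm1 k) (hd k) (abs_nonneg _) zero_le_one).trans (one_mul _).le).trans ?_)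
        simp
      have hin : |(m ⬝ᵥ d) * (1 : Matrix (Fin n) (Fin n) ℝ) i j + m i * d j + d i * m j| ≤
          3 * ((n : ℝ) * nrm d) := by
        have e1 : |(m ⬝ᵥ d) * (1 : Matrix (Fin n) (Fin n) ℝ) i j| ≤ (n : ℝ) * nrm d := by
          rw [abs_mul]; exact (mul_le_mul hdot (hdelta i j) (abs_nonneg _) (by positivity)).trans (mul_one _).le
        have e2 : |m i * d j| ≤ (n : ℝ) * nrm d := by
          rw [abs_mul]
          exact (mul_le_mul (hm1 i) (hd j) (abs_nonneg _) zero_le_one).trans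
            (mul_le_mul_of_nonneg_right hn1 hu)
        have e3 : |d i * m j| ≤ (n : ℝ) * nrm d := by
          rw [abs_mul, mul_comm]
          exact (mul_le_mul (hm1 j) (hd i) (abs_nonneg _) zero_le_one).trans
            (mul_le_mul_of_nonneg_right hn1 hu)
        exact (abs_add_le _ _).trans (add_le_add ((abs_add_le _ _).trans (add_le_add e1 e2)) e3 |>.trans (by linarith))
      refine (abs_sub _ _).trans ?_
      rw [abs_mul]
      have h6 : |2 * aCoef β t / (n : ℝ)| * |(m ⬝ᵥ d) * (1 : Matrix (Fin n) (Fin n) ℝ) i j + m i * d j + d i * m j| ≤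
          2 * (3 * ((n : ℝ) * nrm d)) := mul_le_mul ((hk _).trans (by linarith)) hin (abs_nonneg _) (by norm_num)
      calc _ ≤ 2 / l ^ 2 * nrm d + 2 * (3 * ((n : ℝ) * nrm d)) := add_le_add hc h6
        _ ≤ 2 / l ^ 2 * nrm d + 6 * ((n : ℝ) * nrm d) * (1 / l ^ 2) := by
            have := mul_le_mul_of_nonneg_left hl2 (show (0:ℝ) ≤ 6 * ((n : ℝ) * nrm d) by positivity)
            linarith
        _ ≤ _ := by
            have h0 : 0 ≤ nrm d / l ^ 2 := by positivity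
            have : (2 + 6 * (n : ℝ)) * (nrm d / l ^ 2) ≤ 8 * (n + 1 : ℝ) * (nrm d / l ^ 2) := by gcongr; linarith
            calc _ = (2 + 6 * (n : ℝ)) * (nrm d / l ^ 2) := by ring
              _ ≤ _ := this
              _ = _ := by ring
    · calc (n : ℝ) * (8 * (n + 1 : ℝ) / l ^ 2 * nrm d) ≤ (n + 1 : ℝ) * (8 * (n + 1 : ℝ) / l ^ 2 * nrm d) := by
            gcongr; linarith
        _ = _ := by ring
  · refine (norm_le_entries (b := 8 / l ^ 3 * nrm d ^ 2) _ fun i j => ?_).trans ?_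
    · simp only [Drift.qLin, Matrix.sub_apply, Matrix.smul_apply, smul_eq_mul, vecMulVec_apply,
        Matrix.diagonal_apply]
      have hdd : ∀ a b, |d a * d b| ≤ nrm d ^ 2 := fun a b => by
        rw [abs_mul, sq]; exact mul_le_mul (hd a) (hd b) (abs_nonneg _) hu
      have hl3 : 1 ≤ 1 / l ^ 3 := by
        rw [le_div_iff₀ (by positivity), one_mul]; exact pow_le_one₀ hl.le hl1
      have hc : |if i = j then (1 / (1 - m i ^ 2) ^ 2 + 4 * m i ^ 2 / (1 - m i ^ 2) ^ 3) * (d i * d i) else 0| ≤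
          5 / l ^ 3 * nrm d ^ 2 := by
        split_ifs
        · rw [abs_mul]
          refine mul_le_mul ?_ (hdd i i) (abs_nonneg _) (by positivity)
          have hp : 0 < 1 - m i ^ 2 := hl.trans_le (hlm i)
          rw [abs_of_nonneg (by positivity)]
          have h1 : 1 / (1 - m i ^ 2) ^ 2 ≤ 1 / l ^ 3 :=
            one_div_le_one_div_of_le (by positivity) ((show l ^ 3 ≤ l ^ 2 by nlinarith).trans
              (pow_le_pow_left₀ hl.le (hlm i) 2))
          have h2 : 4 * m i ^ 2 / (1 - m i ^ 2) ^ 3 ≤ 4 / l ^ 3 :=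
            div_le_div₀ (by norm_num) (by linarith [(sq_le_one_iff_abs_le_one _).2 (hm1 i)])
              (by positivity) (pow_le_pow_left₀ hl.le (hlm i) 3)
          calc _ ≤ 1 / l ^ 3 + 4 / l ^ 3 := add_le_add h1 h2
            _ = _ := by ring
        · simp only [abs_zero]; positivity
      have htr : |aCoef β t * trace (vecMulVec d d) / (n : ℝ) * (1 : Matrix (Fin n) (Fin n) ℝ) i j| ≤ nrm d ^ 2 := by
        rw [trace_vecMulVec, show d ⬝ᵥ d = nrm d ^ 2 by rw [nrm_sq]; exact Finset.sum_congr rfl fun k _ => (sq (d k)).symm,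
          abs_mul, abs_div, abs_mul, Nat.abs_cast, abs_of_nonneg (sq_nonneg (nrm d))]
        calc _ ≤ 1 * nrm d ^ 2 / 1 * 1 := by
              gcongr
              exact hdelta i j
          _ = _ := by ring
      have hqq : |2 * aCoef β t / (n : ℝ) * (d i * d j)| ≤ 2 * nrm d ^ 2 := by
        rw [abs_mul]; exact mul_le_mul ((hk _).trans (by linarith)) (hdd i j) (abs_nonneg _) (by norm_num)
      have h30 := mul_le_mul_of_nonneg_left hl3 (show (0:ℝ) ≤ 3 * nrm d ^ 2 by positivity)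
      calc _ ≤ 5 / l ^ 3 * nrm d ^ 2 + nrm d ^ 2 + 2 * nrm d ^ 2 :=
            (abs_sub _ _).trans (add_le_add ((abs_sub _ _).trans (add_le_add hc htr)) hqq)
        _ ≤ 5 / l ^ 3 * nrm d ^ 2 + 3 * nrm d ^ 2 * (1 / l ^ 3) := by linarith
        _ = _ := by ring
    · calc (n : ℝ) * (8 / l ^ 3 * nrm d ^ 2) ≤ (n + 1 : ℝ) * (8 / l ^ 3 * nrm d ^ 2) := by gcongr; linarith
        _ = _ := by ring

/-- norm of the second-order part on a rank one matrix -/
lemma norm_quadMap_rankOne (hS : SqRank) {β t l Λ c η : ℝ} {J B : Matrix (Fin n) (Fin n) ℝ}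
    (hJ : Ctl Λ c J B) (hβ : 0 ≤ β) (hβ1 : β < 1) (ht : t ∈ Set.Icc (0 : ℝ) 1) (hη : 0 < η)
    (hl : 0 < l) (hl1 : l ≤ 1) {m : Fin n → ℝ} (hm : ∀ i, |m i| < 1) (hlm : ∀ i, l ≤ 1 - m i ^ 2)
    (R : Matrix (Fin n) (Fin n) ℝ) (hR : R.IsSymm) (hRn : ‖R‖ ≤ 1 / η) (d : Fin n → ℝ) :
    ‖quadMap β t m R (vecMulVec d d)‖ ≤
      (64 / η ^ 3 + 8 / η ^ 2) * (n + 1 : ℝ) ^ 4 / l ^ 4 * nrm d ^ 2 := by
  obtain ⟨-, hL, hQ⟩ := coef_norms hJ hβ hβ1 ht hl hl1 hm hlm d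
  rw [quadMap_rankOne hS β t m d R hR]
  have hn1 : (1 : ℝ) ≤ (n + 1 : ℝ) := by linarith [(Nat.cast_nonneg n : (0:ℝ) ≤ n)]
  set L := Drift.lMat β t m d
  set Q := Drift.qLin β t m (vecMulVec d d)
  have hu := nrm_nonneg d
  have e1 : ‖R * L * R * L * R‖ ≤ (1 / η) * (8 * (n + 1 : ℝ) ^ 2 / l ^ 2 * nrm d) * (1 / η) *
      (8 * (n + 1 : ℝ) ^ 2 / l ^ 2 * nrm d) * (1 / η) := by
    repeat' refine (norm_mul_le _ _).trans (mul_le_mul ?_ ?_ (norm_nonneg _) (by positivity))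
    all_goals first | exact hRn | exact hL
  have e2 : ‖R * Q * R‖ ≤ (1 / η) * (8 * (n + 1 : ℝ) / l ^ 3 * nrm d ^ 2) * (1 / η) := by
    repeat' refine (norm_mul_le _ _).trans (mul_le_mul ?_ ?_ (norm_nonneg _) (by positivity))
    all_goals first | exact hRn | exact hQ
  refine (norm_sub_le _ _).trans ((add_le_add e1 e2).trans ?_)
  have h34 : (n + 1 : ℝ) / l ^ 3 ≤ (n + 1 : ℝ) ^ 4 / l ^ 4 :=
    div_le_div₀ (by positivity) (le_self_pow₀ hn1 (by norm_num)) (by positivity)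
      (pow_le_pow_of_le_one hl.le hl1 (by norm_num))
  calc _ = 64 / η ^ 3 * ((n + 1 : ℝ) ^ 4 / l ^ 4) * nrm d ^ 2 +
        8 / η ^ 2 * ((n + 1 : ℝ) / l ^ 3) * nrm d ^ 2 := by ring
    _ ≤ 64 / η ^ 3 * ((n + 1 : ℝ) ^ 4 / l ^ 4) * nrm d ^ 2 +
        8 / η ^ 2 * ((n + 1 : ℝ) ^ 4 / l ^ 4) * nrm d ^ 2 := by gcongr
    _ = _ := by ring

/-- norm of the second-order part on a symmetric matrix, by polarisation -/
lemma norm_quadMap_symm {K : ℝ} (hK : 0 ≤ K)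
    (Φ : Matrix (Fin n) (Fin n) ℝ →ₗ[ℝ] Matrix (Fin n) (Fin n) ℝ)
    (h : ∀ d : Fin n → ℝ, ‖Φ (vecMulVec d d)‖ ≤ K * nrm d ^ 2) (P : Matrix (Fin n) (Fin n) ℝ)
    (hP : P.IsSymm) {b : ℝ} (hb : ∀ i j, |P i j| ≤ b) : ‖Φ P‖ ≤ 3 * K * n ^ 2 * b := by
  set e := fun k : Fin n => (Pi.single k 1 : Fin n → ℝ)
  set G := fun k l => vecMulVec (e k + e l) (e k + e l) - vecMulVec (e k) (e k) - vecMulVec (e l) (e l)
  have hdec : P = ∑ k, ∑ l, (P k l / 2) • G k l := by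
    ext i j
    simp only [G, e, Matrix.sum_apply, Matrix.smul_apply, Matrix.sub_apply, vecMulVec_apply,
      Pi.add_apply, smul_eq_mul]
    have hx : ∀ k l : Fin n, P k l / 2 * (((Pi.single k 1 : Fin n → ℝ) i + (Pi.single l 1 : Fin n → ℝ) i) *
        ((Pi.single k 1 : Fin n → ℝ) j + (Pi.single l 1 : Fin n → ℝ) j) -
          (Pi.single k 1 : Fin n → ℝ) i * (Pi.single k 1 : Fin n → ℝ) j -
          (Pi.single l 1 : Fin n → ℝ) i * (Pi.single l 1 : Fin n → ℝ) j) =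
        P k l / 2 * ((if i = k then 1 else 0) * (if j = l then 1 else 0)) +
        P k l / 2 * ((if i = l then 1 else 0) * (if j = k then 1 else 0)) := fun k l => by
      simp only [Pi.single_apply]; ring
    simp only [hx, Finset.sum_add_distrib]
    simp only [mul_ite, mul_one, mul_zero, Finset.sum_ite_irrel, Finset.sum_const_zero,
      Finset.sum_ite_eq, Finset.mem_univ, if_true]
    rw [show P j i = P i j from hP.apply i j]; ring
  have he : ∀ k, nrm (e k) ^ 2 = 1 := fun k => by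
    rw [nrm_sq]; simp [e, Pi.single_apply]
  have hekl : ∀ k l, nrm (e k + e l) ^ 2 ≤ 4 := fun k l => by
    have h1 : nrm (e k + e l) ≤ nrm (e k) + nrm (e l) := nrm_add_le (e k) (e l)
    have h2 : nrm (e k) = 1 := by
      nlinarith [he k, nrm_nonneg (e k)]
    have h3 : nrm (e l) = 1 := by
      nlinarith [he l, nrm_nonneg (e l)]
    nlinarith [nrm_nonneg (e k + e l)]
  rw [hdec, map_sum]
  refine (norm_sum_le _ _).trans ?_
  calc ∑ k, ‖Φ (∑ l, (P k l / 2) • G k l)‖ ≤ ∑ _k : Fin n, ∑ _l : Fin n, b / 2 * (6 * K) := by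
        refine Finset.sum_le_sum fun k _ => ?_
        rw [map_sum]
        refine (norm_sum_le _ _).trans (Finset.sum_le_sum fun l _ => ?_)
        rw [map_smul, norm_smul, Real.norm_eq_abs, abs_div, abs_two]
        refine mul_le_mul (by linarith [hb k l]) ?_ (norm_nonneg _) (by linarith [(abs_nonneg _).trans (hb k l)])
        simp only [G, map_sub]
        refine ((norm_sub_le _ _).trans (add_le_add (norm_sub_le _ _) le_rfl)).trans ?_
        have h1 := (h (e k + e l)).trans (mul_le_mul_of_nonneg_left (hekl k l) hK)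
        have h2 := h (e k)
        have h3 := h (e l)
        rw [he] at h2 h3
        linarith
    _ = 3 * K * n ^ 2 * b := by simp; ring

lemma abs_mean_lt (J : Matrix (Fin n) (Fin n) ℝ) (t : ℝ) (Y : Fin n → ℝ) (i : Fin n) :
    |mean J t Y i| < 1 := by
  set w := Ising.wt ((1 - t) • J) Y
  have hw : ∀ x, 0 < w x := fun x => Ising.wt_pos _ _ x
  have h1 : ∑ x, w x = 1 := sum_wt _ _
  have hp : ∑ x, w x * spin (x i) < ∑ x, w x * 1 :=
    Finset.sum_lt_sum (fun x _ => mul_le_mul_of_nonneg_left (by cases x i <;> simp [spin]) (hw x).le)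
      ⟨fun _ => false, Finset.mem_univ _, mul_lt_mul_of_pos_left (by simp [spin]) (hw _)⟩
  have hm : ∑ x, w x * (-1) < ∑ x, w x * spin (x i) :=
    Finset.sum_lt_sum (fun x _ => mul_le_mul_of_nonneg_left (by cases x i <;> simp [spin]) (hw x).le)
      ⟨fun _ => true, Finset.mem_univ _, mul_lt_mul_of_pos_left (by simp [spin]) (hw _)⟩
  simp only [← Finset.sum_mul, h1, one_mul] at hp hm
  exact abs_lt.2 ⟨hm, hp⟩

lemma measurable_rCut (η β t : ℝ) (J : Matrix (Fin n) (Fin n) ℝ) (i j : Fin n) :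
    Measurable fun m : Fin n → ℝ => rCut η β t J m i j := by
  have hK : ∀ a b, Measurable fun m : Fin n → ℝ => kHat β t J m a b := fun a b => by
    simp only [kHat, vMat, qv, Matrix.add_apply, Matrix.sub_apply, Matrix.smul_apply, smul_eq_mul,
      Matrix.diagonal_apply, vecMulVec_apply]
    by_cases h : a = b <;> simp only [h, if_true, if_false] <;> fun_prop
  have hquad : ∀ v : Fin n → ℝ, Measurable fun m : Fin n → ℝ => v ⬝ᵥ kHat β t J m *ᵥ v := fun v => by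
    simp only [dotProduct, Matrix.mulVec]
    exact Finset.measurable_sum _ fun a _ =>
      (Finset.measurable_sum _ fun b _ => (hK a b).mul_const _).const_mul _
  have e : {m : Fin n → ℝ | ∀ v : Fin n → ℝ, η * ∑ a, v a ^ 2 ≤ v ⬝ᵥ kHat β t J m *ᵥ v} =
      ⋂ k : ℕ, {m | η * ∑ a, TopologicalSpace.denseSeq (Fin n → ℝ) k a ^ 2 ≤
        TopologicalSpace.denseSeq (Fin n → ℝ) k ⬝ᵥ kHat β t J m *ᵥ TopologicalSpace.denseSeq (Fin n → ℝ) k} := by
    ext m
    simp only [Set.mem_ofPred_eq, Set.mem_iInter]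
    refine ⟨fun h k => h _, fun h v => ?_⟩
    have hc : IsClosed {v : Fin n → ℝ | η * ∑ a, v a ^ 2 ≤ v ⬝ᵥ kHat β t J m *ᵥ v} := by
      refine isClosed_le (by fun_prop) ?_
      simp only [dotProduct, Matrix.mulVec]
      fun_prop
    exact (TopologicalSpace.denseRange_denseSeq (Fin n → ℝ)).induction_on v hc h
  have hset : MeasurableSet {m : Fin n → ℝ | ∀ v : Fin n → ℝ, η * ∑ a, v a ^ 2 ≤ v ⬝ᵥ kHat β t J m *ᵥ v} := by
    rw [e]
    exact MeasurableSet.iInter fun k => measurableSet_le measurable_const (hquad _)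
  have hinv : Measurable fun m : Fin n → ℝ => (kHat β t J m)⁻¹ i j := by
    have hdet : ∀ M : (Fin n → ℝ) → Matrix (Fin n) (Fin n) ℝ, (∀ a b, Measurable fun m => M m a b) →
        Measurable fun m => (M m).det := fun M hM => by
      simp only [Matrix.det_apply']
      exact Finset.measurable_sum _ fun σ _ => (Finset.measurable_prod _ fun a _ => hM _ _).const_mul _
    simp only [Matrix.inv_def, Matrix.smul_apply, smul_eq_mul, Ring.inverse_eq_inv']
    refine (hdet _ hK).inv.mul ?_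
    simp only [Matrix.adjugate_apply]
    refine hdet _ fun a b => ?_
    simp only [Matrix.updateRow_apply]
    by_cases h : a = j <;> simp only [h, if_true, if_false]
    · fun_prop
    · exact hK a b
  have e2 : (fun m : Fin n → ℝ => rCut η β t J m i j) =
      {m : Fin n → ℝ | ∀ v : Fin n → ℝ, η * ∑ a, v a ^ 2 ≤ v ⬝ᵥ kHat β t J m *ᵥ v}.indicator
        (fun m => (kHat β t J m)⁻¹ i j) := by
    funext m
    by_cases hv : ∀ v : Fin n → ℝ, η * ∑ a, v a ^ 2 ≤ v ⬝ᵥ kHat β t J m *ᵥ v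
    · rw [rCut, if_pos hv,
        Set.indicator_of_mem (s := {m : Fin n → ℝ | ∀ v : Fin n → ℝ, η * ∑ a, v a ^ 2 ≤ v ⬝ᵥ kHat β t J m *ᵥ v}) hv]
    · rw [rCut, if_neg hv,
        Set.indicator_of_notMem (s := {m : Fin n → ℝ | ∀ v : Fin n → ℝ, η * ∑ a, v a ^ 2 ≤ v ⬝ᵥ kHat β t J m *ᵥ v}) hv]
      rfl
  rw [e2]
  exact hinv.indicator hset

lemma kern_sum (J B : Matrix (Fin n) (Fin n) ℝ) (s θ : ℝ) (y : Fin n → ℝ) {α : Type*} (S : Finset α)
    (F : α → (Fin n → ℝ) → ℝ) (M : α → ℝ) (hF : ∀ a, Measurable (F a)) (hM : ∀ a Y, |F a Y| ≤ M a) :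
    kern J B s θ y (fun Y => ∑ a ∈ S, F a Y) = ∑ a ∈ S, kern J B s θ y (F a) := by
  simp only [kern, Finset.mul_sum]
  exact integral_finsetSum _ fun a _ => integrable_kern J B s θ y (hF a) (hM a)

lemma kHat_symm {Λ c β t : ℝ} {J B : Matrix (Fin n) (Fin n) ℝ} (hJ : Ctl Λ c J B) (m : Fin n → ℝ) :
    (kHat β t J m).IsSymm := by
  ext i j
  simp only [Matrix.transpose_apply, kHat, vMat, Matrix.add_apply, Matrix.sub_apply, Matrix.smul_apply,
    smul_eq_mul, Matrix.diagonal_apply, vecMulVec_apply, Matrix.one_apply, hJ.symm i j]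
  by_cases h : i = j
  · subst h; rfl
  · simp only [h, Ne.symm h, if_false, mul_comm (m i)]

lemma cov_facts (J : Matrix (Fin n) (Fin n) ℝ) (t : ℝ) (y : Fin n → ℝ) :
    (cov J t y).IsSymm ∧ ∀ i j, |cov J t y i j| ≤ 2 := by
  refine ⟨?_, fun i j => ?_⟩
  · ext i j
    simp only [Matrix.transpose_apply, cov, Matrix.of_apply]
    rw [show Ising.avg ((1 - t) • J) y (fun x => spin (x j) * spin (x i)) =
        Ising.avg ((1 - t) • J) y (fun x => spin (x i) * spin (x j)) by simp only [mul_comm]]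
    ring
  · simp only [cov, Matrix.of_apply]
    refine (abs_sub _ _).trans ?_
    have h : ∀ k, |mean J t y k| ≤ 1 := fun k => (abs_mean_lt J t y k).le
    have h1 := abs_avg_le ((1 - t) • J) y (f := fun x => spin (x i) * spin (x j)) (M := 1) fun x => by
      cases x i <;> cases x j <;> simp [spin]
    rw [abs_mul]
    have := mul_le_mul (h i) (h j) (abs_nonneg _) zero_le_one
    linarith

/-- the pointwise displacement of the cut-off inverse Jacobian -/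
lemma step_pt (hS : SqRank) {β Λ η c KE t θ l δ : ℝ} {J B : Matrix (Fin n) (Fin n) ℝ} (hJ : Ctl Λ c J B)
    (hΛ : 0 < Λ) (hβ : 0 ≤ β) (hβ1 : β < 1) (hη : 0 < η) (hKE : 0 < KE) (htI : t ∈ Set.Icc (0 : ℝ) 1)
    (hθ : 0 < θ) (hθ1 : θ ≤ 1) (hl : 0 < l) (hl1 : l ≤ 1) (hδ : 0 < δ) (hδ1 : δ ≤ 1) {m : Fin n → ℝ}
    (hmlt : ∀ k, |m k| < 1) (hlm : ∀ k, l ≤ 1 - m k ^ 2) {R : Matrix (Fin n) (Fin n) ℝ} (hRs : R.IsSymm)
    (hRn : ‖R‖ ≤ 1 / η) (m' : Fin n → ℝ)
    (hEx : nrm (m' - m) ≤ δ →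
      (∀ v : Fin n → ℝ, η / 2 * ∑ i, v i ^ 2 ≤ v ⬝ᵥ kHat β (t + θ ^ 2) J m' *ᵥ v) ∧
        ‖(kHat β (t + θ ^ 2) J m')⁻¹ - R
          + R * (θ ^ 2 • Drift.tMat β t J m + Drift.lMat β t m (m' - m) + Drift.qLin β t m (vecMulVec (m' - m) (m' - m))) * R
          - R * Drift.lMat β t m (m' - m) * R * Drift.lMat β t m (m' - m) * R‖ ≤
        KE * (n + 1 : ℝ) ^ 8 / l ^ 12 * (nrm (m' - m) ^ 3 + θ ^ 2 * nrm (m' - m) + (θ ^ 2) ^ 2)) :
    ‖rCut (η / 2) β (t + θ ^ 2) J m' - R - (θ ^ 2 • -(R * Drift.tMat β t J m * R) + linMap β t m R (m' - m) +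
        quadMap β t m R (vecMulVec (m' - m) (m' - m)))‖ ≤
      (2 * KE + (3 / η + (6 + Λ) / η ^ 2 + 8 / η ^ 2 + (64 / η ^ 3 + 8 / η ^ 2))) * (n + 1 : ℝ) ^ 8 / l ^ 12 *
        (θ ^ 3 + nrm (m' - m) ^ 3 / δ ^ 3) := by
  set Kb := 3 / η + (6 + Λ) / η ^ 2 + 8 / η ^ 2 + (64 / η ^ 3 + 8 / η ^ 2)
  have hKb : 0 < Kb := by positivity
  set K2 := 64 / η ^ 3 + 8 / η ^ 2
  set t' := t + θ ^ 2
  set T := -(R * Drift.tMat β t J m * R)
  set Φ₁ := linMap β t m R
  set Φ₂ := quadMap β t m R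
  set d := m' - m
  set poly := θ ^ 2 • T + Φ₁ d + Φ₂ (vecMulVec d d) with hpoly
  set cst := (2 * KE + Kb) * (n + 1 : ℝ) ^ 8 / l ^ 12
  set pos : ℝ := θ ^ 3 + nrm d ^ 3 / δ ^ 3
  have hn1 : (1 : ℝ) ≤ (n + 1 : ℝ) := by linarith [(Nat.cast_nonneg n : (0:ℝ) ≤ n)]
  have hδ3 : δ ^ 3 ≤ 1 := pow_le_one₀ hδ.le hδ1
  set u := nrm d
  have hu : 0 ≤ u := nrm_nonneg _
  have hu3 : u ^ 3 ≤ u ^ 3 / δ ^ 3 := by
    rw [le_div_iff₀ (by positivity)]; exact mul_le_of_le_one_right (by positivity) hδ3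
  by_cases hgood : u ≤ δ
  · obtain ⟨hc', hb⟩ := hEx hgood
    rw [rCut, if_pos hc']
    have e : (kHat β t' J m')⁻¹ - R - poly = (kHat β t' J m')⁻¹ - R
        + R * (θ ^ 2 • Drift.tMat β t J m + Drift.lMat β t m d + Drift.qLin β t m (vecMulVec d d)) * R
        - R * Drift.lMat β t m d * R * Drift.lMat β t m d * R := by
      simp only [hpoly, T, Φ₂, quadMap_rankOne hS β t m d R hRs, Φ₁, linMap, LinearMap.coe_mk,
        AddHom.coe_mk, Matrix.mul_add, Matrix.add_mul, Matrix.mul_smul, Matrix.smul_mul, smul_neg]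
      abel
    rw [e]
    refine hb.trans ?_
    have hh : u ^ 3 + θ ^ 2 * u + (θ ^ 2) ^ 2 ≤ 2 * pos := by
      have h4 : (θ ^ 2) ^ 2 ≤ θ ^ 3 := by
        rw [← pow_mul]; exact pow_le_pow_of_le_one hθ.le hθ1 (by norm_num)
      have := mul_le_cube hθ hu
      simp only [pos]
      linarith [pow_nonneg hθ.le 3]
    calc KE * (n + 1 : ℝ) ^ 8 / l ^ 12 * (u ^ 3 + θ ^ 2 * u + (θ ^ 2) ^ 2)
        ≤ KE * (n + 1 : ℝ) ^ 8 / l ^ 12 * (2 * pos) := mul_le_mul_of_nonneg_left hh (by positivity)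
      _ = 2 * KE * ((n + 1 : ℝ) ^ 8 / l ^ 12) * pos := by ring
      _ ≤ (2 * KE + Kb) * ((n + 1 : ℝ) ^ 8 / l ^ 12) * pos := by
          gcongr
          linarith
      _ = _ := by simp only [cst]; ring
  · obtain ⟨b1, b2, b3⟩ := bad_le hδ hδ1 (not_le.1 hgood)
    obtain ⟨hT, hL, -⟩ := coef_norms hJ hβ hβ1 htI hl hl1 hmlt hlm d
    have hQ := norm_quadMap_rankOne hS hJ hβ hβ1 htI hη hl hl1 hmlt hlm R hRs hRn d
    set W := (n + 1 : ℝ) ^ 8 / l ^ 12
    have hW : ∀ a b : ℕ, a ≤ 8 → b ≤ 12 → (n + 1 : ℝ) ^ a / l ^ b ≤ W := fun a b ha hb =>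
      div_le_div₀ (by positivity) (pow_le_pow_right₀ hn1 ha) (by positivity)
        (pow_le_pow_of_le_one hl.le hl1 hb)
    have hp : u ^ 3 / δ ^ 3 ≤ pos := le_add_of_nonneg_left (by positivity)
    have a1 : ‖rCut (η / 2) β t' J m'‖ + ‖R‖ ≤ 3 / η * (W * pos) := by
      refine (add_le_add (norm_rCut _ β t' (by linarith) J _) hRn).trans ?_
      have : 1 ≤ W * pos := one_le_mul_of_one_le_of_one_le
        ((by simp : (1:ℝ) ≤ (n + 1 : ℝ) ^ 0 / l ^ 0).trans (hW 0 0 (by norm_num) (by norm_num))) (b1.trans hp)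
      calc 1 / (η / 2) + 1 / η = 3 / η * 1 := by field_simp; norm_num
        _ ≤ _ := mul_le_mul_of_nonneg_left this (by positivity)
    have a2 : ‖θ ^ 2 • T‖ ≤ (6 + Λ) / η ^ 2 * (W * pos) := by
      rw [norm_smul, Real.norm_eq_abs, abs_of_nonneg (sq_nonneg θ), norm_neg]
      calc θ ^ 2 * ‖R * Drift.tMat β t J m * R‖ ≤ 1 * ((1 / η) * ((n : ℝ) * (6 + Λ)) * (1 / η)) := by
            refine mul_le_mul (pow_le_one₀ hθ.le hθ1) ?_ (norm_nonneg _) zero_le_one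
            repeat' refine (norm_mul_le _ _).trans (mul_le_mul ?_ ?_ (norm_nonneg _) (by positivity))
            all_goals first | exact hRn | exact hT
        _ = (6 + Λ) / η ^ 2 * ((n : ℝ) * 1) := by ring
        _ ≤ _ := by
            refine mul_le_mul_of_nonneg_left (mul_le_mul ?_ (b1.trans hp) zero_le_one (by positivity))
              (by positivity)
            have := hW 1 0 (by norm_num) (by norm_num)
            simp only [pow_one, pow_zero, div_one] at this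
            linarith
    have a3 : ‖Φ₁ d‖ ≤ 8 / η ^ 2 * (W * pos) := by
      show ‖-(R * Drift.lMat β t m d * R)‖ ≤ _
      rw [norm_neg]
      calc ‖R * Drift.lMat β t m d * R‖ ≤ (1 / η) * (8 * (n + 1 : ℝ) ^ 2 / l ^ 2 * u) * (1 / η) := by
            repeat' refine (norm_mul_le _ _).trans (mul_le_mul ?_ ?_ (norm_nonneg _) (by positivity))
            all_goals first | exact hRn | exact hL
        _ = 8 / η ^ 2 * ((n + 1 : ℝ) ^ 2 / l ^ 2 * u) := by ring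
        _ ≤ _ := mul_le_mul_of_nonneg_left (mul_le_mul (hW 2 2 (by norm_num) (by norm_num)) (b2.trans hp)
            hu (by positivity)) (by positivity)
    have a4 : ‖Φ₂ (vecMulVec d d)‖ ≤ K2 * (W * pos) := by
      refine hQ.trans ?_
      calc K2 * (n + 1 : ℝ) ^ 4 / l ^ 4 * u ^ 2 = K2 * ((n + 1 : ℝ) ^ 4 / l ^ 4 * u ^ 2) := by ring
        _ ≤ _ := mul_le_mul_of_nonneg_left (mul_le_mul (hW 4 4 (by norm_num) (by norm_num)) (b3.trans hp)
            (sq_nonneg u) (by positivity)) (by positivity)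
    have hcst : cst = (2 * KE + Kb) * W := by simp only [cst, W]; ring
    calc ‖rCut (η / 2) β t' J m' - R - poly‖
        ≤ (‖rCut (η / 2) β t' J m'‖ + ‖R‖) +
          ((‖θ ^ 2 • T‖ + ‖Φ₁ d‖) + ‖Φ₂ (vecMulVec d d)‖) :=
          (norm_sub_le _ _).trans (add_le_add (norm_sub_le _ _)
            ((norm_add_le _ _).trans (add_le_add (norm_add_le _ _) le_rfl)))
      _ ≤ Kb * (W * pos) := by
          simp only [Kb]
          linarith
      _ ≤ cst * pos := by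
          rw [hcst, ← mul_assoc]
          have : 0 ≤ pos := le_trans (by positivity) hp
          gcongr
          linarith

/-- expectation of a quadratic polynomial of a bounded centred vector -/
lemma kern_quadratic (J B : Matrix (Fin n) (Fin n) ℝ) (s θ : ℝ) (y : Fin n → ℝ)
    (d : (Fin n → ℝ) → Fin n → ℝ) (hdm : ∀ k, Measurable fun Y => d Y k) (hdb : ∀ k Y, |d Y k| ≤ 2)
    (hd0 : ∀ k, kern J B s θ y (fun Y => d Y k) = 0) (C : ℝ) (a₁ : Fin n → ℝ) (a₂ : Fin n → Fin n → ℝ) :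
    let q := fun Y => C + ((∑ k, d Y k * a₁ k) + ∑ k, ∑ l, d Y k * d Y l * a₂ k l)
    Measurable q ∧ (∀ Y, |q Y| ≤ |C| + ((∑ k, 2 * |a₁ k|) + ∑ k, ∑ l, 4 * |a₂ k l|)) ∧
      kern J B s θ y q = C + ∑ k, ∑ l, kern J B s θ y (fun Y => d Y k * d Y l) * a₂ k l := by
  intro q
  have m1 : ∀ k, Measurable fun Y => d Y k * a₁ k := fun k => (hdm k).mul_const _
  have b1 : ∀ k Y, |d Y k * a₁ k| ≤ 2 * |a₁ k| := fun k Y => by
    rw [abs_mul]; exact mul_le_mul_of_nonneg_right (hdb k Y) (abs_nonneg _)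
  have m2 : ∀ k l, Measurable fun Y => d Y k * d Y l * a₂ k l := fun k l => ((hdm k).mul (hdm l)).mul_const _
  have b2 : ∀ k l Y, |d Y k * d Y l * a₂ k l| ≤ 4 * |a₂ k l| := fun k l Y => by
    rw [abs_mul, abs_mul]
    exact mul_le_mul_of_nonneg_right
      (le_trans (mul_le_mul (hdb k Y) (hdb l Y) (abs_nonneg _) (by norm_num)) (by norm_num)) (abs_nonneg _)
  have s1b : ∀ Y, |∑ k, d Y k * a₁ k| ≤ ∑ k, 2 * |a₁ k| := fun Y =>
    (Finset.abs_sum_le_sum_abs _ _).trans (Finset.sum_le_sum fun k _ => b1 k Y)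
  have s2b' : ∀ k Y, |∑ l, d Y k * d Y l * a₂ k l| ≤ ∑ l, 4 * |a₂ k l| := fun k Y =>
    (Finset.abs_sum_le_sum_abs _ _).trans (Finset.sum_le_sum fun l _ => b2 k l Y)
  have s2b : ∀ Y, |∑ k, ∑ l, d Y k * d Y l * a₂ k l| ≤ ∑ k, ∑ l, 4 * |a₂ k l| := fun Y =>
    (Finset.abs_sum_le_sum_abs _ _).trans (Finset.sum_le_sum fun k _ => s2b' k Y)
  have hs1 : Measurable fun Y => ∑ k, d Y k * a₁ k := Finset.measurable_sum _ fun k _ => m1 k
  have hs2' : ∀ k, Measurable fun Y => ∑ l, d Y k * d Y l * a₂ k l := fun k => Finset.measurable_sum _ fun l _ => m2 k l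
  have hs2 : Measurable fun Y => ∑ k, ∑ l, d Y k * d Y l * a₂ k l := Finset.measurable_sum _ fun k _ => hs2' k
  refine ⟨measurable_const.add (hs1.add hs2),
    fun Y => (abs_add_le _ _).trans (add_le_add le_rfl ((abs_add_le _ _).trans (add_le_add (s1b Y) (s2b Y)))), ?_⟩
  have hlin : ∀ (a : ℝ) (F : (Fin n → ℝ) → ℝ), kern J B s θ y (fun Y => F Y * a) = kern J B s θ y F * a := fun a F => by
    rw [mul_comm (kern J B s θ y F), ← kern_smul]; simp only [mul_comm a]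
  show kern J B s θ y (fun Y => C + ((∑ k, d Y k * a₁ k) + ∑ k, ∑ l, d Y k * d Y l * a₂ k l)) = _
  rw [kern_add J B s θ y (F := fun _ => C) (G := fun Y => (∑ k, d Y k * a₁ k) + ∑ k, ∑ l, d Y k * d Y l * a₂ k l)
    measurable_const (fun _ => le_rfl) (hs1.add hs2)
    (fun Y => (abs_add_le _ _).trans (add_le_add (s1b Y) (s2b Y))), kern_const,
    kern_add J B s θ y hs1 s1b hs2 s2b,
    kern_sum J B s θ y Finset.univ (fun k Y => d Y k * a₁ k) _ m1 b1,
    kern_sum J B s θ y Finset.univ (fun k Y => ∑ l, d Y k * d Y l * a₂ k l) _ hs2' s2b']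
  rw [Finset.sum_eq_zero fun k _ => by rw [hlin, hd0, zero_mul], zero_add]
  congr 1
  refine Finset.sum_congr rfl fun k _ => ?_
  rw [kern_sum J B s θ y Finset.univ (fun l Y => d Y k * d Y l * a₂ k l) _ (m2 k) (b2 k)]
  exact Finset.sum_congr rfl fun l _ => hlin _ _

/-- expectation of a pointwise bound -/
lemma kern_close (J B : Matrix (Fin n) (Fin n) ℝ) (s θ : ℝ) (y : Fin n → ℝ) {G q u : (Fin n → ℝ) → ℝ}
    {Mg Mq Mu cst r a b : ℝ} (hG : Measurable G) (hGb : ∀ Y, |G Y| ≤ Mg) (hq : Measurable q)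
    (hqb : ∀ Y, |q Y| ≤ Mq) (hu : Measurable u) (hub : ∀ Y, |u Y| ≤ Mu)
    (h : ∀ Y, |G Y - r - q Y| ≤ cst * (a + b * u Y)) :
    |kern J B s θ y G - r - kern J B s θ y q| ≤ cst * (a + b * kern J B s θ y u) := by
  have hq1 : ∀ Y, |(-r) + (-1) * q Y| ≤ |r| + Mq := fun Y =>
    (abs_add_le _ _).trans (by simpa using hqb Y)
  have e : kern J B s θ y (fun Y => G Y + ((-r) + (-1) * q Y)) = kern J B s θ y G - r - kern J B s θ y q := by
    rw [kern_add J B s θ y (F := G) (G := fun Y => (-r) + (-1) * q Y) hG hGb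
      (measurable_const.add (hq.const_mul _)) hq1, kern_affine J B s θ y (-r) (-1) hq hqb]
    ring
  have hm : Measurable fun Y => G Y + ((-r) + (-1) * q Y) := hG.add (measurable_const.add (hq.const_mul _))
  have hb : ∀ Y, |G Y + ((-r) + (-1) * q Y)| ≤ Mg + (|r| + Mq) := fun Y =>
    (abs_add_le _ _).trans (add_le_add (hGb Y) (hq1 Y))
  have hmu : ∀ k : ℝ, Measurable fun Y => k * a + (k * b) * u Y := fun k => measurable_const.add (hu.const_mul _)
  have hbu : ∀ k : ℝ, ∀ Y, |k * a + (k * b) * u Y| ≤ |k * a| + |k * b| * Mu := fun k Y =>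
    (abs_add_le _ _).trans (add_le_add le_rfl (by
      rw [abs_mul]; exact mul_le_mul_of_nonneg_left (hub Y) (abs_nonneg _)))
  have hup := kern_mono J B s θ y hm hb (hmu cst) (hbu cst) fun Y => by
    linarith [(abs_le.1 (h Y)).2]
  have hlo := kern_mono J B s θ y (hmu (-cst)) (hbu (-cst)) hm hb fun Y => by
    linarith [(abs_le.1 (h Y)).1]
  rw [e, kern_affine J B s θ y _ _ hu hub] at hup hlo
  rw [abs_le]; constructor <;> linarith

/-- the scalar bookkeeping of one step -/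
lemma step_scalar {N l θ δ kappa A KM K2 K m3 : ℝ} (hN : 1 ≤ N) (hl : 0 < l) (hl1 : l ≤ 1) (hθ : 0 < θ)
    (hδ : 0 < δ) (hδ1 : δ ≤ 1) (hA : 0 ≤ A) (hKM : 0 ≤ KM) (hK2 : 0 ≤ K2) (hk : 0 ≤ kappa) (hkN : kappa ≤ N)
    (hm3 : m3 ≤ KM * N ^ 4 * θ ^ 3) (hK : A * (KM + 1) + 3 * K2 * KM ≤ K) :
    A * N ^ 8 / l ^ 12 * (θ ^ 3 + (δ ^ 3)⁻¹ * m3) +
        3 * (K2 * N ^ 4 / l ^ 4) * kappa ^ 2 * (KM * N ^ 4 * θ ^ 3) ≤ K * N ^ 18 / l ^ 12 * (θ ^ 3 / δ ^ 3) := by
  set Z := N ^ 18 / l ^ 12 * (θ ^ 3 / δ ^ 3)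
  have hδ3 : θ ^ 3 ≤ θ ^ 3 / δ ^ 3 := by
    rw [le_div_iff₀ (by positivity)]
    exact mul_le_of_le_one_right (by positivity) (pow_le_one₀ hδ.le hδ1)
  have h2 : θ ^ 3 + (δ ^ 3)⁻¹ * m3 ≤ (KM + 1) * N ^ 4 * (θ ^ 3 / δ ^ 3) := by
    have h3 : θ ^ 3 ≤ N ^ 4 * (θ ^ 3 / δ ^ 3) :=
      hδ3.trans (le_mul_of_one_le_left (by positivity) (one_le_pow₀ hN))
    have h4 : (δ ^ 3)⁻¹ * m3 ≤ KM * N ^ 4 * (θ ^ 3 / δ ^ 3) :=
      (mul_le_mul_of_nonneg_left hm3 (by positivity)).trans (le_of_eq (by ring))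
    linarith
  have z1 : A * N ^ 8 / l ^ 12 * (θ ^ 3 + (δ ^ 3)⁻¹ * m3) ≤ A * (KM + 1) * Z := by
    refine (mul_le_mul_of_nonneg_left h2 (by positivity)).trans ?_
    calc A * N ^ 8 / l ^ 12 * ((KM + 1) * N ^ 4 * (θ ^ 3 / δ ^ 3))
        = A * (KM + 1) * (N ^ 12 / l ^ 12 * (θ ^ 3 / δ ^ 3)) := by ring
      _ ≤ _ := mul_le_mul_of_nonneg_left (mul_le_mul_of_nonneg_right
          (div_le_div_of_nonneg_right (pow_le_pow_right₀ hN (by norm_num)) (by positivity))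
          (by positivity)) (by positivity)
  have z2 : 3 * (K2 * N ^ 4 / l ^ 4) * kappa ^ 2 * (KM * N ^ 4 * θ ^ 3) ≤ 3 * K2 * KM * Z := by
    calc _ = 3 * K2 * KM * (N ^ 8 * kappa ^ 2 / l ^ 4 * θ ^ 3) := by ring
      _ ≤ _ := by
          refine mul_le_mul_of_nonneg_left (mul_le_mul ?_ hδ3 (by positivity) (by positivity)) (by positivity)
          refine div_le_div₀ (by positivity) ?_ (by positivity) (pow_le_pow_of_le_one hl.le hl1 (by norm_num))
          calc N ^ 8 * kappa ^ 2 ≤ N ^ 8 * N ^ 10 := mul_le_mul_of_nonneg_left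
                ((pow_le_pow_left₀ hk hkN 2).trans (pow_le_pow_right₀ hN (by norm_num))) (by positivity)
            _ = _ := by ring
  calc _ ≤ A * (KM + 1) * Z + 3 * K2 * KM * Z := add_le_add z1 z2
    _ ≤ K * Z := by rw [← add_mul]; exact mul_le_mul_of_nonneg_right hK (by positivity)
    _ = _ := by simp only [Z]; ring

lemma nrm_cube_bdd {d : Fin n → ℝ} (h : ∀ k, |d k| ≤ 2) : |nrm d ^ 3| ≤ (2 * (n + 1 : ℝ)) ^ 3 := by
  rw [abs_of_nonneg (pow_nonneg (nrm_nonneg _) 3)]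
  refine pow_le_pow_left₀ (nrm_nonneg _) ((Real.sqrt_le_left (by positivity)).2 ?_) 3
  calc ∑ k, d k ^ 2 ≤ ∑ _k : Fin n, (4 : ℝ) := Finset.sum_le_sum fun k _ => by
        nlinarith [abs_le.1 (h k)]
    _ = 4 * n := by simp [mul_comm]
    _ ≤ _ := by nlinarith [(Nat.cast_nonneg n : (0:ℝ) ≤ n)]

/-- One short step displaces the inverse Jacobian by its second-order drift. -/
theorem step_rCut {β Λ η : ℝ} (hβ : 0 ≤ β) (hβ1 : β < 1) (hΛ : 0 < Λ) (hη : 0 < η) (hη1 : η ≤ 1)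
    (hS : SqRank) (hE : ExpandR) (hMo : MomentFacts) :
    ∃ K : ℝ, 0 < K ∧ ∀ (n : ℕ) (c : ℝ) (J B : Matrix (Fin n) (Fin n) ℝ), Ctl Λ c J B →
    ∀ (t θ l δ : ℝ) (y : Fin n → ℝ), 0 ≤ t → 0 < θ → θ ≤ 1 → θ ^ 2 * n ≤ 1 → t + θ ^ 2 ≤ 1 → 0 < l → l ≤ 1 →
      0 < δ → δ ≤ 1 → K * (n + 1 : ℝ) ^ 4 * (θ ^ 2 + δ) ≤ l ^ 4 →
      (∀ i, l ≤ 1 - mean J t y i ^ 2) →
      (∀ v : Fin n → ℝ, η * ∑ i, v i ^ 2 ≤ v ⬝ᵥ kHat β t J (mean J t y) *ᵥ v) →
      let R := (kHat β t J (mean J t y))⁻¹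
      ∀ i j, |kern J B t θ y (fun Y => rCut (η / 2) β (t + θ ^ 2) J (mean J (t + θ ^ 2) Y) i j) - R i j -
          θ ^ 2 * (-(R * Drift.tMat β t J (mean J t y) * R) +
            quadMap β t (mean J t y) R (cov J t y * (J + c • 1) * cov J t y)) i j| ≤
        K * (n + 1 : ℝ) ^ 18 / l ^ 12 * (θ ^ 3 / δ ^ 3) := by
  obtain ⟨KE, hKE, hEx⟩ := hE β Λ η hβ hβ1 hΛ hη hη1
  obtain ⟨KM, hKM, hMom⟩ := hMo Λ hΛ
  set Kb := 3 / η + (6 + Λ) / η ^ 2 + 8 / η ^ 2 + (64 / η ^ 3 + 8 / η ^ 2)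
  have hKb : 0 < Kb := by positivity
  set K2 := 64 / η ^ 3 + 8 / η ^ 2
  refine ⟨KE + (2 * KE + Kb) * (KM + 1) + 3 * K2 * KM, by positivity, fun n c J B hJ t θ l δ y ht hθ hθ1 hθn
    ht1 hl hl1 hδ hδ1 hsm hlm hco => ?_⟩
  set K := KE + (2 * KE + Kb) * (KM + 1) + 3 * K2 * KM
  have hK : KE ≤ K ∧ (2 * KE + Kb) * (KM + 1) + 3 * K2 * KM ≤ K :=
    ⟨by
      have : 0 ≤ (2 * KE + Kb) * (KM + 1) + 3 * K2 * KM := by positivity
      linarith, by linarith⟩
  intro R i j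
  set m := mean J t y with hm'
  set t' := t + θ ^ 2
  have hmlt : ∀ k, |m k| < 1 := abs_mean_lt J t y
  have htI : t ∈ Set.Icc (0 : ℝ) 1 := ⟨ht, by linarith [sq_nonneg θ]⟩
  have hRn : ‖R‖ ≤ 1 / η := Fast.OpNorm.opLe_iff_norm_le.1 (Fast.OpNorm.opLe_inv_of_coercive hη hco)
  have hRs : R.IsSymm := by
    show Rᵀ = R
    rw [Matrix.transpose_nonsing_inv, (kHat_symm hJ m).eq]
  set T := -(R * Drift.tMat β t J m * R)
  set Φ₁ := linMap β t m R
  set Φ₂ := quadMap β t m R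
  set d := fun (Y : Fin n → ℝ) => fun k => mean J t' Y k - m k with hd
  set poly := fun Y : Fin n → ℝ => θ ^ 2 • T + Φ₁ (d Y) + Φ₂ (vecMulVec (d Y) (d Y)) with hpoly
  set cst := (2 * KE + Kb) * (n + 1 : ℝ) ^ 8 / l ^ 12
  set pos : (Fin n → ℝ) → ℝ := fun Y => θ ^ 3 + nrm (d Y) ^ 3 / δ ^ 3
  have hn1 : (1 : ℝ) ≤ (n + 1 : ℝ) := by linarith [(Nat.cast_nonneg n : (0:ℝ) ≤ n)]
  have hδ3 : δ ^ 3 ≤ 1 := pow_le_one₀ hδ.le hδ1
  have pt : ∀ Y, ‖rCut (η / 2) β t' J (mean J t' Y) - R - poly Y‖ ≤ cst * pos Y := fun Y => by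
    refine step_pt hS hJ hΛ hβ hβ1 hη hKE htI hθ hθ1 hl hl1 hδ hδ1 hmlt hlm hRs hRn (mean J t' Y) fun hgood => ?_
    have hsm' : KE * (n + 1 : ℝ) ^ 4 * (θ ^ 2 + nrm (mean J t' Y - m)) ≤ l ^ 4 :=
      le_trans (mul_le_mul (mul_le_mul_of_nonneg_right hK.1 (by positivity)) (by linarith)
        (add_nonneg (sq_nonneg θ) (nrm_nonneg _)) (by positivity)) hsm
    obtain ⟨-, hc', hb⟩ := hEx n c J B hJ t (θ ^ 2) ht (sq_nonneg θ) ht1 m (mean J t' Y - m) l hl hl1 hmlt hlm hsm' hco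
    rw [add_sub_cancel] at hc' hb
    exact ⟨hc', hb⟩
  -- expectations
  obtain ⟨-, hMd, hMdd, hM3⟩ := hMom n c J B hJ t θ y hθ.le hθn
  have hmeas : Measurable fun Y => mean J t' Y :=
    measurable_pi_iff.2 fun k => measurable_avg _ _
  have hdm : ∀ k, Measurable fun Y => d Y k := fun k =>
    ((measurable_pi_apply k).comp hmeas).sub_const _
  have hdb : ∀ k Y, |d Y k| ≤ 2 := fun k Y =>
    (abs_sub _ _).trans (by linarith [abs_mean_lt J t' Y k, hmlt k])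
  set G := fun Y => rCut (η / 2) β t' J (mean J t' Y) i j with hG
  have hGm : Measurable G := (measurable_rCut _ _ _ _ i j).comp hmeas
  have hGb : ∀ Y, |G Y| ≤ 2 / η := fun Y => by
    refine (abs_entry_le_norm _ i j).trans ((norm_rCut _ β t' (by linarith) J _).trans (le_of_eq ?_))
    field_simp
  set a₁ := fun k => Φ₁ (Pi.single k 1) i j
  set a₂ := fun (k : Fin n) (l : Fin n) => Φ₂ (Matrix.single k l 1) i j
  have hpolye : ∀ Y, poly Y i j = θ ^ 2 * T i j + ((∑ k, d Y k * a₁ k) + ∑ k, ∑ l, d Y k * d Y l * a₂ k l) := fun Y => by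
    rw [hpoly]
    simp only [Matrix.add_apply, Matrix.smul_apply, smul_eq_mul, a₁, a₂]
    rw [linMap_eq_sum Φ₁ (d Y) i j, map_eq_sum Φ₂ (vecMulVec (d Y) (d Y)) i j]
    simp only [vecMulVec_apply]
    ring
  set P := Matrix.of fun k l => kern J B t θ y fun Y => d Y k * d Y l with hPdef
  set q := fun Y => poly Y i j with hq
  obtain ⟨hqm', hqb', hkq'⟩ := kern_quadratic J B t θ y d hdm hdb hMd (θ ^ 2 * T i j) a₁ a₂
  have hqe : q = fun Y => θ ^ 2 * T i j + ((∑ k, d Y k * a₁ k) + ∑ k, ∑ l, d Y k * d Y l * a₂ k l) := funext hpolye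
  have kq : kern J B t θ y q = θ ^ 2 * T i j + Φ₂ P i j := by
    rw [hqe, hkq', map_eq_sum Φ₂ P i j]; rfl
  have hqm : Measurable q := by rw [hqe]; exact hqm'
  set Mq := |θ ^ 2 * T i j| + ((∑ k, 2 * |a₁ k|) + ∑ k, ∑ l, 4 * |a₂ k l|)
  have hqb : ∀ Y, |q Y| ≤ Mq := fun Y => by rw [hqe]; exact hqb' Y
  have hu3m : Measurable fun Y => nrm (d Y) ^ 3 :=
    (Real.continuous_sqrt.measurable.comp (Finset.measurable_sum _ fun k _ => (hdm k).pow_const 2)).pow_const 3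
  have hnb : ∀ Y, |nrm (d Y) ^ 3| ≤ (2 * (n + 1 : ℝ)) ^ 3 := fun Y => nrm_cube_bdd fun k => hdb k Y
  have hclose := kern_close J B t θ y (r := R i j) (cst := cst) (a := θ ^ 3) (b := (δ ^ 3)⁻¹)
    hGm hGb hqm hqb hu3m hnb fun Y => by
      have := (abs_entry_le_norm _ i j).trans (pt Y)
      simp only [Matrix.sub_apply] at this
      simp only [hG, hq, ← div_eq_inv_mul]
      exact this
  rw [kq] at hclose
  have hPsymm : (P - θ ^ 2 • (cov J t y * (J + c • 1) * cov J t y)).IsSymm := by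
    refine Matrix.IsSymm.sub ?_ (Matrix.IsSymm.smul ?_ _)
    · ext a b; simp only [Matrix.transpose_apply, hPdef, Matrix.of_apply, mul_comm (d _ a)]
    · obtain ⟨hcs, -⟩ := cov_facts J t y
      have hA : (J + c • (1 : Matrix (Fin n) (Fin n) ℝ)).IsSymm :=
        Matrix.IsSymm.add (Matrix.ext fun a b => hJ.symm b a) (Matrix.isSymm_one.smul c)
      show (cov J t y * (J + c • 1) * cov J t y)ᵀ = _
      rw [Matrix.transpose_mul, Matrix.transpose_mul, hcs.eq, hA.eq, Matrix.mul_assoc]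
  have hΔ : ∀ a b, |(P - θ ^ 2 • (cov J t y * (J + c • 1) * cov J t y)) a b| ≤
      KM * (n + 1 : ℝ) ^ 4 * θ ^ 3 := fun a b => by
    simp only [Matrix.sub_apply, Matrix.smul_apply, smul_eq_mul, hPdef, Matrix.of_apply]
    exact hMdd a b
  have hquad : |Φ₂ P i j - θ ^ 2 * Φ₂ (cov J t y * (J + c • 1) * cov J t y) i j| ≤
      3 * (K2 * (n + 1 : ℝ) ^ 4 / l ^ 4) * n ^ 2 * (KM * (n + 1 : ℝ) ^ 4 * θ ^ 3) := by
    have := (abs_entry_le_norm _ i j).trans (norm_quadMap_symm (by positivity) Φ₂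
      (fun u => norm_quadMap_rankOne hS hJ hβ hβ1 htI hη hl hl1 hmlt hlm R hRs hRn u) _ hPsymm hΔ)
    rw [map_sub, map_smul, Matrix.sub_apply, Matrix.smul_apply, smul_eq_mul] at this
    exact this
  have hfin := step_scalar (A := 2 * KE + Kb) hn1 hl hl1 hθ hδ hδ1 (by positivity) hKM.le
    (K2 := K2) (by positivity) (Nat.cast_nonneg n) (by linarith) hM3 hK.2
  refine le_trans ?_ hfin
  refine le_trans (le_of_eq ?_) ((abs_add_le _ _).trans (add_le_add hclose hquad))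
  simp only [T, Φ₂, Matrix.add_apply, hG]
  ring_nf

end Vale.Agent.P150.PartB
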