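import Vale.Agent.P150.Fast.PartB.InductionSpec
import Vale.Agent.P150.Fast.PartB.StepR
import Vale.Agent.P150.Fast.PartB.Drift
import Vale.Agent.P150.Fast.PartB.StepRes

/-!
# P150, Part B: one short step of `cov - kHat⁻¹` (`StepE`)

The expected covariance drops by the second moment of the displacement of the mean, the inverse
Jacobian moves by `step_rCut`, and `driftAlgebra` puts the difference in the form `D (psiMain + X) D`.
-/

open MeasureTheory Matrix
open scoped Matrix.Norms.L2Operator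

namespace Vale.Agent.P150.PartB

variable {n : ℕ}

/-- The expected covariance one step later. -/
lemma kern_cov_step {Λ c : ℝ} {J B : Matrix (Fin n) (Fin n) ℝ} (hJ : Ctl Λ c J B) (t θ : ℝ)
    (y : Fin n → ℝ) (i j : Fin n)
    (hd : ∀ k, kern J B t θ y (fun Y => mean J (t + θ ^ 2) Y k - mean J t y k) = 0) :
    kern J B t θ y (fun Y => cov J (t + θ ^ 2) Y i j) = cov J t y i j -
      kern J B t θ y (fun Y => (mean J (t + θ ^ 2) Y i - mean J t y i) *
        (mean J (t + θ ^ 2) Y j - mean J t y j)) := by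
  set f : Cfg n → ℝ := fun x => spin (x i) * spin (x j)
  set d := fun (Y : Fin n → ℝ) k => mean J (t + θ ^ 2) Y k - mean J t y k
  set A := fun Y => Ising.avg ((1 - (t + θ ^ 2)) • J) Y f
  have hdm : ∀ k, Measurable fun Y => d Y k := fun k => (measurable_avg _ _).sub_const _
  have hdb : ∀ k Y, |d Y k| ≤ 2 := fun k Y =>
    (abs_sub _ _).trans (by linarith [abs_mean_lt J (t + θ ^ 2) Y k, abs_mean_lt J t y k])
  have hAm : Measurable A := measurable_avg _ f
  have hAb : ∀ Y, |A Y| ≤ 1 := fun Y => abs_avg_le _ Y fun x => by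
    cases hx : x i <;> cases hy : x j <;> simp [f, spin, hx, hy]
  set q := fun Y => mean J t y i * mean J t y j + mean J t y j * d Y i + mean J t y i * d Y j + d Y i * d Y j
  have e : (fun Y => cov J (t + θ ^ 2) Y i j) = fun Y => A Y + (-1) * q Y := by
    funext Y
    show A Y - mean J (t + θ ^ 2) Y i * mean J (t + θ ^ 2) Y j = A Y + (-1) * q Y
    simp only [q, d]
    ring
  have m1 : Measurable fun Y => mean J t y i * mean J t y j + mean J t y j * d Y i :=
    measurable_const.add ((hdm i).const_mul _)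
  have b1 : ∀ Y, |mean J t y i * mean J t y j + mean J t y j * d Y i| ≤ 3 := fun Y => by
    refine (abs_add_le _ _).trans ?_
    rw [abs_mul, abs_mul]
    have := (abs_mean_lt J t y i).le
    have := (abs_mean_lt J t y j).le
    have := mul_le_mul ‹|mean J t y i| ≤ 1› ‹|mean J t y j| ≤ 1› (abs_nonneg _) zero_le_one
    have := mul_le_mul ‹|mean J t y j| ≤ 1› (hdb i Y) (abs_nonneg _) zero_le_one
    linarith
  have m2 : Measurable fun Y => mean J t y i * d Y j := (hdm j).const_mul _
  have b2 : ∀ Y, |mean J t y i * d Y j| ≤ 2 := fun Y => by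
    rw [abs_mul]
    exact (mul_le_mul (abs_mean_lt J t y i).le (hdb j Y) (abs_nonneg _) zero_le_one).trans (one_mul _).le
  have m3 : Measurable fun Y => d Y i * d Y j := (hdm i).mul (hdm j)
  have b3 : ∀ Y, |d Y i * d Y j| ≤ 4 := fun Y => by
    rw [abs_mul]; exact (mul_le_mul (hdb i Y) (hdb j Y) (abs_nonneg _) two_pos.le).trans (by norm_num)
  have hqb : ∀ Y, |q Y| ≤ 3 + 2 + 4 := fun Y =>
    (abs_add_le _ _).trans (add_le_add ((abs_add_le _ _).trans (add_le_add (b1 Y) (b2 Y))) (b3 Y))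
  have hqm : Measurable q := (m1.add m2).add m3
  have hk : kern J B t θ y q = mean J t y i * mean J t y j + kern J B t θ y fun Y => d Y i * d Y j := by
    rw [kern_add J B t θ y (F := fun Y => mean J t y i * mean J t y j + mean J t y j * d Y i + mean J t y i * d Y j)
        (G := fun Y => d Y i * d Y j) (m1.add m2) (M := 3 + 2)
        (fun Y => (abs_add_le _ _).trans (add_le_add (b1 Y) (b2 Y))) m3 b3,
      kern_add J B t θ y m1 b1 m2 b2, kern_affine J B t θ y _ _ (hdm i) (hdb i), kern_smul, hd, hd]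
    ring
  rw [e, kern_add J B t θ y hAm hAb (G := fun Y => (-1) * q Y) (hqm.const_mul (-1)) (M' := 9)
      (fun Y => by rw [abs_mul, abs_neg, abs_one, one_mul]; linarith [hqb Y]), kern_smul, hk,
    show kern J B t θ y A = Ising.avg ((1 - t) • J) y f from kern_avg hJ t θ y f]
  show _ = (Ising.avg ((1 - t) • J) y f - mean J t y i * mean J t y j) - _
  simp only [d]
  ring

open StepProof in
theorem stepE (hE : ExpandR) (hP : PsiLip) : StepE := by
  intro β c Λ η K₀ hβ hβ1 hΛ hη hη1 hK₀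
  obtain ⟨KR, hKR, hR⟩ := step_rCut (β := β) (Λ := Λ) hβ hβ1 hΛ hη hη1
    (fun n β t m d R hR => Drift.sqLin_rankOne β t m d R hR) hE momentFacts
  obtain ⟨KP, hKP, hPs⟩ := hP β c Λ η hβ hβ1 hΛ hη K₀ hK₀
  obtain ⟨KD, hKD, hD⟩ := driftAlgebra β c Λ (max K₀ KP) hβ hβ1 hΛ (lt_max_of_lt_left hK₀)
  obtain ⟨KM, hKM, hM⟩ := momentFacts Λ hΛ
  refine ⟨KR + KM + KD, by positivity, fun n J B hJ t θ l δ y ht hθ hθ1 hθn ht1 hl hl1 hδ hδ1 hsm hlm hF hco => ?_⟩
  intro m
  have htI : t ∈ Set.Icc (0 : ℝ) 1 := ⟨ht, by linarith [sq_nonneg θ]⟩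
  have hm : ∀ i, |m i| < 1 := abs_mean_lt J t y
  obtain ⟨-, hinv, hHn, -, -⟩ := hPs n J B hJ t t htI htI m hm hco
  set H := hMat β t J m
  set F := fMat J t y
  have hRe : (kHat β t J m)⁻¹ = dMat m + dMat m * H * dMat m := Matrix.inv_eq_right_inv hinv
  have hDp : ∀ i, 1 - m i ^ 2 ≠ 0 := fun i => (D_pos hJ t y i).1.ne'
  have hHs : H.IsSymm := by
    have hs : (dMat m + dMat m * H * dMat m).IsSymm := by
      rw [← hRe]
      show _ = _
      rw [Matrix.transpose_nonsing_inv, (kHat_symm hJ m).eq]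
    ext i j
    have h := hs.apply i j
    simp only [Matrix.add_apply, dMat, Matrix.mul_diagonal, Matrix.diagonal_mul] at h
    rw [Matrix.transpose_apply]
    rcases eq_or_ne i j with rfl | hij
    · rfl
    rw [Matrix.diagonal_apply_ne _ hij, Matrix.diagonal_apply_ne _ hij.symm, zero_add, zero_add] at h
    refine mul_left_cancel₀ (mul_ne_zero (hDp i) (hDp j)) ?_
    linear_combination h
  have hFs : F.IsSymm := by
    ext i j
    simp only [Matrix.transpose_apply, F, fMat, Matrix.of_apply, (cov_facts J t y).1.apply i j, eq_comm (a := i)]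
    rw [mul_comm (1 - mean J t y j ^ 2)]
  obtain ⟨X, hX, halg⟩ := hD n J B hJ t htI m H F hm hHs hFs (hHn.trans (le_max_right _ _))
    (hF.trans (le_max_left _ _))
  have hcut : rCut (η / 2) β t J m = (kHat β t J m)⁻¹ := by
    rw [rCut, if_pos]
    exact fun v => (mul_le_mul_of_nonneg_right (half_le_self hη.le)
      (Finset.sum_nonneg fun i _ => sq_nonneg _)).trans (hco v)
  have hC : cov J t y = dMat m + dMat m * F * dMat m := cov_eq hJ t y
  have hCAC : cov J t y * (J + c • 1) * cov J t y = dMat m * pMat (J + c • 1) m F * dMat m := by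
    rw [hC, pMat]; noncomm_ring
  refine ⟨?_, X, hX.trans (div_le_div_of_nonneg_right (by linarith) (Real.sqrt_nonneg _)), fun i j => ?_⟩
  · show cov J t y - rCut (η / 2) β t J m = _
    rw [hcut, hRe, hC]; noncomm_ring
  have hsmR : KR * (n + 1 : ℝ) ^ 4 * (θ ^ 2 + δ) ≤ l ^ 4 := le_trans (by gcongr; linarith) hsm
  have hRb := hR n c J B hJ t θ l δ y ht hθ hθ1 hθn ht1 hl hl1 hδ hδ1 hsmR hlm hco i j
  obtain ⟨-, hMd, hMdd, -⟩ := hM n c J B hJ t θ y hθ.le hθn
  have hMb := hMdd i j
  have hq : dMat m * (psiMain β t J (J + c • 1) m H F + X) * dMat m =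
      (-((kHat β t J m)⁻¹ * Drift.tMat β t J m * (kHat β t J m)⁻¹) +
        quadMap β t m (kHat β t J m)⁻¹ (cov J t y * (J + c • 1) * cov J t y)) +
      cov J t y * (J + c • 1) * cov J t y := by
    rw [hCAC, hRe, ← halg]
    simp only [quadMap, conjMap, LinearMap.comp_apply, LinearMap.sub_apply, LinearMap.mulLeft_apply,
      LinearMap.mulRight_apply]
    show _ = _ + (dMat m + dMat m * H * dMat m) * ((Drift.sqLin β t m _ _ - Drift.qLin β t m _) *
      (dMat m + dMat m * H * dMat m)) + _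
    noncomm_ring
  have hkE : kern J B t θ y (fun Y => eMat (η / 2) β (t + θ ^ 2) J Y i j) =
      kern J B t θ y (fun Y => cov J (t + θ ^ 2) Y i j) -
        kern J B t θ y (fun Y => rCut (η / 2) β (t + θ ^ 2) J (mean J (t + θ ^ 2) Y) i j) := by
    rw [sub_eq_add_neg, neg_eq_neg_one_mul, ← kern_smul, ← kern_add J B t θ y ?_ (M := 2) ?_ ?_ (M' := 2 / η) ?_]
    · congr 1; funext Y
      simp only [eMat, Matrix.sub_apply]; ring
    · simp only [cov, Matrix.of_apply, mean]
      exact (measurable_avg _ _).sub ((measurable_avg _ _).mul (measurable_avg _ _))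
    · exact fun Y => (cov_facts J (t + θ ^ 2) Y).2 i j
    · exact ((measurable_rCut _ _ _ _ i j).comp (measurable_pi_iff.2 fun k => measurable_avg _ _)).const_mul _
    · exact fun Y => by
        rw [abs_mul, abs_neg, abs_one, one_mul]
        refine (abs_entry_le_norm _ i j).trans ((norm_rCut _ β _ (half_pos hη) J _).trans (le_of_eq ?_))
        rw [one_div, inv_div]
  rw [hkE, kern_cov_step hJ t θ y i j hMd, hq]
  simp only [eMat, Matrix.sub_apply, Matrix.add_apply, show mean J t y = m from rfl, hcut]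
  simp only [Matrix.add_apply] at hRb
  refine le_trans (le_of_eq ?_) ((abs_add_le _ _).trans ((add_le_add hMb hRb).trans ?_))
  · congr 1; ring
  have hn1 : (1 : ℝ) ≤ (n + 1 : ℝ) := by linarith [(Nat.cast_nonneg n : (0 : ℝ) ≤ n)]
  have h1 : KM * (n + 1 : ℝ) ^ 4 * θ ^ 3 ≤ KM * (n + 1 : ℝ) ^ 18 / l ^ 12 * (θ ^ 3 / δ ^ 3) := by
    refine mul_le_mul ?_ ?_ (by positivity) (by positivity)
    · rw [le_div_iff₀ (by positivity)]
      exact (mul_le_of_le_one_right (by positivity) (pow_le_one₀ hl.le hl1)).trans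
        (mul_le_mul_of_nonneg_left (pow_le_pow_right₀ hn1 (by norm_num)) hKM.le)
    · rw [le_div_iff₀ (by positivity)]
      exact mul_le_of_le_one_right (by positivity) (pow_le_one₀ hδ.le hδ1)
  refine (add_le_add h1 le_rfl).trans ?_
  have h2 : 0 ≤ KD * (n + 1 : ℝ) ^ 18 / l ^ 12 * (θ ^ 3 / δ ^ 3) := by positivity
  calc _ ≤ KM * (n + 1 : ℝ) ^ 18 / l ^ 12 * (θ ^ 3 / δ ^ 3) + KR * (n + 1 : ℝ) ^ 18 / l ^ 12 * (θ ^ 3 / δ ^ 3) +
        KD * (n + 1 : ℝ) ^ 18 / l ^ 12 * (θ ^ 3 / δ ^ 3) := le_add_of_nonneg_right h2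
    _ = _ := by ring

end Vale.Agent.P150.PartB
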