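import Vale.Agent.P150.Fast.PartB.Induction
import Vale.Agent.P150.Fast.PartB.BlockStep
import Vale.Agent.P150.Fast.PartB.MacroBase
import Vale.Agent.P150.Fast.PartB.Params
import Vale.Agent.P150.Fast.PartB.BlockBarriers
import Vale.Agent.P150.Fast.PartB.Barrier
import Vale.Agent.P150.Fast.PartB.StepE
import Vale.Agent.P150.Fast.PartB.Expand
import Vale.Agent.P150.Fast.PartB.StepRes

/-!
# P150, Part B: `CovInduction`
-/

namespace Vale.Agent.P150.PartB

/-- the deterministic half of Part B, with no hypothesis -/
theorem covInduction : CovInduction :=
  covInduction_of (blockBarriers (barrier chanFacts) (stepE expandR psiLip) dStep resStep psiLip)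
    Macro.blockStep Macro.macroBase Par.parExists

end Vale.Agent.P150.PartB
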