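import Vale.Agent.P150.Stability

/-!
# P150, Part B: moments of a centred mixture of likelihoods

For weights `p` and vectors `a x` with `|a x|² ≤ S`, the deviation `∑ p g (ker - 1)` of a mixture from
its value at `θ = 0` has absolute third moment of order `θ³ (S + 1)²`, as long as `θ² S` is bounded.
-/

open MeasureTheory

namespace Vale.Agent.P150.PartB.GMix

variable {α ι : Type*} [Fintype α] [Fintype ι]

/-- continuous functions with at most exponential growth -/
def Adm (F : (ι → ℝ) → ℝ) : Prop :=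
  Continuous F ∧ ∃ C M : ℝ, ∀ z, |F z| ≤ C * Real.exp (M * l1 z)

lemma Adm.const (r : ℝ) : Adm (ι := ι) fun _ => r :=
  ⟨continuous_const, |r|, 0, fun z => by simp⟩

lemma Adm.mul {F G : (ι → ℝ) → ℝ} (hF : Adm F) (hG : Adm G) : Adm fun z => F z * G z := by
  obtain ⟨hc, C, M, h⟩ := hF
  obtain ⟨hc', C', M', h'⟩ := hG
  refine ⟨hc.mul hc', C * C', M + M', fun z => ?_⟩
  rw [abs_mul, add_mul, Real.exp_add, mul_mul_mul_comm]
  exact mul_le_mul (h z) (h' z) (abs_nonneg _) ((abs_nonneg _).trans (h z))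

lemma Adm.add {F G : (ι → ℝ) → ℝ} (hF : Adm F) (hG : Adm G) : Adm fun z => F z + G z := by
  obtain ⟨hc, C, M, h⟩ := hF
  obtain ⟨hc', C', M', h'⟩ := hG
  refine ⟨hc.add hc', |C| + |C'|, max M M', fun z => (abs_add_le _ _).trans ?_⟩
  have hl := l1_nonneg z
  rw [add_mul]
  refine add_le_add ((h z).trans ?_) ((h' z).trans ?_)
  · exact mul_le_mul (le_abs_self _)
      (Real.exp_le_exp.2 (mul_le_mul_of_nonneg_right (le_max_left _ _) hl)) (Real.exp_pos _).le
      (abs_nonneg _)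
  · exact mul_le_mul (le_abs_self _)
      (Real.exp_le_exp.2 (mul_le_mul_of_nonneg_right (le_max_right _ _) hl)) (Real.exp_pos _).le
      (abs_nonneg _)

lemma Adm.const_mul {F : (ι → ℝ) → ℝ} (r : ℝ) (hF : Adm F) : Adm fun z => r * F z :=
  (Adm.const r).mul hF

lemma Adm.sub {F G : (ι → ℝ) → ℝ} (hF : Adm F) (hG : Adm G) : Adm fun z => F z - G z := by
  simpa [sub_eq_add_neg] using hF.add (hG.const_mul (-1))

lemma Adm.pow {F : (ι → ℝ) → ℝ} (hF : Adm F) (k : ℕ) : Adm fun z => F z ^ k := by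
  induction k with
  | zero => simpa using Adm.const (ι := ι) 1
  | succ k ih => simpa [pow_succ] using ih.mul hF

lemma Adm.abs {F : (ι → ℝ) → ℝ} (hF : Adm F) : Adm fun z => |F z| := by
  obtain ⟨hc, C, M, h⟩ := hF
  exact ⟨hc.abs, C, M, fun z => by rw [abs_abs]; exact h z⟩

lemma Adm.integrable {F : (ι → ℝ) → ℝ} (hF : Adm F) : Integrable F (gauss ι) := by
  obtain ⟨hc, C, M, h⟩ := hF
  exact integrable_of_bound hc h

lemma adm_mix (c : α → ℝ) (a : α → ι → ℝ) (θ : ℝ) : Adm fun z => mix c a θ z := by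
  set A₀ := ∑ y, ∑ k, |a y k|
  have ha : ∀ x k, |a x k| ≤ A₀ := fun x k =>
    (Finset.single_le_sum (f := fun k => |a x k|) (fun _ _ => abs_nonneg _) (Finset.mem_univ k)).trans
      (Finset.single_le_sum (f := fun y => ∑ k, |a y k|)
        (fun y _ => Finset.sum_nonneg fun _ _ => abs_nonneg _) (Finset.mem_univ x))
  exact ⟨continuous_mix c a θ, _, _, fun z => abs_mix_le ha c θ z⟩

lemma adm_ker (a : α → ι → ℝ) (θ : ℝ) (x : α) : Adm fun z => ker a θ z x := by
  classical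
  have h := adm_mix (fun y => if y = x then (1 : ℝ) else 0) a θ
  simpa [mix] using h

/-- two likelihood factors -/
lemma integral_ker_ker (a : α → ι → ℝ) (θ : ℝ) (x y : α) :
    ∫ z, ker a θ z x * ker a θ z y ∂gauss ι = Real.exp (θ ^ 2 * dot (a x) (a y)) := by
  have e : ∀ z : ι → ℝ, ker a θ z x * ker a θ z y =
      Real.exp (-(θ ^ 2 / 2 * ∑ k, a x k ^ 2) - θ ^ 2 / 2 * ∑ k, a y k ^ 2) *
        Real.exp (dot (fun k => θ * a x k + θ * a y k) z) := fun z => by
    have h : dot (fun k => θ * a x k + θ * a y k) z = θ * dot (a x) z + θ * dot (a y) z := by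
      simp only [dot, Finset.mul_sum, ← Finset.sum_add_distrib]
      exact Finset.sum_congr rfl fun k _ => by ring
    rw [ker, ker, h, ← Real.exp_add, ← Real.exp_add]
    ring_nf
  simp only [e, integral_const_mul, mgf_dot]
  rw [← Real.exp_add]
  congr 1
  simp only [dot, Finset.mul_sum, Finset.sum_div, ← Finset.sum_neg_distrib, ← Finset.sum_sub_distrib,
    ← Finset.sum_add_distrib]
  exact Finset.sum_congr rfl fun k _ => by ring

/-- powers of one likelihood factor -/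
lemma integral_ker_pow (a : α → ι → ℝ) (θ : ℝ) (x : α) (p : ℕ) :
    ∫ z, ker a θ z x ^ p ∂gauss ι =
      Real.exp (((p : ℝ) ^ 2 - p) / 2 * (θ ^ 2 * ∑ k, a x k ^ 2)) := by
  have e : ∀ z : ι → ℝ, ker a θ z x ^ p =
      Real.exp (-((p : ℝ) * (θ ^ 2 / 2 * ∑ k, a x k ^ 2))) *
        Real.exp (dot (fun k => (p : ℝ) * θ * a x k) z) := fun z => by
    have h : dot (fun k => (p : ℝ) * θ * a x k) z = (p : ℝ) * (θ * dot (a x) z) := by
      simp only [dot, Finset.mul_sum]
      exact Finset.sum_congr rfl fun k _ => by ring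
    rw [ker, ← Real.exp_nat_mul, h, ← Real.exp_add]
    ring_nf
  simp only [e, integral_const_mul, mgf_dot, mul_pow, ← Finset.mul_sum]
  rw [← Real.exp_add]
  congr 1
  ring

lemma exp_sub_one_le (v : ℝ) : Real.exp v - 1 ≤ v * Real.exp v := by
  have h := mul_le_mul_of_nonneg_right (Real.add_one_le_exp (-v)) (Real.exp_pos v).le
  rw [← Real.exp_add, neg_add_cancel, Real.exp_zero] at h
  linarith

lemma exp_taylor_one {v S : ℝ} (hv : |v| ≤ S) :
    0 ≤ Real.exp v - 1 - v ∧ Real.exp v - 1 - v ≤ v ^ 2 * Real.exp S := by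
  have h0 := Real.add_one_le_exp v
  have h1 := exp_sub_one_le v
  refine ⟨by linarith, ?_⟩
  have h2 : Real.exp v - 1 - v ≤ v * (Real.exp v - 1) := by linarith
  refine h2.trans ?_
  rcases le_total 0 v with hv0 | hv0
  · have h3 : Real.exp v ≤ Real.exp S := Real.exp_le_exp.2 ((le_abs_self v).trans hv)
    calc v * (Real.exp v - 1) ≤ v * (v * Real.exp v) := mul_le_mul_of_nonneg_left h1 hv0
      _ ≤ v * (v * Real.exp S) := by gcongr
      _ = v ^ 2 * Real.exp S := by ring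
  · have h3 : (1 : ℝ) ≤ Real.exp S := Real.one_le_exp ((abs_nonneg v).trans hv)
    calc v * (Real.exp v - 1) = (-v) * (1 - Real.exp v) := by ring
      _ ≤ (-v) * (-v) := by
        have : 1 - Real.exp v ≤ -v := by linarith
        exact mul_le_mul_of_nonneg_left this (neg_nonneg.2 hv0)
      _ ≤ v ^ 2 * Real.exp S := by nlinarith [sq_nonneg v]

/-- second and fourth moments of a likelihood deviation -/
lemma ker_moments (a : α → ι → ℝ) (θ : ℝ) (x : α) {U : ℝ} (hU : θ ^ 2 * ∑ k, a x k ^ 2 ≤ U) :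
    ∫ z, (ker a θ z x - 1) ^ 2 ∂gauss ι ≤ Real.exp U * (θ ^ 2 * ∑ k, a x k ^ 2) ∧
      ∫ z, (ker a θ z x - 1) ^ 4 ∂gauss ι ≤
        100 * Real.exp (6 * U) * (θ ^ 2 * ∑ k, a x k ^ 2) ^ 2 := by
  set u := θ ^ 2 * ∑ k, a x k ^ 2 with hu
  have hu0 : 0 ≤ u := by positivity
  have hk := integral_ker_pow a θ x
  have i : ∀ p, Integrable (fun z => ker a θ z x ^ p) (gauss ι) := fun p =>
    ((adm_ker a θ x).pow p).integrable
  constructor
  · have e : ∀ z : ι → ℝ, (ker a θ z x - 1) ^ 2 =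
        (ker a θ z x ^ 2 - 2 * ker a θ z x ^ 1) + 1 := fun z => by ring
    simp only [e]
    rw [integral_add ((i 2).sub' ((i 1).const_mul 2)) (integrable_const _),
      integral_sub (i 2) ((i 1).const_mul 2), integral_const_mul, hk, hk]
    simp only [Nat.cast_ofNat, Nat.cast_one, integral_const, probReal_univ, smul_eq_mul, ← hu]
    norm_num
    have h1 := exp_sub_one_le u
    have h2 : u * Real.exp u ≤ Real.exp U * u := by
      rw [mul_comm u]; exact mul_le_mul_of_nonneg_right (Real.exp_le_exp.2 hU) hu0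
    linarith
  · have e : ∀ z : ι → ℝ, (ker a θ z x - 1) ^ 4 =
        ((ker a θ z x ^ 4 - 4 * ker a θ z x ^ 3) + 6 * ker a θ z x ^ 2) +
          ((-4) * ker a θ z x ^ 1 + 1) := fun z => by ring
    simp only [e]
    rw [integral_add (((i 4).sub' ((i 3).const_mul 4)).fun_add ((i 2).const_mul 6))
        (((i 1).const_mul _).fun_add (integrable_const _)),
      integral_add ((i 4).sub' ((i 3).const_mul 4)) ((i 2).const_mul 6),
      integral_sub (i 4) ((i 3).const_mul 4), integral_add ((i 1).const_mul _) (integrable_const _),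
      integral_const_mul, integral_const_mul, integral_const_mul, hk, hk, hk, hk]
    simp only [Nat.cast_ofNat, Nat.cast_one, integral_const, probReal_univ, smul_eq_mul, ← hu]
    norm_num
    have hU0 : 0 ≤ U := hu0.trans hU
    have t6 := (exp_taylor_one (v := 6 * u) (S := 6 * U) (by rw [abs_of_nonneg] <;> linarith)).2
    have t3 := (exp_taylor_one (v := 3 * u) (S := 6 * U) (by rw [abs_of_nonneg] <;> linarith)).1
    have t1 := (exp_taylor_one (v := u) (S := 6 * U) (by rw [abs_of_nonneg] <;> linarith)).2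
    have t0 : 0 ≤ u ^ 2 * Real.exp (6 * U) := by positivity
    linarith

lemma abs_cube_le (G : ℝ) {δ : ℝ} (hδ : 0 < δ) : |G| ^ 3 ≤ G ^ 4 / δ + δ * G ^ 2 := by
  have h : 0 ≤ |G| ^ 2 * (|G| - δ) ^ 2 := by positivity
  have h2 : 0 ≤ δ * |G| ^ 3 := by positivity
  rw [div_add' _ _ _ hδ.ne', le_div_iff₀ hδ, ← sq_abs G, show G ^ 4 = |G| ^ 4 from
    ((even_two_mul 2).pow_abs G).symm]
  nlinarith

/-- the deviation of a mixture -/
noncomputable def dev (p g : α → ℝ) (a : α → ι → ℝ) (θ : ℝ) (z : ι → ℝ) : ℝ :=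
  ∑ x, p x * g x * (ker a θ z x - 1)

lemma adm_dev (p g : α → ℝ) (a : α → ι → ℝ) (θ : ℝ) : Adm (dev p g a θ) := by
  have h := (adm_mix (fun x => p x * g x) a θ).sub (Adm.const (∑ x, p x * g x))
  refine (funext fun z => ?_ : dev p g a θ = _) ▸ h
  simp only [dev, mix, mul_sub, mul_one, Finset.sum_sub_distrib]

lemma dev_pow_le {p g : α → ℝ} (hp : ∀ x, 0 ≤ p x) (hp1 : ∑ x, p x = 1) {b : ℝ}
    (hg : ∀ x, |g x| ≤ b) {m : ℕ} (hm : Even m) (a : α → ι → ℝ) (θ : ℝ) (z : ι → ℝ) :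
    dev p g a θ z ^ m ≤ b ^ m * ∑ x, p x * (ker a θ z x - 1) ^ m := by
  have hj := (hm.convexOn_pow (𝕜 := ℝ)).map_sum_le (t := Finset.univ) (w := p)
    (p := fun x => g x * (ker a θ z x - 1)) (fun x _ => hp x) hp1 (fun x _ => Set.mem_univ _)
  simp only [smul_eq_mul, ← mul_assoc] at hj
  refine hj.trans ?_
  rw [Finset.mul_sum]
  refine Finset.sum_le_sum fun x _ => ?_
  rw [mul_pow, mul_left_comm (b ^ m) (p x)]
  refine mul_le_mul_of_nonneg_left ?_ (hp x)
  refine mul_le_mul_of_nonneg_right ?_ (hm.pow_nonneg _)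
  rw [← hm.pow_abs]
  exact pow_le_pow_left₀ (abs_nonneg _) (hg x) m

/-- third absolute moment of the deviation of a mixture -/
lemma dev_cube {p g : α → ℝ} (hp : ∀ x, 0 ≤ p x) (hp1 : ∑ x, p x = 1) {b : ℝ}
    (hg : ∀ x, |g x| ≤ b) (a : α → ι → ℝ) {θ S U : ℝ} (hθ : 0 ≤ θ)
    (hS : ∀ x, ∑ k, a x k ^ 2 ≤ S) (hS0 : 0 ≤ S) (hU : θ ^ 2 * S ≤ U) :
    ∫ z, |dev p g a θ z| ^ 3 ∂gauss ι ≤
      θ ^ 3 * (100 * Real.exp (6 * U) * b ^ 4 * S ^ 2 + Real.exp U * b ^ 2 * S) := by
  rcases hθ.eq_or_lt with rfl | hθ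
  · simp [dev, ker]
  have hu : ∀ x, θ ^ 2 * ∑ k, a x k ^ 2 ≤ θ ^ 2 * S := fun x =>
    mul_le_mul_of_nonneg_left (hS x) (sq_nonneg θ)
  have hG := adm_dev p g a θ
  have hk : ∀ x m, Adm fun z : ι → ℝ => (ker a θ z x - 1) ^ m := fun x m =>
    ((adm_ker a θ x).sub (Adm.const 1)).pow m
  have bound : ∀ m, Even m → ∀ K : ℝ, (∀ x, ∫ z, (ker a θ z x - 1) ^ m ∂gauss ι ≤ K) →
      ∫ z, dev p g a θ z ^ m ∂gauss ι ≤ b ^ m * K := by
    intro m hm K hK
    have hi : ∀ x, Integrable (fun z => p x * (ker a θ z x - 1) ^ m) (gauss ι) := fun x =>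
      ((hk x m).const_mul (p x)).integrable
    refine (integral_mono (hG.pow m).integrable
      ((integrable_finsetSum _ fun x _ => hi x).const_mul (b ^ m))
      (dev_pow_le hp hp1 hg hm a θ)).trans ?_
    rw [integral_const_mul, integral_finsetSum _ fun x _ => hi x]
    refine mul_le_mul_of_nonneg_left ?_ (hm.pow_nonneg b)
    calc ∑ x, ∫ z, p x * (ker a θ z x - 1) ^ m ∂gauss ι ≤ ∑ x, p x * K :=
          Finset.sum_le_sum fun x _ => by
            rw [integral_const_mul]; exact mul_le_mul_of_nonneg_left (hK x) (hp x)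
      _ = K := by rw [← Finset.sum_mul, hp1, one_mul]
  have h2 := bound 2 even_two (Real.exp U * (θ ^ 2 * S)) fun x =>
    ((ker_moments a θ x ((hu x).trans hU)).1).trans
      (mul_le_mul_of_nonneg_left (hu x) (Real.exp_pos _).le)
  have h4 := bound 4 ⟨2, rfl⟩ (100 * Real.exp (6 * U) * (θ ^ 2 * S) ^ 2) fun x =>
    ((ker_moments a θ x ((hu x).trans hU)).2).trans
      (mul_le_mul_of_nonneg_left (pow_le_pow_left₀ (by positivity) (hu x) 2) (by positivity))
  have i4 : Integrable (fun z => dev p g a θ z ^ 4 / θ) (gauss ι) :=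
    (hG.pow 4).integrable.div_const θ
  have i2 : Integrable (fun z => θ * dev p g a θ z ^ 2) (gauss ι) :=
    (hG.pow 2).integrable.const_mul θ
  refine (integral_mono (hG.abs.pow 3).integrable (i4.fun_add i2)
    fun z => abs_cube_le _ hθ).trans ?_
  rw [integral_add i4 i2, integral_div, integral_const_mul]
  refine (add_le_add (div_le_div_of_nonneg_right h4 hθ.le)
    (mul_le_mul_of_nonneg_left h2 hθ.le)).trans (le_of_eq ?_)
  field_simp

end Vale.Agent.P150.PartB.GMix
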