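import Vale.Agent.P150.Fast.PartB.MacroSpec
import Vale.Agent.P150.Fast.PartB.InductionTools
import Vale.Agent.P150.Fast.PartB.Chan
import Vale.Agent.P150.Fast.PartB.VarBlock
import Vale.Agent.P150.Fast.PartB.FBound
import Vale.Agent.P150.Fast.PartB.PsiLip

/-!
# P150, Part B: the macro induction

Certificates at the grid times give the invariant by downward induction; the sets shrink by the leak
at the threshold `thr`, whose `N`-th power costs half of the exponential rate.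
-/

open MeasureTheory Matrix
open scoped Matrix.Norms.L2Operator

namespace Vale.Agent.P150.PartB

namespace InductionProof

variable {n : ℕ}

/-- the constants of the analytic inputs exist -/
lemma exists_con (hBB : BlockBarriers) {β c Λ η : ℝ} (hβ : 0 ≤ β) (hβ1 : β < 1) (hΛ : 0 < Λ)
    (hη : 0 < η) (hη1 : η ≤ 1) :
    ∃ L₀ P KV KF K : ℝ, 0 < L₀ ∧ Macro.Con β c Λ η L₀ P KV KF K := by
  obtain ⟨Kt, hKt, hT⟩ := psiLip β c Λ η hβ hβ1 hΛ hη 1 one_pos
  obtain ⟨Kh, hKh, hH⟩ := psiLip β c Λ (η / 2) hβ hβ1 hΛ (half_pos hη) 1 one_pos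
  obtain ⟨KV, hKV, hV⟩ := varBlock Λ hΛ
  set P := Real.exp (KV * ((2 + Kh) + 1)) with hPdef
  have hP : 0 < P := Real.exp_pos _
  obtain ⟨KF, hKF, hF⟩ := fBound Λ P hΛ hP
  obtain ⟨KB, hKB, hB⟩ := hBB β c Λ (η / 2) KF hβ hβ1 hΛ (half_pos hη) (by linarith) hKF
  set K := 1 + (2 + Kh) + KV + P + KF + Kt + KB with hK
  refine ⟨2 + Kh, P, KV, KF, K, by positivity, {
    one := by linarith
    cap := ⟨by linarith, by linarith⟩
    kv := ⟨hKV, by linarith⟩
    pdef := hPdef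
    ple := by linarith
    kf := ⟨hKF, by linarith⟩
    transport := ?_
    hbound := ?_
    varB := ?_
    fB := ?_
    bB := ⟨KB, hKB, by linarith, hB⟩ }⟩
  · intro n J B hJ s t hs ht m hm hC hst
    have hKtK : Kt * |s - t| ≤ K * |s - t| :=
      mul_le_mul_of_nonneg_right (by linarith) (abs_nonneg _)
    obtain ⟨h1, -, -, -, h5⟩ := hT n J B hJ s t hs ht m hm hC
    obtain ⟨h6, h7⟩ := h5 (hKtK.trans hst)
    refine ⟨fun v => le_trans ?_ (h1 v), h6.trans hKtK, h7.trans ?_⟩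
    · exact mul_le_mul_of_nonneg_right (by linarith) (Finset.sum_nonneg fun i _ => sq_nonneg _)
    · exact mul_le_mul_of_nonneg_right hKtK (Real.sqrt_nonneg _)
  · intro n J B hJ t ht m hm hC
    obtain ⟨-, -, h, -⟩ := hH n J B hJ t t ht ht m hm hC
    linarith
  · exact fun n J B hJ => hV n c J B hJ
  · exact fun n J B hJ => hF n c J B hJ

/-- a point of `[0, 1]` lies in a block of the grid -/
lemma exists_block {N : ℕ} (hN : 0 < N) {s : ℝ} (hs : s ∈ Set.Icc (0 : ℝ) 1) :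
    ∃ k < N, s ∈ Set.Icc ((k : ℝ) / N) (((k + 1 : ℕ) : ℝ) / N) := by
  have hN' : (0 : ℝ) < N := by exact_mod_cast hN
  refine ⟨min ⌊s * N⌋₊ (N - 1), by omega, ?_, ?_⟩
  · rw [div_le_iff₀ hN']
    exact le_trans (by exact_mod_cast min_le_left _ _) (Nat.floor_le (mul_nonneg hs.1 hN'.le))
  · rw [le_div_iff₀ hN']
    rcases le_total ⌊s * N⌋₊ (N - 1) with h | h
    · rw [min_eq_left h]
      push_cast
      exact (Nat.lt_floor_add_one _).le
    · rw [min_eq_right h, Nat.sub_add_cancel hN]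
      exact mul_le_of_le_one_left hN'.le hs.2

/-- The downward induction: at the grid time with `j` blocks above it there is a likely set on whose
thickening the invariant holds. -/
lemma exists_grid_set (hBS : Macro.BlockStep) (hM : Macro.MacroBase)
    {β c Λ η L₀ P KV KF K ε ρ Lk c₀ ε₂ κ : ℝ} {N : ℕ} {J B : Matrix (Fin n) (Fin n) ℝ}
    {cand : ℝ → (Fin n → ℝ) → Fin n → ℝ}
    (hS : Macro.Setting β c Λ η L₀ P KV KF K ε ρ Lk c₀ ε₂ κ N J B cand)
    (hcert : ∀ k ≤ N, ∃ S : Set (Fin n → ℝ), MeasurableSet S ∧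
      chanProb J B c ((k : ℝ) / N) Sᶜ ≤ Real.exp (-(c₀ * n)) ∧
      ∀ y ∈ S, Cert β c η ε ρ ε₂ ((k : ℝ) / N) J y (cand ((k : ℝ) / N) y)) :
    ∀ j k : ℕ, k + j = N → ∃ W : Set (Fin n → ℝ), MeasurableSet W ∧
      (∀ w ∈ W, Cert β c η ε ρ ε₂ ((k : ℝ) / N) J w (cand ((k : ℝ) / N) w)) ∧
      chanProb J B c ((k : ℝ) / N) Wᶜ ≤
        (j + 1 : ℝ) * Real.exp (-(c₀ * n)) / Par.thr c₀ (1 / N) n ^ j ∧
      Macro.Inv β η L₀ KV (Macro.dAt K ε (1 / N) j) (Macro.pAt K ε₂ (1 / N) j)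
        (Macro.rAt K ε₂ (1 / N) j) (Macro.eAt K Λ η ε₂ c₀ κ N n j) ρ J cand ((k : ℝ) / N)
        (thick W ((2 * k + 2) * κ * Real.sqrt n)) := by
  obtain ⟨hleak, hunion, hmono, hmeas, -⟩ := chanFacts n Λ c J B hS.ctl
  have hN : (0 : ℝ) < N := by exact_mod_cast hS.grid
  set t := Par.thr c₀ (1 / (N : ℝ)) n with ht
  have ht0 : 0 < t := Real.exp_pos _
  have ht1 : t ≤ 1 := Real.exp_le_one_iff.2 (by
    have := hS.rate
    have : 0 ≤ c₀ * (1 / (N : ℝ)) / 2 * n := by positivity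
    linarith)
  intro j
  induction j with
  | zero =>
    intro k hk
    obtain rfl : k = N := by omega
    obtain ⟨S, hSm, hSp, hSc⟩ := hcert k le_rfl
    refine ⟨S, hSm, hSc, by simpa using hSp, ?_⟩
    have e1 : (k : ℝ) / k = 1 := div_self hN.ne'
    rw [e1] at hSc ⊢
    simpa [Macro.dAt, Macro.pAt, Macro.rAt, Macro.eAt] using
      hM β c Λ η L₀ P KV KF K ε ρ Lk c₀ ε₂ κ k n J B cand hS S hSc
  | succ j ih =>
    intro k hk
    obtain ⟨W, hWm, hWc, hWp, hWi⟩ := ih (k + 1) (by omega)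
    obtain ⟨S, hSm, hSp, hSc⟩ := hcert k (by omega)
    obtain ⟨-, hnext⟩ := hBS β c Λ η L₀ P KV KF K ε ρ Lk c₀ ε₂ κ N n J B cand hS k j (by omega)
      W hWm hWc hWi
    set e := ((k + 1 : ℕ) : ℝ) / (N : ℝ) with he
    set V := {w | leak J B e ((k : ℝ) / N) W w ≤ t}
    refine ⟨S ∩ V, hSm.inter (measurableSet_le (hmeas e _ W hWm).1 measurable_const),
      fun w hw => hSc w hw.1, ?_, hnext _ fun w hw => ⟨hw.2, hSc w hw.1⟩⟩
    have hsub : (S ∩ V)ᶜ ⊆ Sᶜ ∪ {Y | t < leak J B e ((k : ℝ) / N) W Y} := fun Y hY => by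
      by_cases hYS : Y ∈ S
      · exact Or.inr (lt_of_not_ge fun h : leak J B e ((k : ℝ) / N) W Y ≤ t => hY ⟨hYS, h⟩)
      · exact Or.inl hYS
    have hle : (k : ℝ) / N ≤ e := by
      rw [he]; gcongr; exact Nat.le_succ k
    have htj : t ^ (j + 1) ≤ 1 := pow_le_one₀ ht0.le ht1
    calc chanProb J B c ((k : ℝ) / N) (S ∩ V)ᶜ
        ≤ Real.exp (-(c₀ * n)) + (j + 1 : ℝ) * Real.exp (-(c₀ * n)) / t ^ j / t := by
          refine (hmono _ _ _ hsub).trans ((hunion _ _ _).trans (add_le_add hSp ?_))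
          exact (hleak _ e t W hWm (by positivity) hle ht0).trans
            (div_le_div_of_nonneg_right hWp ht0.le)
      _ ≤ Real.exp (-(c₀ * n)) / t ^ (j + 1) + (j + 1 : ℝ) * Real.exp (-(c₀ * n)) / t ^ j / t := by
          gcongr
          rw [le_div_iff₀ (pow_pos ht0 _)]
          exact mul_le_of_le_one_right (Real.exp_pos _).le htj
      _ = ((j + 1 : ℕ) + 1 : ℝ) * Real.exp (-(c₀ * n)) / t ^ (j + 1) := by
          push_cast
          rw [pow_succ]
          field_simp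
          ring

end InductionProof

open InductionProof in
/-- Part B from the block inputs. -/
theorem covInduction_of (hBB : BlockBarriers) (hBS : Macro.BlockStep) (hM : Macro.MacroBase)
    (hPar : Par.Exists) : CovInduction := by
  intro β c Λ η hβ hβ1 _ hΛ hη hη1
  obtain ⟨L₀, P, KV, KF, K, hL, hCon⟩ := exists_con (c := c) hBB hβ hβ1 hΛ hη hη1
  obtain ⟨ε₀, hε₀, hε⟩ := hPar K Λ η hCon.one hΛ hη hη1
  refine ⟨ε₀, hε₀, fun ε he heb ρ Lk c₀ hρ hLk hc₀ => ?_⟩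
  obtain ⟨ε₂, hε₂, N, hN, κ, hκ, hOk, n₀, hn₀⟩ := hε ε he heb ρ Lk c₀ hρ hLk hc₀
  refine ⟨ε₂, hε₂, N, hN, L₀, κ, c₀ / 4, hL, hκ, by positivity, n₀,
    fun n hn J B cand hsymm hdiag hop hfac hlip hcert s hs => ?_⟩
  have hS : Macro.Setting β c Λ η L₀ P KV KF K ε ρ Lk c₀ ε₂ κ N J B cand := {
    beta := ⟨hβ, hβ1⟩
    lam := hΛ
    eta := ⟨hη, hη1⟩
    epos := ⟨he, hε₂⟩
    rho := hρ
    lip := hLk
    rate := hc₀
    kappa := hκ
    grid := hN
    con := hCon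
    ok := hOk
    okn := hn₀ n hn
    ctl := ⟨hsymm, hdiag, hop, hfac⟩
    candLip := hlip }
  obtain ⟨k, hk, hks⟩ := exists_block hN hs
  obtain ⟨j, rfl⟩ : ∃ j, N = k + 1 + j := ⟨N - (k + 1), by omega⟩
  obtain ⟨W, hWm, hWc, hWp, hWi⟩ := exists_grid_set hBS hM hS hcert j (k + 1) rfl
  obtain ⟨hblock, -⟩ := hBS β c Λ η L₀ P KV KF K ε ρ Lk c₀ ε₂ κ (k + 1 + j) n J B cand hS k j rfl
    W hWm hWc hWi
  obtain ⟨hleak, -, hmono, hmeas, -⟩ := chanFacts n Λ c J B hS.ctl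
  set N := k + 1 + j with hNdef
  set e := ((k + 1 : ℕ) : ℝ) / (N : ℝ)
  set t := Par.thr c₀ (1 / (N : ℝ)) n with ht
  have ht0 : 0 < t := Real.exp_pos _
  have hN' : (0 : ℝ) < N := by exact_mod_cast hN
  have ht1 : t ≤ 1 := Real.exp_le_one_iff.2 (by
    have : 0 ≤ c₀ * (1 / (N : ℝ)) / 2 * n := by positivity
    linarith)
  refine ⟨{w | leak J B e s W w ≤ t}, measurableSet_le (hmeas e s W hWm).1 measurable_const, ?_,
    fun y hy v hv => hblock s hks y hy v hv⟩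
  have hpow : t ^ N = Real.exp (-(c₀ / 2 * n)) := by
    rw [ht, Par.thr, ← Real.exp_nat_mul]
    congr 1
    field_simp
  have hexp : Real.exp (-(c₀ * n)) = Real.exp (-(c₀ / 2 * n)) * Real.exp (-(c₀ / 2 * n)) := by
    rw [← Real.exp_add]; ring_nf
  calc chanProb J B c s {w | leak J B e s W w ≤ t}ᶜ
      ≤ chanProb J B c e Wᶜ / t := by
        refine (hmono _ _ _ fun Y hY => ?_).trans (hleak s e t W hWm hs.1 hks.2 ht0)
        exact lt_of_not_ge (show ¬ leak J B e s W Y ≤ t from hY)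
    _ ≤ (j + 1 : ℝ) * Real.exp (-(c₀ * n)) / t ^ j / t := div_le_div_of_nonneg_right hWp ht0.le
    _ = (j + 1 : ℝ) * Real.exp (-(c₀ * n)) / t ^ (j + 1) := by rw [div_div, pow_succ]
    _ ≤ (N + 1 : ℝ) * Real.exp (-(c₀ * n)) / t ^ N := by
        refine div_le_div₀ (by positivity) (mul_le_mul_of_nonneg_right ?_ (Real.exp_pos _).le)
          (pow_pos ht0 N) (pow_le_pow_of_le_one ht0.le ht1 (by omega))
        have : (j : ℝ) ≤ N := by exact_mod_cast (by omega : j ≤ N)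
        linarith
    _ = (N + 1 : ℝ) * Real.exp (-(c₀ / 2 * n)) := by
        rw [hpow, hexp]
        field_simp
    _ ≤ Real.exp (-(c₀ / 4 * n)) := hS.okn.prob

end Vale.Agent.P150.PartB
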