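import Vale.Agent.P150.Fast.PartB.BlockSpec
import Vale.Agent.P150.Fast.PartB.Kernel

/-!
# P150, Part B: frozen interfaces of one step (`DStep`, `ResStep`)
-/

open MeasureTheory Matrix
open scoped Matrix.Norms.L2Operator

namespace Vale.Agent.P150.PartB

/-- the residual, cut off where the field is large -/
noncomputable def resClip {n : ℕ} (β t : ℝ) (J : Matrix (Fin n) (Fin n) ℝ) (Y : Fin n → ℝ)
    (i : Fin n) : ℝ :=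
  open scoped Classical in
  if ∀ j, |Y j| ≤ n then resM β t J Y (mean J t Y) i else 0

/-- `D²` and `D_j² D_k²` grow at most at rate `K` where the normalised covariance is bounded. -/
def DStep : Prop :=
  ∀ Λ K₀ : ℝ, 0 < Λ → 0 < K₀ → ∃ K : ℝ, 0 < K ∧
  ∀ (n : ℕ) (c : ℝ) (J B : Matrix (Fin n) (Fin n) ℝ), Ctl Λ c J B →
  ∀ (t θ : ℝ) (y : Fin n → ℝ), 0 ≤ θ → θ ^ 2 * n ≤ 1 → θ ≤ 1 → ‖fMat J t y‖ ≤ K₀ →
    (∀ j, kern J B t θ y (fun Y => (1 - mean J (t + θ ^ 2) Y j ^ 2) ^ 2) ≤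
      (1 + K * θ ^ 2) * (1 - mean J t y j ^ 2) ^ 2 + K * (n + 1 : ℝ) ^ 6 * θ ^ 3) ∧
    ∀ j k, kern J B t θ y
        (fun Y => ((1 - mean J (t + θ ^ 2) Y j ^ 2) * (1 - mean J (t + θ ^ 2) Y k ^ 2)) ^ 2) ≤
      (1 + K * θ ^ 2) * ((1 - mean J t y j ^ 2) * (1 - mean J t y k ^ 2)) ^ 2 +
        K * (n + 1 : ℝ) ^ 6 * θ ^ 3

/-- The expected displacement of the residual over one short step is `θ² (resDrift + O(1))`. -/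
def ResStep : Prop :=
  ∀ β c Λ K₀ : ℝ, 0 ≤ β → β < 1 → 0 < Λ → 0 < K₀ → ∃ K : ℝ, 0 < K ∧
  ∀ (n : ℕ) (J B : Matrix (Fin n) (Fin n) ℝ), Ctl Λ c J B →
  ∀ (t θ l δ : ℝ) (y : Fin n → ℝ), 0 ≤ t → 0 < θ → θ ^ 2 * n ≤ 1 → t + θ ^ 2 ≤ 1 → 0 < l → l ≤ 1 →
    0 < δ → δ ≤ 1 → K * (n + 1 : ℝ) ^ 4 * (θ ^ 2 + δ) ≤ l ^ 4 →
    (∀ i, l ≤ 1 - mean J t y i ^ 2) → (∀ i, |y i| + 1 ≤ n) → ‖fMat J t y‖ ≤ K₀ →
    ∀ w : Fin n → ℝ,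
      |∑ i, w i * (kern J B t θ y (fun Y => resClip β (t + θ ^ 2) J Y i) -
          resM β t J y (mean J t y) i -
          θ ^ 2 * resDrift β c t (J + c • 1) (mean J t y) (fMat J t y) i)| ≤
        nrm w * (K * θ ^ 2 + K * (n + 1 : ℝ) ^ 16 / l ^ 12 * (θ ^ 3 / δ ^ 3))

end Vale.Agent.P150.PartB
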