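import Vale.Agent.P150.Fast.PartB.StepTools
import Vale.Agent.P150.Fast.PartB.StepSpec
import Vale.Agent.P150.Fast.PartB.Coarse

/-!
# P150, Part B: frozen interfaces of the macro induction

`ChanFacts` (Chan.lean), `LocCap` (LocCap.lean), `Barrier` (Barrier.lean), `StepE` (StepE.lean),
`BlockBarriers` (BlockBarriers.lean). `CovInduction` is assembled from them in Induction.lean.
-/

open MeasureTheory Matrix
open scoped Matrix.Norms.L2Operator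

namespace Vale.Agent.P150.PartB

/-- the open thickening of a set -/
def thick {n : ℕ} (W : Set (Fin n → ℝ)) (r : ℝ) : Set (Fin n → ℝ) :=
  {Y | ∃ w ∈ W, nrm (fun i => Y i - w i) < r}

/-- radius of one landing from time `τ` to time `e`, in units of `√n` -/
noncomputable def landR (Λ τ e : ℝ) : ℝ := (e - τ) * Λ + 4 * Real.sqrt ((e - τ) * Λ)

/-- covariance minus the inverse TAP Jacobian (cut off where the latter is not definite) -/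
noncomputable def eMat {n : ℕ} (η β t : ℝ) (J : Matrix (Fin n) (Fin n) ℝ) (Y : Fin n → ℝ) :
    Matrix (Fin n) (Fin n) ℝ :=
  cov J t Y - rCut η β t J (mean J t Y)

/-- the leak, the channel and the thickenings -/
def ChanFacts : Prop :=
  ∀ (n : ℕ) (Λ c : ℝ) (J B : Matrix (Fin n) (Fin n) ℝ), Ctl Λ c J B →
    (∀ (s e thr : ℝ) (S : Set (Fin n → ℝ)), MeasurableSet S → 0 ≤ s → s ≤ e → 0 < thr →
      chanProb J B c s {Y | thr < leak J B e s S Y} ≤ chanProb J B c e Sᶜ / thr) ∧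
    (∀ (s : ℝ) (S T : Set (Fin n → ℝ)),
      chanProb J B c s (S ∪ T) ≤ chanProb J B c s S + chanProb J B c s T) ∧
    (∀ (s : ℝ) (S T : Set (Fin n → ℝ)), S ⊆ T → chanProb J B c s S ≤ chanProb J B c s T) ∧
    (∀ (e τ : ℝ) (S : Set (Fin n → ℝ)), MeasurableSet S →
      Measurable (leak J B e τ S) ∧ ∀ Y, 0 ≤ leak J B e τ S Y ∧ leak J B e τ S Y ≤ 1) ∧
    (∀ (e : ℝ) (S : Set (Fin n → ℝ)) (Y : Fin n → ℝ), leak J B e e S Y = Sᶜ.indicator 1 Y) ∧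
    (∀ (e τ θ : ℝ) (S : Set (Fin n → ℝ)) (Y : Fin n → ℝ), MeasurableSet S → 0 ≤ θ → τ + θ ^ 2 ≤ e →
      kern J B τ θ Y (fun Z => leak J B e (τ + θ ^ 2) S Z) = leak J B e τ S Y) ∧
    (∀ (W : Set (Fin n → ℝ)) (r : ℝ), MeasurableSet (thick W r)) ∧
    (∀ (e τ : ℝ) (S S' : Set (Fin n → ℝ)) (Y v : Fin n → ℝ), MeasurableSet S → MeasurableSet S' →
      τ ≤ e → (∀ Z ∈ S, Z + v ∈ S') →
      leak J B e τ S' (Y + v) ≤ Real.exp (2 * nrm v * Real.sqrt n) * leak J B e τ S Y) ∧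
    ∀ (e τ : ℝ) (S : Set (Fin n → ℝ)) (Y : Fin n → ℝ), MeasurableSet S → τ ≤ e → 0 < Λ →
      leak J B e τ S Y + Real.exp (-(n : ℝ)) < 1 →
      ∃ Z ∈ S, nrm (fun i => Z i - Y i) ≤ landR Λ τ e * Real.sqrt n

/-- A modulus of the mean at time `e` localises the mean at earlier times and caps the variance of
linear statistics. -/
def LocCap : Prop :=
  ∀ (n : ℕ) (Λ c : ℝ) (J B : Matrix (Fin n) (Fin n) ℝ), Ctl Λ c J B → 0 < Λ →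
  ∀ (τ e d r R : ℝ) (S S' : Set (Fin n → ℝ)), MeasurableSet S → MeasurableSet S' → τ ≤ e →
    0 ≤ r → 0 < R → R ≤ 1 / 4 → 2 * (r + landR Λ τ e) ≤ d →
    (∀ Z ∈ S, ∀ v : Fin n → ℝ, nrm v ≤ r * Real.sqrt n → Z + v ∈ S') →
    (∀ Z₁ ∈ S', ∀ Z₂ ∈ S', nrm (fun i => Z₁ i - Z₂ i) ≤ d * Real.sqrt n →
      nrm (fun i => mean J e Z₁ i - mean J e Z₂ i) ≤ R * Real.sqrt n) →
    ∀ Y, leak J B e τ S Y * Real.exp (2 * r * n) ≤ R → Real.exp (-(n : ℝ)) ≤ R →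
      (∀ Z ∈ S', nrm (fun i => Z i - Y i) ≤ d / 2 * Real.sqrt n →
        nrm (fun i => mean J τ Y i - mean J e Z i) ≤ 6 * R * Real.sqrt n) ∧
      ∀ v : Fin n → ℝ, varW ((1 - τ) • J) Y (linF v) ≤
        (1000 * R ^ 2 * n + 8 * n * ((1 + 2 / R) * Real.exp (-(r * R * n)))) * ∑ i, v i ^ 2

/-- A linear barrier: a quantity that grows at most at rate `G w + K q` per unit time where the leak
is small stays below `(B₀ + G h) e^{K h} w` up to a multiple of the leak. -/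
def Barrier : Prop :=
  ∀ (n : ℕ) (Λ c : ℝ) (J B : Matrix (Fin n) (Fin n) ℝ), Ctl Λ c J B →
  ∀ (s e θ₂ B₀ G K C C' err θm : ℝ) (S : Set (Fin n → ℝ)) (q w : ℝ → (Fin n → ℝ) → ℝ),
    MeasurableSet S → s ≤ e → 0 < θ₂ → θ₂ ≤ 1 → 0 ≤ B₀ → 0 ≤ G → 0 ≤ K → 0 ≤ C → 0 < θm →
    (∀ t, Measurable (q t) ∧ Measurable (w t)) →
    (∀ t ∈ Set.Icc s e, ∀ Y, |q t Y| ≤ C ∧ 0 ≤ w t Y ∧ w t Y ≤ C') →
    (∀ Y ∈ S, q e Y ≤ B₀ * w e Y) →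
    (∀ t θ : ℝ, s ≤ t → 0 < θ → θ ≤ θm → t + θ ^ 2 ≤ e → ∀ Y, leak J B e t S Y ≤ θ₂ →
      q t Y ≤ kern J B t θ Y (q (t + θ ^ 2)) + G * θ ^ 2 * w t Y + err * θ ^ 3 ∧
      kern J B t θ Y (w (t + θ ^ 2)) ≤ (1 + K * θ ^ 2) * w t Y + err * θ ^ 3) →
    ∀ τ ∈ Set.Icc s e, ∀ Y,
      q τ Y ≤ (B₀ + G * (e - τ)) * Real.exp (K * (e - τ)) * w τ Y + C / θ₂ * leak J B e τ S Y

/-- One short step of `C - kHat⁻¹`. -/
def StepE : Prop :=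
  ∀ β c Λ η K₀ : ℝ, 0 ≤ β → β < 1 → 0 < Λ → 0 < η → η ≤ 1 → 0 < K₀ → ∃ K : ℝ, 0 < K ∧
  ∀ (n : ℕ) (J B : Matrix (Fin n) (Fin n) ℝ), Ctl Λ c J B →
  ∀ (t θ l δ : ℝ) (y : Fin n → ℝ), 0 ≤ t → 0 < θ → θ ≤ 1 → θ ^ 2 * n ≤ 1 → t + θ ^ 2 ≤ 1 →
    0 < l → l ≤ 1 → 0 < δ → δ ≤ 1 → K * (n + 1 : ℝ) ^ 4 * (θ ^ 2 + δ) ≤ l ^ 4 →
    (∀ i, l ≤ 1 - mean J t y i ^ 2) → ‖fMat J t y‖ ≤ K₀ →
    (∀ v : Fin n → ℝ, η * ∑ i, v i ^ 2 ≤ v ⬝ᵥ kHat β t J (mean J t y) *ᵥ v) →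
      let m := mean J t y
      eMat (η / 2) β t J y = dMat m * (fMat J t y - hMat β t J m) * dMat m ∧
      ∃ X : Matrix (Fin n) (Fin n) ℝ, ‖X‖ ≤ K / Real.sqrt n ∧ ∀ i j,
        |eMat (η / 2) β t J y i j - kern J B t θ y (fun Y => eMat (η / 2) β (t + θ ^ 2) J Y i j) -
          θ ^ 2 * (dMat m * (psiMain β t J (J + c • 1) m (hMat β t J m) (fMat J t y) + X) * dMat m) i j| ≤
        K * (n + 1 : ℝ) ^ 18 / l ^ 12 * (θ ^ 3 / δ ^ 3)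

/-- The three second-order quantities over one block. Where the leak is below `θ₂` the Jacobian is
definite and the drifts at `F = H` are small; at the end of the block the quantities are small on
`S`. Then they are small where the leak is far below `θ₂`. -/
def BlockBarriers : Prop :=
  ∀ β c Λ η K₀ : ℝ, 0 ≤ β → β < 1 → 0 < Λ → 0 < η → η ≤ 1 → 0 < K₀ → ∃ K : ℝ, 0 < K ∧
  ∀ (n : ℕ) (J B : Matrix (Fin n) (Fin n) ℝ), Ctl Λ c J B → 0 < n →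
  ∀ (s e θ₂ l εb ε₂ δ φ r : ℝ) (S : Set (Fin n → ℝ)), 0 ≤ s → s < e → e ≤ 1 → MeasurableSet S →
    0 < θ₂ → θ₂ ≤ 1 → 0 < l → l ≤ 1 → εb ∈ Set.Icc (0 : ℝ) 1 → ε₂ ∈ Set.Icc (0 : ℝ) 1 →
    δ ∈ Set.Icc (0 : ℝ) 1 → φ ∈ Set.Icc (0 : ℝ) 1 → 0 ≤ r →
    (∀ t ∈ Set.Icc s e, ∀ Y, leak J B e t S Y ≤ θ₂ →
      ‖fMat J t Y‖ ≤ K₀ ∧ (∀ i, |Y i| + 1 ≤ n) ∧ (∀ i, l ≤ 1 - mean J t Y i ^ 2) ∧
      (∀ v : Fin n → ℝ, η * ∑ i, v i ^ 2 ≤ v ⬝ᵥ kHat β t J (mean J t Y) *ᵥ v) ∧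
      ‖psiMain β t J (J + c • 1) (mean J t Y) (hMat β t J (mean J t Y))
          (hMat β t J (mean J t Y))‖ ≤ εb ∧
      fnrm (psiMain β t J (J + c • 1) (mean J t Y) (hMat β t J (mean J t Y))
          (hMat β t J (mean J t Y))) ≤ ε₂ * Real.sqrt n ∧
      nrm (resDrift β c t (J + c • 1) (mean J t Y) (hMat β t J (mean J t Y))) ≤ ε₂ * Real.sqrt n) →
    (∀ Y ∈ S, ‖fMat J e Y - hMat β e J (mean J e Y)‖ ≤ δ ∧
      fnrm (fMat J e Y - hMat β e J (mean J e Y)) ≤ φ * Real.sqrt n ∧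
      nrm (resM β e J Y (mean J e Y)) ≤ r * Real.sqrt n) →
    let h := e - s
    let g := h + 1 / Real.sqrt n
    ∀ τ ∈ Set.Icc s e, ∀ Y, leak J B e τ S Y * (K * (n + 2 : ℝ) ^ 20) ≤ θ₂ * h ^ 6 * l ^ 8 →
      ‖fMat J τ Y - hMat β τ J (mean J τ Y)‖ ≤ Real.exp (K * h) * (δ + K * (εb + g) * h) ∧
      fnrm (fMat J τ Y - hMat β τ J (mean J τ Y)) ≤
        Real.exp (K * h) * (φ + K * (ε₂ + g) * h) * Real.sqrt n ∧
      nrm (resM β τ J Y (mean J τ Y)) ≤ (r + K * (ε₂ + φ + g) * h) * Real.sqrt n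

end Vale.Agent.P150.PartB
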