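import Vale.Agent.P150.Fast.PartB.Kernel
import Vale.Agent.P150.Fast.PartB.BlockSpec
import Vale.Agent.P150.Fast.PartB.PsiLip

/-!
# P150, Part B: tools for one step of the induction

Entrywise expectations of matrices, linearity of the second-order coefficients, and the bound of a
bad landing by third moments.
-/

open MeasureTheory Matrix
open scoped Matrix.Norms.L2Operator

namespace Vale.Agent.P150.PartB

variable {n : ℕ}

/-- the inverse Jacobian where it is definite, zero elsewhere -/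
noncomputable def rCut (η β t : ℝ) (J : Matrix (Fin n) (Fin n) ℝ) (m : Fin n → ℝ) :
    Matrix (Fin n) (Fin n) ℝ :=
  open scoped Classical in
  if (∀ v : Fin n → ℝ, η * ∑ i, v i ^ 2 ≤ v ⬝ᵥ kHat β t J m *ᵥ v) then (kHat β t J m)⁻¹ else 0

/-- entrywise expectation of a matrix -/
noncomputable def kernMat (J B : Matrix (Fin n) (Fin n) ℝ) (s θ : ℝ) (y : Fin n → ℝ)
    (G : (Fin n → ℝ) → Matrix (Fin n) (Fin n) ℝ) : Matrix (Fin n) (Fin n) ℝ :=
  Matrix.of fun i j => kern J B s θ y fun Y => G Y i j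

lemma norm_rCut (η β t : ℝ) (hη : 0 < η) (J : Matrix (Fin n) (Fin n) ℝ) (m : Fin n → ℝ) :
    ‖rCut η β t J m‖ ≤ 1 / η := by
  unfold rCut
  split_ifs with h
  · exact Fast.OpNorm.opLe_iff_norm_le.1 (Fast.OpNorm.opLe_inv_of_coercive hη h)
  · simpa using hη.le

lemma abs_entry_le_norm (X : Matrix (Fin n) (Fin n) ℝ) (i j : Fin n) : |X i j| ≤ ‖X‖ :=
  PsiLip.abs_entry_le X i j

lemma norm_le_entries (X : Matrix (Fin n) (Fin n) ℝ) {b : ℝ} (hb : ∀ i j, |X i j| ≤ b) :
    ‖X‖ ≤ n * b := by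
  rcases Nat.eq_zero_or_pos n with rfl | hn
  · rw [show X = 0 from Subsingleton.elim _ _]; simp
  · have h0 : 0 ≤ b := (abs_nonneg _).trans (hb ⟨0, hn⟩ ⟨0, hn⟩)
    refine Fast.OpNorm.opLe_iff_norm_le.1 ((Fast.OpNorm.opLe_of_abs_sums (X := X) (R := n * b) (C := n * b)
      (by positivity) (by positivity) (fun i => ?_) fun j => ?_).mono
        (le_of_eq (Real.sqrt_mul_self (by positivity))))
    all_goals
      refine (Finset.sum_le_sum fun k _ => hb _ _).trans (le_of_eq ?_)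
      simp

/-- a linear map on matrices acts on expectations entrywise -/
lemma map_eq_sum (Φ : Matrix (Fin n) (Fin n) ℝ →ₗ[ℝ] Matrix (Fin n) (Fin n) ℝ)
    (P : Matrix (Fin n) (Fin n) ℝ) (i j : Fin n) :
    Φ P i j = ∑ k, ∑ l, P k l * Φ (Matrix.single k l 1) i j := by
  conv_lhs => rw [Matrix.matrix_eq_sum_single P]
  simp only [map_sum, Matrix.sum_apply]
  refine Finset.sum_congr rfl fun k _ => Finset.sum_congr rfl fun l _ => ?_
  rw [show Matrix.single k l (P k l) = P k l • Matrix.single k l (1 : ℝ) by simp, map_smul]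
  rfl

/-- `qLin` as a linear map -/
noncomputable def qMap (β t : ℝ) (m : Fin n → ℝ) :
    Matrix (Fin n) (Fin n) ℝ →ₗ[ℝ] Matrix (Fin n) (Fin n) ℝ where
  toFun := Drift.qLin β t m
  map_add' P Q := by
    ext i j
    simp only [Drift.qLin, Matrix.add_apply, Matrix.sub_apply, Matrix.smul_apply, smul_eq_mul,
      Matrix.diagonal_apply, Matrix.trace_add, Matrix.one_apply]
    split_ifs <;> ring
  map_smul' r P := by
    ext i j
    simp only [Drift.qLin, RingHom.id_apply, Matrix.sub_apply, Matrix.smul_apply, smul_eq_mul,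
      Matrix.diagonal_apply, Matrix.trace_smul, Matrix.one_apply]
    split_ifs <;> ring

/-- `sqLin` as a linear map -/
noncomputable def sqMap (β t : ℝ) (m : Fin n → ℝ) (R : Matrix (Fin n) (Fin n) ℝ) :
    Matrix (Fin n) (Fin n) ℝ →ₗ[ℝ] Matrix (Fin n) (Fin n) ℝ where
  toFun := Drift.sqLin β t m R
  map_add' P Q := by
    ext i j
    simp only [Drift.sqLin, Drift.diagDiag, Drift.diagRest, Drift.restRest, Matrix.add_apply,
      Matrix.sub_apply, Matrix.smul_apply, smul_eq_mul, Matrix.transpose_apply,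
      Matrix.diagonal_mul, Matrix.mul_diagonal, Matrix.hadamard_apply, vecMulVec_apply,
      Matrix.add_mulVec, Matrix.mulVec_add, Matrix.add_mul, Matrix.mul_add, Matrix.trace_add,
      dotProduct_add, Pi.add_apply]
    ring
  map_smul' r P := by
    ext i j
    simp only [Drift.sqLin, Drift.diagDiag, Drift.diagRest, Drift.restRest, RingHom.id_apply,
      Matrix.add_apply, Matrix.sub_apply, Matrix.smul_apply, smul_eq_mul, Matrix.transpose_apply,
      Matrix.diagonal_mul, Matrix.mul_diagonal, Matrix.hadamard_apply, vecMulVec_apply,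
      Matrix.smul_mulVec, Matrix.mulVec_smul, Matrix.smul_mul, Matrix.mul_smul, Matrix.trace_smul,
      dotProduct_smul, Pi.smul_apply]
    ring

/-- congruence by `R` as a linear map -/
noncomputable def conjMap (R : Matrix (Fin n) (Fin n) ℝ) :
    Matrix (Fin n) (Fin n) ℝ →ₗ[ℝ] Matrix (Fin n) (Fin n) ℝ :=
  LinearMap.mulLeft ℝ R ∘ₗ LinearMap.mulRight ℝ R

/-- the second-order part of the displacement of `kHat⁻¹` -/
noncomputable def quadMap (β t : ℝ) (m : Fin n → ℝ) (R : Matrix (Fin n) (Fin n) ℝ) :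
    Matrix (Fin n) (Fin n) ℝ →ₗ[ℝ] Matrix (Fin n) (Fin n) ℝ :=
  conjMap R ∘ₗ (sqMap β t m R - qMap β t m)

/-- the first-order part of the displacement of `kHat⁻¹` -/
noncomputable def linMap (β t : ℝ) (m : Fin n → ℝ) (R : Matrix (Fin n) (Fin n) ℝ) :
    (Fin n → ℝ) →ₗ[ℝ] Matrix (Fin n) (Fin n) ℝ where
  toFun d := -(R * Drift.lMat β t m d * R)
  map_add' d e := by
    have h : Drift.lMat β t m (d + e) = Drift.lMat β t m d + Drift.lMat β t m e := by
      ext i j
      simp only [Drift.lMat, Matrix.add_apply, Matrix.sub_apply, Matrix.smul_apply, smul_eq_mul,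
        Matrix.diagonal_apply, Pi.add_apply, dotProduct_add, vecMulVec_apply, Matrix.one_apply]
      split_ifs <;> ring
    rw [h, Matrix.mul_add, Matrix.add_mul, neg_add]
  map_smul' r d := by
    have h : Drift.lMat β t m (r • d) = r • Drift.lMat β t m d := by
      ext i j
      simp only [Drift.lMat, Matrix.add_apply, Matrix.sub_apply, Matrix.smul_apply, smul_eq_mul,
        Matrix.diagonal_apply, Pi.smul_apply, dotProduct_smul, vecMulVec_apply, Matrix.one_apply]
      split_ifs <;> ring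
    simp [h]

lemma linMap_eq_sum (Φ : (Fin n → ℝ) →ₗ[ℝ] Matrix (Fin n) (Fin n) ℝ) (d : Fin n → ℝ) (i j : Fin n) :
    Φ d i j = ∑ k, d k * Φ (Pi.single k 1) i j := by
  conv_lhs => rw [pi_eq_sum_univ' d]
  simp [map_sum, map_smul, Matrix.sum_apply]

/-- A bad landing costs no more than the third moment. -/
lemma bad_le {δ u : ℝ} (hδ : 0 < δ) (hδ1 : δ ≤ 1) (hu : δ < u) :
    1 ≤ u ^ 3 / δ ^ 3 ∧ u ≤ u ^ 3 / δ ^ 3 ∧ u ^ 2 ≤ u ^ 3 / δ ^ 3 := by
  have h0 : 0 < u := hδ.trans hu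
  have h3 : δ ^ 3 ≤ δ ^ 2 := by nlinarith [sq_nonneg δ]
  have h2 : δ ^ 2 ≤ δ := by nlinarith
  refine ⟨?_, ?_, ?_⟩ <;> rw [le_div_iff₀ (by positivity)]
  · rw [one_mul]; exact pow_le_pow_left₀ hδ.le hu.le 3
  · calc u * δ ^ 3 ≤ u * δ ^ 2 := by gcongr
      _ ≤ u * u ^ 2 := mul_le_mul_of_nonneg_left (pow_le_pow_left₀ hδ.le hu.le 2) h0.le
      _ = u ^ 3 := by ring
  · calc u ^ 2 * δ ^ 3 ≤ u ^ 2 * δ := by gcongr; linarith
      _ ≤ u ^ 2 * u := by gcongr
      _ = u ^ 3 := by ring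

lemma mul_le_cube {θ u : ℝ} (hθ : 0 < θ) (hu : 0 ≤ u) : θ ^ 2 * u ≤ u ^ 3 + θ ^ 3 := by
  rcases le_total u θ with h | h
  · have : θ ^ 2 * u ≤ θ ^ 2 * θ := mul_le_mul_of_nonneg_left h (sq_nonneg θ)
    nlinarith [pow_nonneg hu 3]
  · have : θ ^ 2 * u ≤ u ^ 2 * u := mul_le_mul_of_nonneg_right (pow_le_pow_left₀ hθ.le h 2) hu
    nlinarith [pow_nonneg hθ.le 3]

end Vale.Agent.P150.PartB
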